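import Vale.Agent.P227.Lp.Worst
import Vale.Agent.P227.Zono.Area

/-!
# P227: Minkowski's second inequality and maxima of the volume along lines
-/

namespace Vale.Agent.P227.Lp

open MeasureTheory Set Filter Topology Matrix Function
open scoped Pointwise

noncomputable section

variable {N : ℕ} {ν : Fin N → V3}

/-- Brunn–Minkowski along segments of support numbers. -/
theorem vol_log_concave (h1 : Calc1 ν) {u w : Fin N → ℝ} (hu : ∀ i, 0 < u i) (hw : ∀ i, 0 < w i)
    {a b : ℝ} (ha : 0 < a) (hb : 0 < b) (hab : a + b = 1) :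
    a * Real.log (vol ν u) + b * Real.log (vol ν w) ≤ Real.log (vol ν (a • u + b • w)) := by
  have hp : ∀ i, 0 < (a • u + b • w) i := fun i =>
    add_pos (mul_pos ha (hu i)) (mul_pos hb (hw i))
  have hsub : a • body ν u + b • body ν w ⊆ body ν (a • u + b • w) := by
    rintro z ⟨_, ⟨x, hx, rfl⟩, _, ⟨y, hy, rfl⟩, rfl⟩ i
    simp only [dotProduct_add, dotProduct_smul, smul_eq_mul, Pi.add_apply, Pi.smul_apply]
    refine (abs_add_le _ _).trans ?_
    rw [abs_mul, abs_mul, abs_of_pos ha, abs_of_pos hb]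
    exact add_le_add (mul_le_mul_of_nonneg_left (hx i) ha.le)
      (mul_le_mul_of_nonneg_left (hy i) hb.le)
  have hne : ∀ v, volume (body ν v) ≠ ⊤ := fun v => (h1.compact v).measure_lt_top.ne
  have key := (Zono.brunn_minkowski (h1.compact u) (h1.compact w) ha hb hab).trans
    (measure_mono hsub)
  have hreal : vol ν u ^ a * vol ν w ^ b ≤ vol ν (a • u + b • w) := by
    have := ENNReal.toReal_mono (hne _) key
    rwa [ENNReal.toReal_mul, ← ENNReal.toReal_rpow, ← ENNReal.toReal_rpow] at this
  have pu := h1.vol_pos u hu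
  have pw := h1.vol_pos w hw
  have := Real.log_le_log (mul_pos (Real.rpow_pos_of_pos pu a) (Real.rpow_pos_of_pos pw b)) hreal
  rwa [Real.log_mul (Real.rpow_pos_of_pos pu a).ne' (Real.rpow_pos_of_pos pw b).ne',
    Real.log_rpow pu, Real.log_rpow pw] at this

theorem hasDerivAt_line (h : Fin N → ℝ) (g : Fin N → ℝ) (t : ℝ) :
    HasDerivAt (fun t : ℝ => h + t • g) g t := by
  simpa using ((hasDerivAt_id t).smul_const g).const_add h

theorem hasDerivAt_vol_line (h1 : Calc1 ν) (h g : Fin N → ℝ) {t : ℝ}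
    (ht : ∀ i, 0 < (h + t • g) i) :
    HasDerivAt (fun t => vol ν (h + t • g)) (∑ i, grad ν (h + t • g) i * g i) t := by
  have := (h1.hasFDeriv _ ht).comp_hasDerivAt t (hasDerivAt_line h g t)
  simpa [Function.comp_def] using this

theorem hasDerivAt_grad_line (h2 : Calc2 ν) (h g : Fin N → ℝ) {t : ℝ} (ht : Full ν (h + t • g)) :
    HasDerivAt (fun t => ∑ i, grad ν (h + t • g) i * g i)
      (∑ i, ∑ j, hess ν (h + t • g) i j * g i * g j) t := by
  refine (HasDerivAt.fun_sum fun i _ =>
    ((h2.hasFDeriv _ ht i).comp_hasDerivAt t (hasDerivAt_line h g t)).mul_const (g i)).congr_deriv ?_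
  simp [Finset.sum_mul]
  exact Finset.sum_congr rfl fun i _ => Finset.sum_congr rfl fun j _ => by ring

theorem eventually_pos_line (h g : Fin N → ℝ) (hh : ∀ i, 0 < h i) :
    ∀ᶠ t in 𝓝 (0 : ℝ), ∀ i, 0 < (h + t • g) i :=
  eventually_all.2 fun i => (Continuous.tendsto' (by fun_prop) 0 (h i) (by simp)).eventually
    (eventually_gt_nhds (hh i))

theorem concaveOn_log_vol (h1 : Calc1 ν) (h g : Fin N → ℝ) {I : Set ℝ} (hI : Convex ℝ I)
    (hpos : ∀ t ∈ I, ∀ i, 0 < (h + t • g) i) :
    ConcaveOn ℝ I fun t => Real.log (vol ν (h + t • g)) := by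
  refine concaveOn_iff_forall_pos.2 ⟨hI, fun x hx y hy a b ha hb hab => ?_⟩
  have e : h + (a • x + b • y) • g = a • (h + x • g) + b • (h + y • g) := by
    rw [smul_add, smul_add, smul_smul, smul_smul, add_add_add_comm, ← add_smul, ← add_smul, hab,
      one_smul]
    simp [smul_eq_mul]
  simp only [e, smul_eq_mul] at *
  exact vol_log_concave h1 (hpos x hx) (hpos y hy) ha hb hab

/-- A critical point of the volume along a line is a local maximum. -/
theorem vol_le_of_critical (h1 : Calc1 ν) (h g : Fin N → ℝ) (hh : ∀ i, 0 < h i)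
    (h0 : ∑ i, grad ν h i * g i = 0) :
    ∀ᶠ t in 𝓝 (0 : ℝ), vol ν (h + t • g) ≤ vol ν h := by
  obtain ⟨δ, hδ, hb⟩ := Metric.eventually_nhds_iff.1 (eventually_pos_line h g hh)
  set I := Metric.ball (0 : ℝ) δ
  have hpos : ∀ t ∈ I, ∀ i, 0 < (h + t • g) i := fun t ht => hb (Metric.mem_ball.1 ht)
  have hc := concaveOn_log_vol h1 h g (convex_ball 0 δ) hpos
  have hd : HasDerivAt (fun t : ℝ => Real.log (vol ν (h + t • g))) 0 0 := by
    have := (hasDerivAt_vol_line h1 h g (t := 0) (by simpa using hh)).log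
      (by simpa using (h1.vol_pos h hh).ne')
    simpa [h0] using this
  filter_upwards [Metric.ball_mem_nhds (0 : ℝ) hδ] with t ht
  have h0m : (0 : ℝ) ∈ I := Metric.mem_ball_self hδ
  have key : Real.log (vol ν (h + t • g)) ≤ Real.log (vol ν h) := by
    rcases lt_trichotomy t 0 with htn | rfl | htp
    · have := hc.le_slope_of_hasDerivAt ht h0m htn hd
      rw [slope_def_field, le_div_iff₀ (by linarith), zero_mul] at this
      simp at this
      linarith
    · simp
    · have := hc.slope_le_of_hasDerivAt h0m ht htp hd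
      rw [slope_def_field, div_le_iff₀ (by linarith), zero_mul] at this
      simp at this
      linarith
  exact (Real.log_le_log_iff (h1.vol_pos _ (hpos t ht)) (h1.vol_pos h hh)).1 key

theorem form_one (h2 : Calc2 ν) (hF : Full ν 1) (f : Fin N → ℝ) : form ν f 1 = mean ν f := by
  simp only [form, mean, mass, Finset.sum_div]
  refine Finset.sum_congr rfl fun i _ => ?_
  have e := h2.euler 1 hF i
  simp only [Pi.one_apply, mul_one] at e ⊢
  rw [← Finset.sum_div, ← Finset.sum_mul, e]
  ring

theorem mean_one (h1 : Calc1 ν) (hF : Full ν 1) : mean ν 1 = 1 := by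
  have e := h1.euler 1 hF.1
  simp only [Pi.one_apply, one_mul] at e
  simp only [mean, mass, Pi.one_apply, mul_one, ← Finset.sum_div, e]
  exact div_self (mul_pos three_pos (h1.vol_pos 1 hF.1)).ne'

theorem form_comm (h2 : Calc2 ν) (hF : Full ν 1) (f g : Fin N → ℝ) : form ν f g = form ν g f := by
  rw [form, form, Finset.sum_comm]
  congr 1
  exact Finset.sum_congr rfl fun i _ => Finset.sum_congr rfl fun j _ => by
    rw [h2.symm 1 hF j i]
    ring

/-- Minkowski's second inequality. -/
theorem bound_zero (hcalc : CalcStatement) (hν : Fam ν) (hF : Full ν 1) : Bound 0 ν := by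
  obtain ⟨h1, h2⟩ := hcalc N ν hν
  intro f
  set μ := mean ν f with hμ
  set g : Fin N → ℝ := f - μ • 1 with hg
  have hg0 : mean ν g = 0 := by
    have e : mean ν g = mean ν f - μ * mean ν 1 := by
      simp [hg, mean, mul_sub, Finset.sum_sub_distrib, ← Finset.sum_mul, mul_comm μ]
    rw [e, mean_one h1 hF, mul_one, sub_self]
  have hV := h1.vol_pos 1 hF.1
  have hgrad0 : ∑ i, grad ν 1 i * g i = 0 := by
    have e : mean ν g = (∑ i, grad ν 1 i * g i) / (3 * vol ν 1) := by
      rw [Finset.sum_div]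
      exact Finset.sum_congr rfl fun i _ => by rw [mass]; ring
    rw [e, div_eq_zero_iff] at hg0
    exact hg0.resolve_right (by positivity)
  have key : form ν g g ≤ 0 := by
    by_contra! hpos
    have hD : 0 < ∑ i, ∑ j, hess ν 1 i j * g i * g j := by
      rw [form] at hpos
      exact (div_pos_iff_of_pos_right (by positivity)).1 hpos
    have hd : HasDerivAt (fun t : ℝ => ∑ i, grad ν (1 + t • g) i * g i)
        (∑ i, ∑ j, hess ν 1 i j * g i * g j) 0 := by
      simpa using hasDerivAt_grad_line h2 1 g (t := 0) (by simpa using hF)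
    have hs := (hasDerivAt_iff_tendsto_slope.1 hd).eventually (eventually_gt_nhds hD)
    have hev : ∀ᶠ t in 𝓝[>] (0 : ℝ), 0 < ∑ i, grad ν (1 + t • g) i * g i := by
      filter_upwards [hs.filter_mono (nhdsWithin_mono _ fun x (hx : 0 < x) => hx.ne'),
        self_mem_nhdsWithin] with t ht (htp : 0 < t)
      rw [slope_def_field, lt_div_iff₀ (by linarith), zero_mul] at ht
      simpa [hgrad0] using ht
    obtain ⟨δ, hδ, hsub⟩ := mem_nhdsGT_iff_exists_Ioo_subset.1 (hev.and
      ((eventually_pos_line 1 g hF.1).and (vol_le_of_critical h1 1 g hF.1 hgrad0)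
        |>.filter_mono nhdsWithin_le_nhds))
    have hc : ContinuousOn (fun t : ℝ => vol ν (1 + t • g)) (Icc 0 (δ / 2)) := fun t ht => by
      have hp : ∀ i, 0 < ((1 : Fin N → ℝ) + t • g) i := by
        rcases ht.1.eq_or_lt with rfl | h
        · simp
        · exact (hsub ⟨h, by linarith [ht.2, Set.mem_Ioi.1 hδ]⟩).2.1
      exact (hasDerivAt_vol_line h1 1 g hp).continuousAt.continuousWithinAt
    have hmono : StrictMonoOn (fun t : ℝ => vol ν (1 + t • g)) (Icc 0 (δ / 2)) := by
      refine strictMonoOn_of_deriv_pos (convex_Icc _ _) hc fun t ht => ?_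
      rw [interior_Icc] at ht
      have hm := hsub ⟨ht.1, by linarith [ht.2, Set.mem_Ioi.1 hδ]⟩
      rw [(hasDerivAt_vol_line h1 1 g hm.2.1).deriv]
      exact hm.1
    have hδ' : (0 : ℝ) < δ / 2 := half_pos hδ
    have h3 := hmono (left_mem_Icc.2 hδ'.le) (right_mem_Icc.2 hδ'.le) hδ'
    have h4 := (hsub ⟨hδ', by linarith⟩).2.2
    simp at h3
    linarith
  have hexp : form ν f f = form ν g g + μ ^ 2 := by
    have e : form ν g g = form ν f f - μ * form ν f 1 - μ * form ν 1 f + μ * μ * form ν 1 1 := by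
      simp only [form, hg, Pi.sub_apply, Pi.smul_apply, Pi.one_apply, smul_eq_mul, mul_div_assoc',
        Finset.mul_sum]
      rw [← sub_div, ← sub_div, ← add_div, ← Finset.sum_sub_distrib, ← Finset.sum_sub_distrib,
        ← Finset.sum_add_distrib]
      refine congrArg (· / _) (Finset.sum_congr rfl fun i _ => ?_)
      rw [← Finset.sum_sub_distrib, ← Finset.sum_sub_distrib, ← Finset.sum_add_distrib]
      exact Finset.sum_congr rfl fun j _ => by ring
    rw [e, form_comm h2 hF 1 f, form_one h2 hF, form_one h2 hF, mean_one h1 hF, ← hμ]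
    ring
  rw [zero_mul, add_zero, add_zero, one_mul, hexp]
  linarith

end

end Vale.Agent.P227.Lp
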