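import Vale.Agent.P227.Lp.Calc.Second

/-!
# P227: the calculus of the volume of symmetric polytopes in space

The slabs are split into half spaces and the general calculus is specialised.
-/

namespace Vale.Agent.P227.Lp

open MeasureTheory Set Filter Topology Matrix Function Calc
open scoped Pointwise

noncomputable section

variable {ι : Type} [Fintype ι] [DecidableEq ι] {ν : ι → V3}

/-- The two half spaces of every slab. -/
def halves (ν : ι → V3) (k : ι × Bool) : V3 := if k.2 then ν k.1 else -ν k.1

/-- The offsets of both half spaces. -/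
def pairs : (ι → ℝ) →L[ℝ] (ι × Bool → ℝ) :=
  ContinuousLinearMap.pi fun k => ContinuousLinearMap.proj (R := ℝ) (φ := fun _ : ι => ℝ) k.1

omit [Fintype ι] [DecidableEq ι] in
@[simp] theorem pairs_apply (h : ι → ℝ) (k : ι × Bool) : pairs h k = h k.1 := rfl

omit [Fintype ι] [DecidableEq ι] in
theorem gfam_halves (hν : Fam ν) : GFam (halves ν) := by
  refine ⟨fun k => ?_, fun y hy => hν.span y fun i => le_antisymm ?_ ?_, fun k p hkp hc => ?_⟩
  · rcases k with ⟨i, _ | _⟩ <;> simp [halves, hν.ne_zero i]
  · simpa [halves] using hy (i, true)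
  · simpa [halves] using hy (i, false)
  · have hi : k.1 = p.1 := by
      by_contra h
      refine hν.indep _ _ h ?_
      rcases k with ⟨i, _ | _⟩ <;> rcases p with ⟨j, _ | _⟩ <;>
        simpa [halves, -cross_anticomm] using hc
    rcases k with ⟨i, _ | _⟩ <;> rcases p with ⟨j, _ | _⟩ <;> simp_all [halves]

omit [Fintype ι] [DecidableEq ι] in
theorem body_eq (h : ι → ℝ) : body ν h = gbody (halves ν) (pairs h) := by
  ext x
  simp only [body, gbody, mem_ofPred_eq, Prod.forall, pairs_apply, abs_le']
  refine forall_congr' fun i => ?_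
  simp [Bool.forall_bool, halves, and_comm]

omit [Fintype ι] [DecidableEq ι] in
theorem vol_eq (h : ι → ℝ) : vol ν h = gvol (halves ν) (pairs h) := by rw [vol, body_eq, gvol]

omit [Fintype ι] [DecidableEq ι] in
theorem pos_pairs {h : ι → ℝ} (hh : ∀ i, 0 < h i) : Pos (pairs h) := fun k => hh k.1

omit [Fintype ι] [DecidableEq ι] in
theorem vol_smul (h : ι → ℝ) {t : ℝ} (ht : 0 < t) : vol ν (t • h) = t ^ 3 * vol ν h := by
  have e : body ν (t • h) = t • body ν h := by
    ext x
    simp only [Set.mem_smul_set_iff_inv_smul_mem₀ ht.ne', body, mem_ofPred_eq, dotProduct_smul,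
      smul_eq_mul, abs_mul, abs_inv, abs_of_pos ht, Pi.smul_apply, inv_mul_le_iff₀ ht]
  rw [vol, e, Measure.addHaar_smul_of_nonneg volume ht.le, ENNReal.toReal_mul,
    ENNReal.toReal_ofReal (by positivity), Module.finrank_fintype_fun_eq_card, Fintype.card_fin, vol]

theorem gvol_flip (c : ι × Bool → ℝ) :
    gvol (halves ν) (fun k => c (k.1, !k.2)) = gvol (halves ν) c := by
  have e : gbody (halves ν) (fun k => c (k.1, !k.2)) = -gbody (halves ν) c := by
    ext x
    simp only [gbody, mem_ofPred_eq, Set.mem_neg, dotProduct_neg]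
    constructor <;> intro H k <;> have := H (k.1, !k.2) <;>
      rcases k with ⟨i, _ | _⟩ <;> simp [halves] at this ⊢ <;> linarith
  rw [gvol, e, Measure.measure_neg, gvol]

theorem gA_flip (h : ι → ℝ) (i : ι) :
    gA (halves ν) (i, false) (pairs h) = gA (halves ν) (i, true) (pairs h) := by
  simp only [gA, pairs_apply]
  refine congrArg (fun F => deriv F (h i)) (funext fun u => ?_)
  rw [← gvol_flip]
  congr 1
  funext k
  rcases k with ⟨j, _ | _⟩ <;> rcases eq_or_ne j i with rfl | hj <;>
    simp_all [update_apply]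

theorem pairs_sum (a : ι × Bool → ℝ) :
    (∑ k, a k • ContinuousLinearMap.proj (R := ℝ) (φ := fun _ : ι × Bool => ℝ) k).comp pairs
      = ∑ i, (a (i, true) + a (i, false)) •
          ContinuousLinearMap.proj (R := ℝ) (φ := fun _ : ι => ℝ) i := by
  ext h
  simp [Fintype.sum_prod_type, ContinuousLinearMap.sum_apply, mul_comm, mul_add]

theorem apply_single (a : ι → ℝ) (i : ι) :
    (∑ k, a k • ContinuousLinearMap.proj (R := ℝ) (φ := fun _ : ι => ℝ) k) (Pi.single i 1) = a i := by
  simp [ContinuousLinearMap.sum_apply, Pi.single_apply]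

theorem grad_eq (hν : Fam ν) {h : ι → ℝ} (hh : ∀ i, 0 < h i) (i : ι) :
    grad ν h i = 2 * gA (halves ν) (i, true) (pairs h) := by
  have hd := (hasFDerivAt_gvol (gfam_halves hν) (pos_pairs hh)).comp h pairs.hasFDerivAt
  rw [pairs_sum] at hd
  simp only [gA_flip, ← two_mul] at hd
  have hl := hd.comp_hasDerivAt_of_eq (h i) (hasDerivAt_update h i (h i)) (update_eq_self i h).symm
  rw [apply_single] at hl
  refine HasDerivAt.deriv (hl.congr_of_eventuallyEq (Eventually.of_forall fun s => ?_))
  simp [vol_eq]

omit [DecidableEq ι] in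
theorem isOpen_positive : IsOpen {h : ι → ℝ | ∀ i, 0 < h i} := by
  simp only [ofPred_forall]
  exact isOpen_iInter_of_finite fun i => isOpen_lt continuous_const (continuous_apply i)

theorem grad_eventually (hν : Fam ν) {h : ι → ℝ} (hh : ∀ i, 0 < h i) (i : ι) :
    (fun z => grad ν z i) =ᶠ[𝓝 h] fun z => 2 * gA (halves ν) (i, true) (pairs z) :=
  eventuallyEq_of_mem (isOpen_positive.mem_nhds hh) fun _ hz => grad_eq hν hz i

theorem hasFDerivAt_vol (hν : Fam ν) {h : ι → ℝ} (hh : ∀ i, 0 < h i) : HasFDerivAt (vol ν)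
    (∑ i, grad ν h i • ContinuousLinearMap.proj (R := ℝ) (φ := fun _ : ι => ℝ) i) h := by
  have hd := (hasFDerivAt_gvol (gfam_halves hν) (pos_pairs hh)).comp h pairs.hasFDerivAt
  rw [pairs_sum] at hd
  simp only [gA_flip, ← two_mul, ← grad_eq hν hh] at hd
  exact hd.congr_of_eventuallyEq (Eventually.of_forall fun z => vol_eq z)

theorem continuousAt_grad (hν : Fam ν) {h : ι → ℝ} (hh : ∀ i, 0 < h i) (i : ι) :
    ContinuousAt (fun z => grad ν z i) h :=
  (((continuousAt_gA (gfam_halves hν) (i, true) (pos_pairs hh)).comp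
    pairs.continuous.continuousAt).const_mul 2).congr (grad_eventually hν hh i).symm

theorem euler_vol (hν : Fam ν) {h : ι → ℝ} (hh : ∀ i, 0 < h i) :
    ∑ i, h i * grad ν h i = 3 * vol ν h := by
  have h1 := (hasFDerivAt_vol hν hh).comp_hasDerivAt_of_eq (1 : ℝ)
    ((hasDerivAt_id' (1 : ℝ)).smul_const h) (one_smul ℝ h).symm
  have h2 : HasDerivAt (fun t : ℝ => vol ν (t • h)) (3 * vol ν h) 1 := by
    refine HasDerivAt.congr_of_eventuallyEq ?_
      (eventuallyEq_of_mem (Ioi_mem_nhds one_pos) fun t ht => vol_smul h ht)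
    exact ((hasDerivAt_pow 3 (1 : ℝ)).mul_const (vol ν h)).congr_deriv (by simp)
  rw [← h1.unique h2]
  simp [ContinuousLinearMap.sum_apply, mul_comm]

theorem grad_smul (hν : Fam ν) {h : ι → ℝ} (hh : ∀ i, 0 < h i) {t : ℝ} (ht : 0 < t) (i : ι) :
    grad ν (t • h) i = t ^ 2 * grad ν h i := by
  have ha := (hasFDerivAt_vol hν hh).comp_hasDerivAt_of_eq (h i)
    (hasDerivAt_update h i (h i)) (update_eq_self i h).symm
  rw [apply_single] at ha
  have hb := (hasFDerivAt_vol hν (h := t • h) fun j => mul_pos ht (hh j)).comp_hasDerivAt_of_eq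
    (h i) ((hasDerivAt_update h i (h i)).const_smul t) (by simp)
  rw [map_smul, apply_single, smul_eq_mul] at hb
  have hc := hb.unique ((ha.const_mul (t ^ 3)).congr_of_eventuallyEq
    (Eventually.of_forall fun s => vol_smul _ ht))
  exact mul_left_cancel₀ ht.ne' (by linarith)

theorem full_iff (hν : Fam ν) {h : ι → ℝ} :
    Full ν h ↔ GFull (halves ν) (pairs h) := by
  constructor
  · rintro ⟨h1, h2⟩
    refine ⟨pos_pairs h1, fun k => ?_⟩
    rcases k with ⟨i, _ | _⟩
    · rw [gA_flip]
      have := grad_eq hν h1 i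
      linarith [h2 i]
    · have := grad_eq hν h1 i
      linarith [h2 i]
  · rintro ⟨h1, h2⟩
    have hh : ∀ i, 0 < h i := fun i => h1 (i, true)
    exact ⟨hh, fun i => by rw [grad_eq hν hh]; linarith [h2 (i, true)]⟩

theorem isOpen_full (hν : Fam ν) : IsOpen {h | Full ν h} := by
  simp only [full_iff hν]
  exact (isOpen_gfull (gfam_halves hν)).preimage pairs.continuous

/-- The second derivative, through the half spaces. -/
def hessF (hν : Fam ν) (i j : ι) (h : ι → ℝ) : ℝ :=
  2 * (dfull (halves ν) (i, true) (other _ (gfam_halves hν) (i, true)) (j, true) (pairs h)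
    + dfull (halves ν) (i, true) (other _ (gfam_halves hν) (i, true)) (j, false) (pairs h))

theorem hasFDerivAt_grad (hν : Fam ν) {h : ι → ℝ} (hf : Full ν h) (i : ι) :
    HasFDerivAt (fun z => grad ν z i)
      (∑ j, hessF hν i j h • ContinuousLinearMap.proj (R := ℝ) (φ := fun _ : ι => ℝ) j) h := by
  have hd := ((hasFDerivAt_gA (gfam_halves hν) (other_spec _ (gfam_halves hν) (i, true))
    ((full_iff hν).1 hf)).comp h pairs.hasFDerivAt).const_mul 2
  rw [pairs_sum, Finset.smul_sum] at hd
  simp only [smul_smul] at hd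
  exact hd.congr_of_eventuallyEq (grad_eventually hν hf.1 i)

theorem hess_eq_hessF (hν : Fam ν) {h : ι → ℝ} (hf : Full ν h) (i j : ι) :
    hess ν h i j = hessF hν i j h := by
  have hl := (hasFDerivAt_grad hν hf i).comp_hasDerivAt_of_eq (h j)
    (hasDerivAt_update h j (h j)) (update_eq_self j h).symm
  rw [apply_single] at hl
  exact hl.deriv

theorem continuousAt_hess (hν : Fam ν) {h : ι → ℝ} (hf : Full ν h) (i j : ι) :
    ContinuousAt (fun z => hess ν z i j) h := by
  have hc := (full_iff hν).1 hf
  have h1 : ContinuousAt (hessF hν i j) h :=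
    (((continuousAt_dfull (gfam_halves hν) (i, true) _ (j, true) hc).comp
      pairs.continuous.continuousAt).add
    ((continuousAt_dfull (gfam_halves hν) (i, true) _ (j, false) hc).comp
      pairs.continuous.continuousAt)).const_mul 2
  exact h1.congr (eventuallyEq_of_mem ((isOpen_full hν).mem_nhds hf)
    fun z hz => (hess_eq_hessF hν hz i j).symm)

theorem euler_grad (hν : Fam ν) {h : ι → ℝ} (hf : Full ν h) (i : ι) :
    ∑ j, hess ν h i j * h j = 2 * grad ν h i := by
  have h1 := (hasFDerivAt_grad hν hf i).comp_hasDerivAt_of_eq (1 : ℝ)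
    ((hasDerivAt_id' (1 : ℝ)).smul_const h) (one_smul ℝ h).symm
  have h2 : HasDerivAt (fun t : ℝ => grad ν (t • h) i) (2 * grad ν h i) 1 := by
    refine HasDerivAt.congr_of_eventuallyEq ?_
      (eventuallyEq_of_mem (Ioi_mem_nhds one_pos) fun t ht => grad_smul hν hf.1 ht i)
    exact ((hasDerivAt_pow 2 (1 : ℝ)).mul_const (grad ν h i)).congr_deriv (by simp)
  rw [← h1.unique h2]
  simp [ContinuousLinearMap.sum_apply, hess_eq_hessF hν hf]

theorem hess_symm (hν : Fam ν) {h : ι → ℝ} (hf : Full ν h) (i j : ι) :
    hess ν h i j = hess ν h j i := by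
  let P := fun k : ι => ContinuousLinearMap.proj (R := ℝ) (φ := fun _ : ι => ℝ) k
  have hs := second_derivative_symmetric_of_eventually_of_real
    (f := vol ν) (f' := fun z => ∑ k, grad ν z k • P k)
    (f'' := ∑ k, (∑ l, hessF hν k l h • P l).smulRight (P k))
    (eventually_of_mem (isOpen_positive.mem_nhds hf.1) fun z hz => hasFDerivAt_vol hν hz)
    (HasFDerivAt.fun_sum fun k _ => (hasFDerivAt_grad hν hf k).smul_const (P k))
    (Pi.single j 1) (Pi.single i 1)
  simp only [ContinuousLinearMap.sum_apply, ContinuousLinearMap.smulRight_apply, _root_.smul_apply,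
    P, ContinuousLinearMap.proj_apply, smul_eq_mul, Pi.single_apply, mul_ite, mul_one, mul_zero,
    Finset.sum_ite_eq', Finset.mem_univ, if_true] at hs
  rw [hess_eq_hessF hν hf, hess_eq_hessF hν hf]
  exact hs

theorem len_eq_edgeW (hν : Fam ν) {i j : ι} (hij : i ≠ j) (b : Bool) (h : ι → ℝ) :
    len (halves ν) (i, true) (j, b) (pairs h) (h i) (h j)
      = edgeW ν h i j (if b then 1 else -1) ∨ h i < 0 ∨ h j < 0 := by
  rcases lt_or_ge (h i) 0 with hi | hi
  · exact Or.inr (Or.inl hi)
  rcases lt_or_ge (h j) 0 with hj | hj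
  · exact Or.inr (Or.inr hj)
  refine Or.inl ?_
  set σ : ℝ := if b then 1 else -1 with hσ
  have hσ2 : σ * σ = 1 := by cases b <;> simp [σ]
  have hq : halves ν (j, b) = σ • ν j := by cases b <;> simp [σ, halves]
  have hwe : w (halves ν) (i, true) (j, b) = σ • crossProduct (ν i) (ν j) := by
    rw [w, hq, map_smul]; rfl
  have hσ0 : σ ≠ 0 := fun h0 => by rw [h0, mul_zero] at hσ2; exact zero_ne_one hσ2
  have hw : w (halves ν) (i, true) (j, b) ≠ 0 := by
    rw [hwe]; exact smul_ne_zero hσ0 (hν.indep i j hij)
  set p : ι × Bool := (i, true)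
  set q : ι × Bool := (j, b)
  set pt : ℝ → V3 := fun r =>
    h i • va (halves ν) p q + h j • vb (halves ν) p q + r • w (halves ν) p q
  have hedge : ∀ x, x ∈ edge ν h i j σ ↔ ∃ r ∈ lset (halves ν) p q (pairs h) (h i) (h j), pt r = x := by
    intro x
    constructor
    · rintro ⟨hx, hxi, hxj⟩
      rw [body_eq] at hx
      have hc1 : (crd (halves ν) p q x).1 = h i := by simp [crd, p, halves, hxi]
      have hc2 : (crd (halves ν) p q x).2.1 = h j := by
        simp [crd, q, hq, smul_dotProduct, hxj]
      refine ⟨(crd (halves ν) p q x).2.2, fun k hk => ?_, ?_⟩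
      · have := hx k
        rw [dot_expand _ hw k x, hc1, hc2] at this
        simp only [_root_.smul_apply, ContinuousLinearMap.id_apply, smul_eq_mul]
        linarith
      · conv_rhs => rw [expand _ hw x, hc1, hc2]
    · rintro ⟨r, hr, rfl⟩
      have hcr := crd_point _ hw (h i) (h j) r
      have hp : halves ν p ⬝ᵥ pt r = h i := congrArg Prod.fst hcr
      have hq' : halves ν q ⬝ᵥ pt r = h j := congrArg (fun z => z.2.1) hcr
      refine ⟨?_, by simpa [p, halves] using hp, by
        simpa [q, hq, smul_dotProduct] using hq'⟩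
      rw [body_eq]
      intro k
      rcases eq_or_ne k p with rfl | hkp
      · exact hp.le
      rcases eq_or_ne k q with rfl | hkq
      · exact hq'.le
      rw [dot_expand _ hw k, hcr]
      have := hr k (Finset.mem_erase.2 ⟨hkq, Finset.mem_erase.2 ⟨hkp, Finset.mem_univ k⟩⟩)
      simp only [_root_.smul_apply, ContinuousLinearMap.id_apply, smul_eq_mul] at this
      linarith
  have hshift : ∀ r s : ℝ, pt r + s • crossProduct (ν i) (ν j) = pt (r + σ * s) := fun r s => by
    simp only [pt, hwe, smul_smul, add_assoc, ← add_smul]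
    congr 3
    linear_combination (-s) * hσ2
  have hinj : Function.Injective pt := fun r r' e => smul_left_injective ℝ hw (add_left_cancel e)
  set L := lset (halves ν) p q (pairs h) (h i) (h j) with hL
  have hD : {s : ℝ | ∃ x ∈ edge ν h i j σ, x + s • crossProduct (ν i) (ν j) ∈ edge ν h i j σ}
      = {s | ∃ r ∈ L, r + σ * s ∈ L} := by
    ext s
    simp only [mem_ofPred_eq, hedge]
    constructor
    · rintro ⟨_, ⟨r, hr, rfl⟩, r', hr', e⟩
      rw [hshift] at e
      exact ⟨r, hr, hinj e ▸ hr'⟩
    · rintro ⟨r, hr, hr'⟩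
      exact ⟨pt r, ⟨r, hr, rfl⟩, r + σ * s, hr', (hshift r s).symm⟩
  rw [edgeW, hD, len, ← hL]
  rcases L.eq_empty_or_nonempty with he | hne
  · simp [he]
  have hcpt : IsCompact L := isCompact_lset (gfam_halves hν) hw _ _ _
  have hconv : Convex ℝ L := by
    rw [hL]
    simp only [lset, ofPred_forall]
    exact convex_iInter fun k => convex_iInter fun _ =>
      convex_halfSpace_le (LinearMap.isLinear (ContinuousLinearMap.toLinearMap _)) _
  have hI := eq_Icc_of_connected_compact ⟨hne, hconv.isPreconnected⟩ hcpt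
  set a := sInf L
  set e := sSup L
  have hae : a ≤ e := nonempty_Icc.1 (hI ▸ hne)
  rw [hI, Real.volume_Icc, ENNReal.toReal_ofReal (sub_nonneg.2 hae)]
  refine (IsGreatest.csSup_eq ⟨?_, ?_⟩).symm
  · cases b
    · refine ⟨e, right_mem_Icc.2 hae, ?_⟩
      simp only [σ, Bool.false_eq_true, if_false]
      exact ⟨by linarith, by linarith⟩
    · refine ⟨a, left_mem_Icc.2 hae, ?_⟩
      simp only [σ, if_true]
      exact ⟨by linarith, by linarith⟩
  · rintro s ⟨r, hr, hr'⟩
    cases b <;> simp only [σ, Bool.false_eq_true, if_false, if_true, mem_Icc] at hr hr' <;> linarith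

theorem hess_eq_edgeW (hν : Fam ν) {h : ι → ℝ} (hf : Full ν h) {i j : ι} (hij : i ≠ j) :
    hess ν h i j = 2 * (edgeW ν h i j 1 + edgeW ν h i j (-1)) := by
  have key : ∀ b, dfull (halves ν) (i, true) (other _ (gfam_halves hν) (i, true)) (j, b) (pairs h)
      = edgeW ν h i j (if b then 1 else -1) := fun b => by
    rw [dfull, if_neg (by simp [hij.symm]), doff, if_neg ?_]
    · exact (len_eq_edgeW hν hij b h).resolve_right
        (not_or.2 ⟨not_lt.2 (hf.1 i).le, not_lt.2 (hf.1 j).le⟩)
    · intro he
      refine hν.indep i j hij ?_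
      cases b <;> simp [halves] at he
      · rw [he, cross_self]
      · rw [he, map_neg, cross_self, neg_zero]
  rw [hess_eq_hessF hν hf, hessF, key true, key false]
  simp

theorem drop (hν : Fam ν) {h : ι → ℝ} (hh : ∀ i, 0 < h i) :
    body ν h = {x | ∀ i, 0 < grad ν h i → |ν i ⬝ᵥ x| ≤ h i} := by
  refine Subset.antisymm (fun x hx i _ => hx i) ?_
  have key : ∀ Z : Finset ι, (∀ i ∈ Z, grad ν h i ≤ 0) →
      {x | ∀ i ∉ Z, |ν i ⬝ᵥ x| ≤ h i} ⊆ body ν h := by
    intro Z
    induction Z using Finset.induction_on with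
    | empty => exact fun _ x hx i => hx i (Finset.notMem_empty i)
    | insert a Z ha ih =>
      intro hZ x hx
      have ih' := ih fun i hi => hZ i (Finset.mem_insert_of_mem hi)
      suffices |ν a ⬝ᵥ x| ≤ h a from ih' fun i hi => by
        rcases eq_or_ne i a with rfl | hia
        · exact this
        · exact hx i fun hc => (Finset.mem_insert.1 hc).elim hia hi
      by_contra hlt
      push Not at hlt
      set lam := h a / (ν a ⬝ᵥ x)
      have hne : ν a ⬝ᵥ x ≠ 0 := abs_pos.1 ((hh a).trans hlt)
      have hlam : |lam| < 1 := by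
        rw [abs_div, abs_of_pos (hh a), div_lt_one (abs_pos.2 hne)]
        exact hlt
      let W : Set V3 := {z | ∀ i ∉ insert a Z, |ν i ⬝ᵥ z| < h i}
      have hW : IsOpen W := by
        simp only [W, ofPred_forall]
        exact isOpen_iInter_of_finite fun i => isOpen_iInter_of_finite fun _ =>
          isOpen_lt ((dotL (ν i)).continuous.abs) continuous_const
      have hlW : lam • x ∈ W := fun i hi => by
        rw [dotProduct_smul, smul_eq_mul, abs_mul]
        calc |lam| * |ν i ⬝ᵥ x| ≤ |lam| * h i :=
              mul_le_mul_of_nonneg_left (hx i hi) (abs_nonneg _)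
          _ < h i := mul_lt_of_lt_one_left (hh i) hlam
      have hμ := gfam_halves hν
      have ho := other_spec (halves ν) hμ (a, true)
      set q := other (halves ν) hμ (a, true)
      have hpos : 0 < area (halves ν) (a, true) q (pairs h) (h a) := by
        let F : ℝ × ℝ → V3 := fun y => h a • va (halves ν) (a, true) q
          + y.1 • vb (halves ν) (a, true) q + y.2 • w (halves ν) (a, true) q
        have hU : IsOpen (F ⁻¹' W) := hW.preimage (by fun_prop)
        have hne' : (F ⁻¹' W).Nonempty := by
          refine ⟨(crd (halves ν) (a, true) q (lam • x)).2, ?_⟩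
          have h1 : (crd (halves ν) (a, true) q (lam • x)).1 = h a := by
            simp [crd, halves, lam, hne]
          show F _ ∈ W
          simp only [F]
          rw [← h1, ← expand _ ho]
          exact hlW
        refine ENNReal.toReal_pos (ne_of_gt (lt_of_lt_of_le (hU.measure_pos volume hne')
          (measure_mono fun y hy k hk => ?_))) (isCompact_aset hμ ho _ _).measure_lt_top.ne
        have hcr := crd_point _ ho (h a) y.1 y.2
        have hz : F y ∈ body ν h := ih' fun i hi => by
          rcases eq_or_ne i a with rfl | hia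
          · have := congrArg Prod.fst hcr
            simp only [crd, halves] at this
            simp only [if_true] at this
            rw [show ν i ⬝ᵥ F y = h i from this, abs_of_pos (hh i)]
          · exact (hy i fun hc => (Finset.mem_insert.1 hc).elim hia hi).le
        rw [body_eq] at hz
        have := hz k
        rw [dot_expand _ ho k, hcr] at this
        simp only [_root_.add_apply, _root_.smul_apply, ContinuousLinearMap.coe_fst',
          ContinuousLinearMap.coe_snd', smul_eq_mul]
        linarith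
      have h0 := hZ a (Finset.mem_insert_self a Z)
      rw [grad_eq hν hh, gA_eq hμ ho (pos_pairs hh), pairs_apply] at h0
      linarith
  intro x hx
  refine key (Finset.univ.filter fun i => grad ν h i ≤ 0) (fun i hi => (Finset.mem_filter.1 hi).2)
    fun i hi => hx i ?_
  simpa using hi

theorem calc1 (hν : Fam ν) : Calc1 ν where
  compact h := body_eq h ▸ isCompact_gbody (gfam_halves hν) _
  vol_pos h hh := by
    have hW : IsOpen {x : V3 | ∀ i, |ν i ⬝ᵥ x| < h i} := by
      simp only [ofPred_forall]
      exact isOpen_iInter_of_finite fun i =>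
        isOpen_lt ((dotL (ν i)).continuous.abs) continuous_const
    exact ENNReal.toReal_pos (ne_of_gt (lt_of_lt_of_le
      (hW.measure_pos volume ⟨0, fun i => by simpa using hh i⟩)
      (measure_mono fun x hx i => (hx i).le)))
      (body_eq h ▸ (isCompact_gbody (gfam_halves hν) _).measure_lt_top.ne)
  vol_continuous := by
    have h1 : Continuous fun z => gvol (halves ν) (pairs z) :=
      (continuous_gvol (gfam_halves hν)).comp pairs.continuous
    exact (h1.congr fun z => (vol_eq z).symm).continuousOn
  hasFDeriv _ hh := hasFDerivAt_vol hν hh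
  grad_continuous _ hh i := continuousAt_grad hν hh i
  grad_nonneg h hh i := by
    rw [grad_eq hν hh]
    exact mul_nonneg zero_le_two (gA_nonneg (gfam_halves hν) _ (pos_pairs hh))
  euler _ hh := euler_vol hν hh
  drop _ hh := drop hν hh

/-- Nonempty open sets covered by finitely many relatively closed sets. -/
theorem exists_interior {X A : Type} [TopologicalSpace X] {U : Set X} (S : A → Set X)
    (hS : ∀ a, closure (S a) ∩ U ⊆ S a) (T : Finset A) :
    ∀ O : Set X, IsOpen O → O ⊆ U → O.Nonempty → (∀ x ∈ O, ∃ a ∈ T, x ∈ S a) →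
      ∃ a ∈ T, (O ∩ interior (S a)).Nonempty := by
  classical
  induction T using Finset.induction_on with
  | empty =>
    intro O _ _ hne hcov
    obtain ⟨x, hx⟩ := hne
    obtain ⟨a, ha, -⟩ := hcov x hx
    simp at ha
  | insert b T hb ih =>
    intro O hO hOU hne hcov
    rcases (O \ closure (S b)).eq_empty_or_nonempty with he | hne'
    · refine ⟨b, Finset.mem_insert_self b T, hne.mono fun x hx => ⟨hx, ?_⟩⟩
      refine interior_maximal (fun y hy => hS b ⟨?_, hOU hy⟩) hO hx
      exact sdiff_eq_empty.1 he hy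
    · obtain ⟨a, ha, x, hx, hxi⟩ := ih _ (hO.sdiff isClosed_closure)
        (sdiff_subset.trans hOU) hne' fun x hx => by
          obtain ⟨a, ha, hxa⟩ := hcov x hx.1
          rcases Finset.mem_insert.1 ha with rfl | ha
          · exact absurd (subset_closure hxa) hx.2
          · exact ⟨a, ha, hxa⟩
      exact ⟨a, Finset.mem_insert_of_mem ha, x, hx.1, hxi⟩

theorem cubic (hν : Fam ν) : ∃ S : Finset (ι → ι → ι → ℝ), (∀ C ∈ S, SymC C) ∧
    ∀ h, Full ν h → ∃ C ∈ S, Agrees ν C h := by
  classical
  have hμ := gfam_halves hν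
  choose G hG using fun P : (ι × Bool) × (ι × Bool) => exists_forms hμ P.1 P.2
  -- the linear forms of the second derivative for a choice of edge forms
  let df : ((ι × Bool) × (ι × Bool) → (ι × Bool → ℝ)) → ι → (ι × Bool) → (ι × Bool → ℝ) :=
    fun F i k => if k = (i, true) then -∑ m ∈ Finset.univ.erase (i, true),
      (halves ν m ⬝ᵥ va (halves ν) (i, true) (other _ hμ (i, true))) • F ((i, true), m)
      else F ((i, true), k)
  let a : ((ι × Bool) × (ι × Bool) → (ι × Bool → ℝ)) → ι → ι → ι → ℝ := fun F i j l =>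
    2 * ((df F i (j, true) + df F i (j, false)) (l, true)
      + (df F i (j, true) + df F i (j, false)) (l, false))
  let S : ((ι × Bool) × (ι × Bool) → (ι × Bool → ℝ)) → Set (ι → ℝ) := fun F =>
    {z | Full ν z ∧ ∀ i j, hess ν z i j = a F i j ⬝ᵥ z}
  have hdot : ∀ (v : ι × Bool → ℝ) (z : ι → ℝ),
      v ⬝ᵥ pairs z = (fun l => v (l, true) + v (l, false)) ⬝ᵥ z := fun v z => by
    simp [dotProduct, Fintype.sum_prod_type, add_mul]
  have hcov : ∀ z, Full ν z → ∃ F ∈ Fintype.piFinset G, z ∈ S F := by
    intro z hz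
    choose F hFm hF using fun P => hG P (pairs z)
    refine ⟨F, Fintype.mem_piFinset.2 hFm, hz, fun i j => ?_⟩
    have hk : ∀ k, dfull (halves ν) (i, true) (other _ hμ (i, true)) k (pairs z)
        = df F i k ⬝ᵥ pairs z := fun k => by
      simp only [df, dfull]
      split_ifs with hk
      · rw [neg_dotProduct, sum_dotProduct]
        congr 1
        refine Finset.sum_congr rfl fun m hm => ?_
        rw [smul_dotProduct, smul_eq_mul,
          (hF ((i, true), m)).resolve_right (Finset.ne_of_mem_erase hm)]
      · exact (hF ((i, true), k)).resolve_right hk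
    rw [hess_eq_hessF hν hz, hessF, hk, hk, ← add_dotProduct, hdot, ← smul_eq_mul,
      ← smul_dotProduct]
    rfl
  have hclosed : ∀ F, closure (S F) ∩ {z | Full ν z} ⊆ S F := by
    rintro F z ⟨hzc, hz⟩
    refine ⟨hz, fun i j => ?_⟩
    by_contra hne
    have hcd : Continuous fun y => a F i j ⬝ᵥ y := by simp only [dotProduct]; fun_prop
    have hev : ∀ᶠ y in 𝓝 z, hess ν y i j - a F i j ⬝ᵥ y ≠ 0 :=
      ((continuousAt_hess hν hz i j).sub hcd.continuousAt).eventually_ne (sub_ne_zero.2 hne)
    obtain ⟨y, hy, hyS⟩ := mem_closure_iff_nhds.1 hzc _ hev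
    exact hy (sub_eq_zero.2 (hyS.2 i j))
  let T := (Fintype.piFinset G).filter fun F => (interior (S F)).Nonempty
  have hsym : ∀ F ∈ T, SymC fun i j l => a F i j l / 6 := by
    intro F hF
    obtain ⟨z, hz⟩ := (Finset.mem_filter.1 hF).2
    intro i j l
    refine ⟨congrArg (· / 6) ?_, congrArg (· / 6) ?_⟩
    · have hnear : ∀ᶠ y in 𝓝 z, a F i j ⬝ᵥ y = a F j i ⬝ᵥ y := by
        filter_upwards [isOpen_interior.mem_nhds hz] with y hy
        have hy' := interior_subset hy
        rw [← hy'.2 i j, ← hy'.2 j i, hess_symm hν hy'.1]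
      have hline : Tendsto (fun t : ℝ => z + t • (Pi.single l 1 : ι → ℝ)) (𝓝 0) (𝓝 z) := by
        have hcl : Continuous fun t : ℝ => z + t • (Pi.single l 1 : ι → ℝ) := by fun_prop
        simpa using hcl.tendsto 0
      obtain ⟨t, ht, ht0⟩ := (((hline.eventually hnear).filter_mono nhdsWithin_le_nhds).and
        (self_mem_nhdsWithin : ∀ᶠ t in 𝓝[≠] (0 : ℝ), t ∈ ({0}ᶜ : Set ℝ))).exists
      have h0 := hnear.self_of_nhds
      simp only [dotProduct_add, dotProduct_smul, dotProduct_single, smul_eq_mul, mul_one] at ht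
      exact mul_left_cancel₀ (a := t) ht0 (by linarith)
    · let P := fun m : ι => ContinuousLinearMap.proj (R := ℝ) (φ := fun _ : ι => ℝ) m
      have hzS := interior_subset hz
      have hs := second_derivative_symmetric_of_eventually_of_real
        (f := fun y => grad ν y i) (f' := fun y => ∑ m, (a F i m ⬝ᵥ y) • P m)
        (f'' := ∑ m, (∑ n, a F i m n • P n).smulRight (P m)) (x := z)
        (by
          filter_upwards [isOpen_interior.mem_nhds hz] with y hy
          have hy' := interior_subset hy
          have hd := hasFDerivAt_grad hν hy'.1 i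
          simp only [← hess_eq_hessF hν hy'.1, hy'.2] at hd
          exact hd)
        (HasFDerivAt.fun_sum fun m _ => by
          have he : (fun y => a F i m ⬝ᵥ y) = (∑ n, a F i m n • P n : (ι → ℝ) →L[ℝ] ℝ) := by
            funext y
            simp [P, ContinuousLinearMap.sum_apply, dotProduct]
          refine HasFDerivAt.smul_const ?_ (P m)
          show HasFDerivAt (fun y => a F i m ⬝ᵥ y) _ z
          rw [he]
          exact ContinuousLinearMap.hasFDerivAt _)
        (Pi.single l 1) (Pi.single j 1)
      simp only [ContinuousLinearMap.sum_apply, ContinuousLinearMap.smulRight_apply,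
        _root_.smul_apply, P, ContinuousLinearMap.proj_apply, smul_eq_mul, Pi.single_apply, mul_ite,
        mul_one, mul_zero, Finset.sum_ite_eq', Finset.mem_univ, if_true] at hs
      exact hs
  refine ⟨T.image fun F i j l => a F i j l / 6, fun C hC => ?_, fun h hf => ?_⟩
  · obtain ⟨F, hF, rfl⟩ := Finset.mem_image.1 hC
    exact hsym F hF
  · obtain ⟨F, hFT, hF⟩ : ∃ F ∈ T, h ∈ S F := by
      by_contra hno
      push Not at hno
      have hnc : ∀ F ∈ T, h ∉ closure (interior (S F)) := fun F hF hc =>
        hno F hF (hclosed F ⟨closure_mono interior_subset hc, hf⟩)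
      let O : Set (ι → ℝ) := {z | Full ν z} ∩ ⋂ F ∈ T, (closure (interior (S F)))ᶜ
      have hO : IsOpen O := (isOpen_full hν).inter
        (isOpen_biInter_finset fun F _ => isClosed_closure.isOpen_compl)
      obtain ⟨F, hF, x, hx, hxi⟩ := exists_interior S hclosed (Fintype.piFinset G) O hO
        inter_subset_left ⟨h, hf, mem_iInter₂.2 hnc⟩ fun x hx => hcov x hx.1
      exact mem_iInter₂.1 hx.2 F (Finset.mem_filter.2 ⟨hF, x, hxi⟩) (subset_closure hxi)
    refine ⟨_, Finset.mem_image.2 ⟨F, hFT, rfl⟩, ?_⟩
    have hgrad : ∀ i, grad ν h i = ∑ j, ∑ l, a F i j l * h l * h j / 2 := fun i => by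
      have h1 := euler_grad hν hf i
      simp only [hF.2, dotProduct, Finset.sum_mul] at h1
      simp only [← Finset.sum_div]
      linarith
    refine ⟨?_, fun i => ?_, fun i j => ?_⟩
    · have h1 := euler_vol hν hf.1
      simp only [hgrad, Finset.mul_sum] at h1
      have h2 : tri (fun i j l => a F i j l / 6) h h h
          = (∑ i, ∑ j, ∑ l, h i * (a F i j l * h l * h j / 2)) / 3 := by
        simp only [tri, Finset.sum_div]
        exact Finset.sum_congr rfl fun i _ => Finset.sum_congr rfl fun j _ =>
          Finset.sum_congr rfl fun l _ => by ring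
      rw [h2, h1]
      ring
    · rw [hgrad]
      simp only [tri, Pi.single_apply, mul_ite, mul_one, mul_zero, ite_mul, zero_mul,
        Finset.sum_ite_irrel, Finset.sum_const_zero, Finset.sum_ite_eq', Finset.mem_univ, if_true,
        Finset.mul_sum]
      exact Finset.sum_congr rfl fun j _ => Finset.sum_congr rfl fun l _ => by ring
    · rw [hF.2]
      simp only [tri, dotProduct, Pi.single_apply, mul_ite, mul_one, mul_zero, ite_mul, zero_mul,
        Finset.sum_ite_irrel, Finset.sum_const_zero, Finset.sum_ite_eq', Finset.mem_univ, if_true,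
        Finset.mul_sum]
      exact Finset.sum_congr rfl fun l _ => by ring

theorem calc2 (hν : Fam ν) : Calc2 ν where
  isOpen := isOpen_full hν
  hasFDeriv h hf i := by
    simpa only [hess_eq_hessF hν hf] using hasFDerivAt_grad hν hf i
  continuous _ hf i j := continuousAt_hess hν hf i j
  symm _ hf i j := hess_symm hν hf i j
  euler _ hf i := euler_grad hν hf i
  hess_eq _ hf _ _ hij := hess_eq_edgeW hν hf hij
  cubic := cubic hν

/-- The calculus of the volume. -/
theorem calculus : CalcStatement := fun _ _ hν => ⟨calc1 hν, calc2 hν⟩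

end

end Vale.Agent.P227.Lp
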