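import Vale.Agent.P227.Lp.Defs2
import Vale.Agent.P227.Lp.Kink.Sum
import Mathlib.MeasureTheory.Function.Jacobian

/-!
# P227: a jump of `φ` across two parallel lines costs energy

The norm of the body restricted to a segment is a maximum of affine functions. Its slope jumps
bound the determinants of the crossed edges, and as the segment moves the crossing points sweep
the edges at speed at least `K / (Γ |Det|)`.
-/

namespace Vale.Agent.P227.Lp

open MeasureTheory Set Filter Topology Matrix Function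
open scoped ENNReal

noncomputable section

theorem linePoint_spec {N : ℕ} {ν : Fin N → V3} {i j : Fin N} {σ : ℝ}
    (h : crossProduct (ν i) (σ • ν j) ≠ 0) :
    ν i ⬝ᵥ linePoint ν i j σ = 1 ∧ (σ • ν j) ⬝ᵥ linePoint ν i j σ = 1 := by
  unfold linePoint
  set a := ν i
  set b := σ • ν j
  set v := crossProduct a b
  have hv : v ⬝ᵥ v ≠ 0 := fun h0 => h (dotProduct_self_eq_zero.1 h0)
  have e1 : a ⬝ᵥ (crossProduct b v + crossProduct v a) = v ⬝ᵥ v := by
    rw [dotProduct_add, dot_cross_self, add_zero, triple_product_permutation,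
      triple_product_permutation]
  have e2 : b ⬝ᵥ (crossProduct b v + crossProduct v a) = v ⬝ᵥ v := by
    rw [dotProduct_add, dot_self_cross, zero_add, triple_product_permutation]
  exact ⟨by rw [dotProduct_smul, e1, smul_eq_mul, inv_mul_cancel₀ hv],
    by rw [dotProduct_smul, e2, smul_eq_mul, inv_mul_cancel₀ hv]⟩

theorem part_of (hC : CalcStatement) : PartStatement := by
  intro N ν hν _ i j hij σ hσ
  obtain ⟨hc1, -⟩ := hC N ν hν
  set w := crossProduct (ν i) (ν j)
  have hw : w ≠ 0 := hν.indep i j hij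
  have hcl : IsClosed (edge ν 1 i j σ) := by
    have e : edge ν 1 i j σ = body ν 1 ∩ ({x | ν i ⬝ᵥ x = 1} ∩ {x | σ * (ν j ⬝ᵥ x) = 1}) := by
      ext x
      simp [edge]
      tauto
    rw [e]
    exact (hc1.compact 1).isClosed.inter ((isClosed_eq (continuous_dot _) continuous_const).inter
      (isClosed_eq ((continuous_dot _).const_mul σ) continuous_const))
  have hE : IsCompact (edge ν 1 i j σ) :=
    (hc1.compact 1).of_isClosed_subset hcl fun x hx => hx.1
  refine ⟨hE, ?_⟩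
  have hσ0 : σ ≠ 0 := by rcases hσ with rfl | rfl <;> norm_num
  have hconv : Convex ℝ (edge ν 1 i j σ) := by
    intro x hx y hy a b ha hb hab
    refine ⟨(ctr_body (fun _ => zero_le_one) (hc1.compact 1)).convex hx.1 hy.1 ha hb hab, ?_, ?_⟩
    · rw [dotProduct_add, dotProduct_smul, dotProduct_smul, hx.2.1, hy.2.1, smul_eq_mul,
        smul_eq_mul, ← add_mul, hab, one_mul]
    · rw [dotProduct_add, dotProduct_smul, dotProduct_smul, smul_eq_mul, smul_eq_mul, mul_add,
        mul_left_comm, hx.2.2, mul_left_comm σ, hy.2.2, ← add_mul, hab, one_mul]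
  set z₀ := linePoint ν i j σ
  set J : Set ℝ := {s | z₀ + s • w ∈ edge ν 1 i j σ}
  have hpart : partW ν i j σ univ = (volume J).toReal := by simp [partW, J, z₀, w]
  rw [hpart]
  have hcw : crossProduct (ν i) (σ • ν j) ≠ 0 := by rw [map_smul]; exact smul_ne_zero hσ0 hw
  have hline : ∀ x ∈ edge ν 1 i j σ, ∃ s : ℝ, x = z₀ + s • w := by
    intro x hx
    have hz := linePoint_spec (ν := ν) hcw
    have hb : ν j ⬝ᵥ (x - z₀) = 0 := by
      have h2 := hz.2
      rw [smul_dotProduct, smul_eq_mul] at h2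
      have : σ * (ν j ⬝ᵥ (x - z₀)) = 0 := by
        rw [dotProduct_sub, mul_sub, hx.2.2, h2, Pi.one_apply, sub_self]
      exact (mul_eq_zero.1 this).resolve_left hσ0
    obtain ⟨s, hs⟩ := mem_cross hw (d := x - z₀)
      (by rw [dotProduct_sub, hx.2.1, hz.1, Pi.one_apply, sub_self]) hb
    exact ⟨s, by rw [← hs]; abel⟩
  rcases J.eq_empty_or_nonempty with hJ | hJ
  · rw [hJ, measure_empty, ENNReal.toReal_zero, edgeW]
    symm
    convert Real.sSup_empty
    refine Set.eq_empty_of_forall_notMem ?_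
    rintro s ⟨x, hx, -⟩
    obtain ⟨t, rfl⟩ := hline x hx
    rw [Set.eq_empty_iff_forall_notMem] at hJ
    exact hJ t hx
  have hcont : Continuous fun s : ℝ => z₀ + s • w := by fun_prop
  have hJb : Bornology.IsBounded J := by
    obtain ⟨R, hR⟩ := hE.isBounded.exists_norm_le
    refine (Metric.isBounded_closedBall (x := (0 : ℝ)) (r := (R + ‖z₀‖) / ‖w‖)).subset fun s hs => ?_
    rw [Metric.mem_closedBall, dist_zero_right, le_div_iff₀ (norm_pos_iff.2 hw), ← norm_smul]
    have h1 := norm_sub_le (z₀ + s • w) z₀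
    rw [add_sub_cancel_left] at h1
    linarith [hR _ hs]
  have hJc : IsCompact J := Metric.isCompact_of_isClosed_isBounded (hcl.preimage hcont) hJb
  have hJconv : Convex ℝ J := fun a ha b hb p q hp hq hpq => by
    have h := hconv ha hb hp hq hpq
    show z₀ + (p • a + q • b) • w ∈ edge ν 1 i j σ
    convert h using 1
    rw [smul_eq_mul, smul_eq_mul]
    calc z₀ + (p * a + q * b) • w = (p + q) • z₀ + (p * a + q * b) • w := by rw [hpq, one_smul]
      _ = _ := by module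
  rw [eq_Icc_of_connected_compact ⟨hJ, hJconv.isPreconnected⟩ hJc, Real.volume_Icc,
    ENNReal.toReal_ofReal (sub_nonneg.2 ((csInf_le hJc.bddBelow hJ.some_mem).trans
      (le_csSup hJc.bddAbove hJ.some_mem))), edgeW]
  refine ((csSup_le ?_ ?_).antisymm (le_csSup ?_ ?_)).symm
  · obtain ⟨s, hs⟩ := hJ
    exact ⟨0, _, hs, by simpa [J] using hs⟩
  · rintro s ⟨x, hx, hxs⟩
    obtain ⟨t, rfl⟩ := hline x hx
    rw [add_assoc, ← add_smul] at hxs
    linarith [le_csSup hJc.bddAbove (show t + s ∈ J from hxs),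
      csInf_le hJc.bddBelow (show t ∈ J from hx)]
  · refine ⟨sSup J - sInf J, ?_⟩
    rintro s ⟨x, hx, hxs⟩
    obtain ⟨t, rfl⟩ := hline x hx
    rw [add_assoc, ← add_smul] at hxs
    linarith [le_csSup hJc.bddAbove (show t + s ∈ J from hxs),
      csInf_le hJc.bddBelow (show t ∈ J from hx)]
  · refine ⟨z₀ + sInf J • w, hJc.sInf_mem hJ, ?_⟩
    rw [add_assoc, ← add_smul, add_sub_cancel]
    exact hJc.sSup_mem hJ

/-- A chain of top pieces of finitely many affine functions, from slope to slope. -/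
theorem exists_chain {κ : Type} [Fintype κ] [DecidableEq κ] (A B φ : κ → ℝ)
    (hgen : ∀ r s, A r = A s → B r = B s → r = s) {b : κ} (hb : ∀ r, A r + B r ≤ A b + B b) :
    ∀ (m : ℕ) (c : κ) (θ₀ : ℝ),
      (Finset.univ.filter fun r => B c < B r ∧ B r ≤ B b).card ≤ m → B c ≤ B b →
      θ₀ ≤ 1 → 0 ≤ θ₀ → (∀ r, A r + θ₀ * B r ≤ A c + θ₀ * B c) →
      ∃ E : Finset (κ × κ), (∀ e ∈ E, B c ≤ B e.1 ∧ B e.1 < B e.2 ∧ ∃ θ : ℝ, 0 ≤ θ ∧ θ ≤ 1 ∧
          A e.1 + θ * B e.1 = A e.2 + θ * B e.2 ∧ ∀ r, A r + θ * B r ≤ A e.1 + θ * B e.1) ∧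
        |φ c - φ b| ≤ ∑ e ∈ E, |φ e.1 - φ e.2| ∧ ∑ e ∈ E, (B e.2 - B e.1) ≤ B b - B c := by
  intro m
  induction m with
  | zero =>
    intro c θ₀ hcard hle h1 h0 hc
    have he : B c = B b := hle.antisymm (le_of_not_gt fun h => by
      have : b ∈ Finset.univ.filter fun r => B c < B r ∧ B r ≤ B b := by simpa using h
      rw [Finset.card_eq_zero.1 (Nat.le_zero.1 hcard)] at this
      simp at this)
    have h2 := hb c
    have h3 := hc b
    rw [he] at h2 h3
    obtain rfl : c = b := hgen c b (by linarith) he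
    exact ⟨∅, by simp, by simp, by simp⟩
  | succ m ih =>
    intro c θ₀ hcard hle h1 h0 hc
    rcases eq_or_lt_of_le hle with he | hlt
    · have h2 := hb c
      have h3 := hc b
      rw [he] at h2 h3
      obtain rfl : c = b := hgen c b (by linarith) he
      exact ⟨∅, by simp, by simp, by simp⟩
    set R := Finset.univ.filter fun r => B c < B r ∧ B r ≤ B b
    have hbR : b ∈ R := by simpa [R] using hlt
    obtain ⟨s, hs, hmin⟩ := R.exists_min_image (fun r => (A c - A r) / (B r - B c)) ⟨b, hbR⟩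
    have hsR : B c < B s ∧ B s ≤ B b := by simpa [R] using hs
    set θ := (A c - A s) / (B s - B c)
    have hθs : θ * (B s - B c) = A c - A s := div_mul_cancel₀ _ (sub_pos.2 hsR.1).ne'
    have hθ0 : θ₀ ≤ θ := by
      rw [le_div_iff₀ (sub_pos.2 hsR.1)]
      linarith [hc s]
    have hθb : θ * (B b - B c) ≤ A c - A b :=
      (le_div_iff₀ (sub_pos.2 hlt)).1 (hmin b hbR)
    have hθ1 : θ ≤ 1 := by
      by_contra hgt
      have := mul_lt_mul_of_pos_right (not_le.1 hgt) (sub_pos.2 hlt)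
      linarith [hb c]
    have htop : ∀ r, A r + θ * B r ≤ A c + θ * B c := by
      intro r
      by_cases h : B r ≤ B c
      · have := mul_nonneg (sub_nonneg.2 hθ0) (sub_nonneg.2 h)
        linarith [hc r]
      · by_cases h' : B r ≤ B b
        · have hr : r ∈ R := Finset.mem_filter.2 ⟨Finset.mem_univ _, not_le.1 h, h'⟩
          have := (le_div_iff₀ (sub_pos.2 (not_le.1 h))).1 (hmin r hr)
          linarith
        · have := mul_nonneg (sub_nonneg.2 hθ1) (sub_nonneg.2 (not_le.1 h').le)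
          linarith [hb r]
    have hcard' : (Finset.univ.filter fun r => B s < B r ∧ B r ≤ B b).card ≤ m := by
      refine Nat.le_of_lt_succ (lt_of_lt_of_le (Finset.card_lt_card ?_) hcard)
      refine Finset.ssubset_iff.2 ⟨s, by simp, fun r hr => ?_⟩
      rcases Finset.mem_insert.1 hr with rfl | hr'
      · exact hs
      · simp only [R, Finset.mem_filter, Finset.mem_univ, true_and] at hr' ⊢
        exact ⟨hsR.1.trans hr'.1, hr'.2⟩
    obtain ⟨E, hE, hφ, hsum⟩ := ih s θ hcard' hsR.2 hθ1 (h0.trans hθ0)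
      (fun r => (htop r).trans (le_of_eq (by linarith)))
    have hnot : (c, s) ∉ E := fun h => absurd (hE _ h).1 (not_le.2 hsR.1)
    refine ⟨insert (c, s) E, fun e he => ?_, ?_, ?_⟩
    · rcases Finset.mem_insert.1 he with rfl | he'
      · exact ⟨le_rfl, hsR.1, θ, h0.trans hθ0, hθ1, by linarith, htop⟩
      · obtain ⟨h2, h3, h4⟩ := hE e he'
        exact ⟨hsR.1.le.trans h2, h3, h4⟩
    · rw [Finset.sum_insert hnot]
      exact (abs_sub_le _ (φ s) _).trans (add_le_add le_rfl hφ)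
    · rw [Finset.sum_insert hnot]
      linarith

/-- A vector orthogonal to three independent ones vanishes. -/
theorem eq_zero_of_triple {d e x w : V3} (hK : d ⬝ᵥ crossProduct e x ≠ 0) (h1 : w ⬝ᵥ d = 0)
    (h2 : w ⬝ᵥ e = 0) (h3 : w ⬝ᵥ x = 0) : w = 0 := by
  have key : (d ⬝ᵥ crossProduct e x) • w = (w ⬝ᵥ d) • crossProduct e x
      + (w ⬝ᵥ e) • crossProduct x d + (w ⬝ᵥ x) • crossProduct d e := by
    funext k
    fin_cases k <;> simp [cross_apply, dotProduct, Fin.sum_univ_three] <;> ring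
  rw [h1, h2, h3, zero_smul, zero_smul, zero_smul, add_zero, add_zero] at key
  exact (smul_eq_zero.1 key).resolve_left hK

theorem cross_line (x y d : V3) (t : ℝ) :
    crossProduct (x + t • d) (y + t • d) = crossProduct x y + t • crossProduct d (y - x) := by
  funext k
  fin_cases k <;> simp [cross_apply] <;> ring

theorem cross_dot_cross' (a b P Q : V3) :
    crossProduct a b ⬝ᵥ crossProduct P Q = (a ⬝ᵥ P) * (b ⬝ᵥ Q) - (a ⬝ᵥ Q) * (b ⬝ᵥ P) :=
  cross_dot_cross a b P Q

/-- The sign of a Boolean. -/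
def sgn (τ : Bool) : ℝ := bif τ then 1 else -1

theorem sgn_cases (τ : Bool) : sgn τ = 1 ∨ sgn τ = -1 := by cases τ <;> simp [sgn]

/-- The moments at which the edge of `i` and `σ j` is crossed. -/
def crossed {N : ℕ} (ν : Fin N → V3) (x y d : V3) (I : Set ℝ) (i j : Fin N) (σ : ℝ) : Set ℝ :=
  {t | t ∈ I ∧ crossProduct (ν i) (ν j) ⬝ᵥ crossProduct (x + t • d) (y + t • d) ≠ 0 ∧
    ∃ θ ∈ Icc (0 : ℝ) 1, σ * (ν j ⬝ᵥ ((1 - θ) • (x + t • d) + θ • (y + t • d)))
        = ν i ⬝ᵥ ((1 - θ) • (x + t • d) + θ • (y + t • d)) ∧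
      ∀ r, |ν r ⬝ᵥ ((1 - θ) • (x + t • d) + θ • (y + t • d))|
        ≤ |ν i ⬝ᵥ ((1 - θ) • (x + t • d) + θ • (y + t • d))|}

/-- An edge is swept at least as fast as `K / (Γ |Det|)`. -/
theorem sweep {N : ℕ} {ν : Fin N → V3} (hν : Fam ν) (hc : Calc1 ν) {x y d : V3} {I : Set ℝ}
    (hI : MeasurableSet I) {Γ : ℝ} (hΓ : 0 < Γ)
    (hbd : ∀ t ∈ I, ∀ r, |ν r ⬝ᵥ (x + t • d)| ≤ Γ ∧ |ν r ⬝ᵥ (y + t • d)| ≤ Γ)
    (hK : d ⬝ᵥ crossProduct (y - x) x ≠ 0) {i j : Fin N} (hij : i ≠ j) {σ : ℝ}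
    (hσ : σ = 1 ∨ σ = -1) :
    MeasurableSet (crossed ν x y d I i j σ) ∧
      ∫⁻ t in crossed ν x y d I i j σ, ENNReal.ofReal
          (1 / |crossProduct (ν i) (ν j) ⬝ᵥ crossProduct (x + t • d) (y + t • d)|)
        ≤ ENNReal.ofReal (Γ / |d ⬝ᵥ crossProduct (y - x) x| * partW ν i j σ (window x y d I)) := by
  set K := d ⬝ᵥ crossProduct (y - x) x with hKdef
  set c := crossProduct (ν i) (ν j)
  set A := crossProduct x y
  set B := crossProduct d (y - x)
  set p : ℝ → ℝ → V3 := fun t θ => (1 - θ) • (x + t • d) + θ • (y + t • d)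
  set T := crossed ν x y d I i j σ
  have hn : ∀ t, crossProduct (x + t • d) (y + t • d) = A + t • B := cross_line x y d
  set nc : ℝ → ℝ := fun t => c ⬝ᵥ crossProduct (x + t • d) (y + t • d)
  set z₀ := linePoint ν i j σ
  set f : ℝ → ℝ := fun t => -(z₀ ⬝ᵥ crossProduct (x + t • d) (y + t • d)) / nc t
  -- measurability
  have hnc : Continuous nc := by
    simp only [nc, hn, dotProduct_add, dotProduct_smul, smul_eq_mul]
    fun_prop
  have hC : IsClosed {q : ℝ × Icc (0 : ℝ) 1 | σ * (ν j ⬝ᵥ p q.1 q.2) = ν i ⬝ᵥ p q.1 q.2 ∧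
      ∀ r, |ν r ⬝ᵥ p q.1 q.2| ≤ |ν i ⬝ᵥ p q.1 q.2|} := by
    have hp : ∀ v : V3, Continuous fun q : ℝ × Icc (0 : ℝ) 1 => v ⬝ᵥ p q.1 q.2 := fun v =>
      (continuous_dot v).comp (by simp only [p]; fun_prop)
    rw [Set.ofPred_and, Set.ofPred_forall]
    exact (isClosed_eq ((hp _).const_mul σ) (hp _)).inter
      (isClosed_iInter fun r => isClosed_le (hp _).abs (hp _).abs)
  have hT : MeasurableSet T := by
    have e : T = I ∩ ({t | nc t ≠ 0} ∩ Prod.fst '' {q : ℝ × Icc (0 : ℝ) 1 |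
        σ * (ν j ⬝ᵥ p q.1 q.2) = ν i ⬝ᵥ p q.1 q.2 ∧
          ∀ r, |ν r ⬝ᵥ p q.1 q.2| ≤ |ν i ⬝ᵥ p q.1 q.2|}) := by
      ext t
      simp only [T, crossed, Set.mem_ofPred_eq, Set.mem_inter_iff, Set.mem_image, p, nc, c]
      constructor
      · rintro ⟨h1, h2, θ, hθ, h3⟩
        exact ⟨h1, h2, (t, ⟨θ, hθ⟩), h3, rfl⟩
      · rintro ⟨h1, h2, ⟨t', θ, hθ⟩, h3, rfl⟩
        exact ⟨h1, h2, θ, hθ, h3⟩
    rw [e]
    exact hI.inter ((isOpen_ne_fun hnc continuous_const).measurableSet.inter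
      (isClosedMap_fst_of_compactSpace _ hC).measurableSet)
  refine ⟨hT, ?_⟩
  -- the crossing point
  have hσ0 : σ ≠ 0 := by rcases hσ with rfl | rfl <;> norm_num
  have hcw : crossProduct (ν i) (σ • ν j) ≠ 0 := by
    rw [map_smul]; exact smul_ne_zero hσ0 (hν.indep i j hij)
  have hpt : ∀ t ∈ T, z₀ + f t • c ∈ edge ν 1 i j σ ∩ window x y d I ∧
      |K| / Γ ≤ |B ⬝ᵥ (z₀ + f t • c)| := by
    rintro t ⟨htI, htc, θ, hθ, hj, htop⟩
    set g := ν i ⬝ᵥ p t θ with hg
    have hg0 : g ≠ 0 := by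
      intro h0
      have hz : p t θ = 0 := hν.span _ fun r => abs_nonpos_iff.1 (by
        have := htop r
        rwa [h0, abs_zero] at this)
      apply hK
      have hx : x = (-t) • d + (-θ) • (y - x) := by
        rw [← sub_eq_zero, ← hz]; simp only [p]; module
      have e := congrArg (crossProduct (y - x)) hx
      rw [map_add, map_smul, map_smul, cross_self, smul_zero, add_zero] at e
      rw [hKdef, e, dotProduct_smul, dot_cross_self, smul_zero]
    set z := g⁻¹ • p t θ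
    have hzi : ν i ⬝ᵥ z = 1 := by rw [dotProduct_smul, smul_eq_mul, inv_mul_cancel₀ hg0]
    have hzj : σ * (ν j ⬝ᵥ z) = 1 := by
      rw [dotProduct_smul, smul_eq_mul, mul_left_comm, hj, inv_mul_cancel₀ hg0]
    have h0 := linePoint_spec (ν := ν) hcw
    obtain ⟨s, hs⟩ := mem_cross (hν.indep i j hij) (d := z - z₀)
      (by rw [dotProduct_sub, hzi, h0.1, sub_self])
      (by
        have h2 := h0.2
        rw [smul_dotProduct, smul_eq_mul] at h2
        have : σ * (ν j ⬝ᵥ (z - z₀)) = 0 := by rw [dotProduct_sub, mul_sub, hzj, h2, sub_self]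
        exact (mul_eq_zero.1 this).resolve_left hσ0)
    have hz : z = z₀ + s • c := by rw [← hs]; abel
    have hperp : z ⬝ᵥ crossProduct (x + t • d) (y + t • d) = 0 := by
      simp only [z, p]
      rw [smul_dotProduct, add_dotProduct, smul_dotProduct, smul_dotProduct, dot_self_cross,
        dot_cross_self]
      simp
    have hfs : f t = s := by
      rw [hz, add_dotProduct, smul_dotProduct, smul_eq_mul] at hperp
      simp only [f, nc]
      rw [div_eq_iff htc]
      linarith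
    rw [hfs, ← hz]
    refine ⟨⟨⟨fun r => ?_, hzi, hzj⟩, t, htI, θ, hθ, g⁻¹, inv_ne_zero hg0, rfl⟩, ?_⟩
    · rw [dotProduct_smul, smul_eq_mul, abs_mul, abs_inv, Pi.one_apply,
        inv_mul_le_iff₀ (abs_pos.2 hg0), mul_one]
      exact htop r
    · have hgΓ : |g| ≤ Γ := by
        rw [hg]
        simp only [p, dotProduct_add, dotProduct_smul, smul_eq_mul]
        refine (abs_add_le _ _).trans ?_
        rw [abs_mul, abs_mul, abs_of_nonneg (sub_nonneg.2 hθ.2), abs_of_nonneg hθ.1]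
        have h1 := (hbd t htI i).1
        have h2 := (hbd t htI i).2
        simp only [dotProduct_add, dotProduct_smul, smul_eq_mul] at h1 h2
        linarith [mul_le_mul_of_nonneg_left h1 (sub_nonneg.2 hθ.2),
          mul_le_mul_of_nonneg_left h2 hθ.1]
      have hBp : B ⬝ᵥ p t θ = K := by
        simp only [B, p, dotProduct_add, dotProduct_smul, hKdef]
        simp [cross_apply, dotProduct, Fin.sum_univ_three]
        ring
      rw [dotProduct_smul, smul_eq_mul, abs_mul, hBp, abs_inv, inv_mul_eq_div]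
      exact div_le_div_of_nonneg_left (abs_nonneg _) (abs_pos.2 hg0) hgΓ
  have hperp' : ∀ t ∈ T, (z₀ + f t • c) ⬝ᵥ (A + t • B) = 0 := fun t ht => by
    rw [← hn, add_dotProduct, smul_dotProduct, smul_eq_mul]
    simp only [f, nc]
    rw [div_mul_cancel₀ _ ht.2.1, add_neg_cancel]
  have hder : ∀ t ∈ T, HasDerivWithinAt f (-(B ⬝ᵥ (z₀ + f t • c)) / nc t) T t := by
    intro t ht
    have hlin : ∀ w : V3, HasDerivAt (fun t => w ⬝ᵥ crossProduct (x + t • d) (y + t • d))
        (w ⬝ᵥ B) t := fun w => by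
      simp only [hn, dotProduct_add, dotProduct_smul, smul_eq_mul]
      simpa using ((hasDerivAt_id t).mul_const (w ⬝ᵥ B)).const_add (w ⬝ᵥ A)
    have h := (hlin z₀).neg.div (hlin c) ht.2.1
    refine (h.congr_deriv ?_).hasDerivWithinAt
    have hne : nc t ≠ 0 := ht.2.1
    rw [dotProduct_comm B, add_dotProduct, smul_dotProduct, smul_eq_mul]
    simp only [Pi.neg_apply, f]
    simp only [nc] at hne ⊢
    field_simp
    ring
  have hinj : InjOn f T := by
    intro t ht t' ht' he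
    have h1 := hperp' t ht
    have h2 := hperp' t' ht'
    rw [← he, dotProduct_add, dotProduct_smul, smul_eq_mul] at h2
    rw [dotProduct_add, dotProduct_smul, smul_eq_mul] at h1
    have h3 : (t - t') * ((z₀ + f t • c) ⬝ᵥ B) = 0 := by linarith
    refine sub_eq_zero.1 ((mul_eq_zero.1 h3).resolve_right fun h => ?_)
    have h4 := (hpt t ht).2
    rw [dotProduct_comm, h, abs_zero] at h4
    exact absurd h4 (not_le.2 (div_pos (abs_pos.2 hK) hΓ))
  have harea := lintegral_image_eq_lintegral_abs_deriv_mul hT hder hinj fun _ => (1 : ℝ≥0∞)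
  simp only [mul_one, setLIntegral_one] at harea
  have hfin : volume {s : ℝ | z₀ + s • c ∈ edge ν 1 i j σ ∩ window x y d I} ≠ ⊤ := by
    obtain ⟨R, hR⟩ := (hc.compact 1).isBounded.exists_norm_le
    have hc0 : c ≠ 0 := hν.indep i j hij
    refine ((measure_mono (t := Metric.closedBall (0 : ℝ) ((R + ‖z₀‖) / ‖c‖)) ?_).trans_lt
      measure_closedBall_lt_top).ne
    rintro s ⟨hs, -⟩
    rw [Metric.mem_closedBall, dist_zero_right, le_div_iff₀ (norm_pos_iff.2 hc0), ← norm_smul]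
    have h1 := norm_sub_le (z₀ + s • c) z₀
    rw [add_sub_cancel_left] at h1
    linarith [hR _ hs.1]
  calc ∫⁻ t in T, ENNReal.ofReal (1 / |nc t|)
      ≤ ∫⁻ t in T, ENNReal.ofReal (Γ / |K|) *
          ENNReal.ofReal |(-(B ⬝ᵥ (z₀ + f t • c)) / nc t)| := by
        refine setLIntegral_mono' hT fun t ht => ?_
        rw [← ENNReal.ofReal_mul (by positivity)]
        refine ENNReal.ofReal_le_ofReal ?_
        rw [abs_div, abs_neg, ← mul_div_assoc]
        refine div_le_div_of_nonneg_right ?_ (abs_nonneg _)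
        have h := (hpt t ht).2
        rw [div_le_iff₀ hΓ] at h
        rw [div_mul_eq_mul_div, le_div_iff₀ (abs_pos.2 hK)]
        linarith
    _ = ENNReal.ofReal (Γ / |K|) * volume (f '' T) := by
        rw [lintegral_const_mul' _ _ ENNReal.ofReal_ne_top, harea]
    _ ≤ ENNReal.ofReal (Γ / |K|) * volume {s : ℝ | z₀ + s • c ∈ edge ν 1 i j σ ∩ window x y d I} := by
        refine mul_le_mul_right (measure_mono ?_) _
        rintro _ ⟨t, ht, rfl⟩
        exact (hpt t ht).1
    _ = _ := by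
        rw [partW, ENNReal.ofReal_mul (by positivity), ENNReal.ofReal_toReal hfin]

/-- The signed normal. -/
def sval {N : ℕ} (ν : Fin N → V3) (q : Fin N × Bool) : V3 := sgn q.2 • ν q.1

/-- The inequality at one moment. -/
theorem chain_at {N : ℕ} {ν : Fin N → V3} (hν : Fam ν) {φ : Fin N → ℝ} {x y d : V3} {I : Set ℝ}
    {t : ℝ} (ht : t ∈ I) {D Γ S : ℝ} (hD : 0 ≤ D) (hK : d ⬝ᵥ crossProduct (y - x) x ≠ 0)
    (hgen : ∀ r s : Fin N × Bool, sval ν r ⬝ᵥ (x + t • d) = sval ν s ⬝ᵥ (x + t • d) →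
      sval ν r ⬝ᵥ (y + t • d) = sval ν s ⬝ᵥ (y + t • d) → r = s)
    {a b : Fin N} {τa τb : ℝ} (ha : IsTop ν a τa (x + t • d)) (hb : IsTop ν b τb (y + t • d))
    (haΓ : τa * (ν a ⬝ᵥ (x + t • d)) ≤ Γ) (hbΓ : τb * (ν b ⬝ᵥ (y + t • d)) ≤ Γ)
    (hDab : D ≤ |φ a - φ b|)
    (hS : (τb * (ν b ⬝ᵥ (y + t • d)) - τb * (ν b ⬝ᵥ (x + t • d)))
      - (τa * (ν a ⬝ᵥ (y + t • d)) - τa * (ν a ⬝ᵥ (x + t • d))) ≤ S) :
    D ^ 2 ≤ Γ * S * ∑ k ∈ ((Finset.univ ×ˢ Finset.univ).filter fun q : Fin N × Fin N => q.1 < q.2)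
        ×ˢ (Finset.univ : Finset Bool),
      (φ k.1.1 - φ k.1.2) ^ 2 * (crossed ν x y d I k.1.1 k.1.2 (sgn k.2)).indicator
        (fun t => 1 / |crossProduct (ν k.1.1) (ν k.1.2) ⬝ᵥ crossProduct (x + t • d) (y + t • d)|) t := by
  set P := x + t • d
  set Q := y + t • d
  set A : Fin N × Bool → ℝ := fun r => sval ν r ⬝ᵥ P
  set B : Fin N × Bool → ℝ := fun r => sval ν r ⬝ᵥ Q - sval ν r ⬝ᵥ P
  have hsval : ∀ r R, sval ν r ⬝ᵥ R = sgn r.2 * (ν r.1 ⬝ᵥ R) := fun r R => by
    rw [sval, smul_dotProduct, smul_eq_mul]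
  have habs : ∀ r R, sval ν r ⬝ᵥ R ≤ |ν r.1 ⬝ᵥ R| := fun r R => by
    rw [hsval]
    rcases sgn_cases r.2 with h | h <;> rw [h] <;> simp [le_abs_self, neg_le_abs]
  have hbool : ∀ τ : ℝ, (τ = 1 ∨ τ = -1) → ∃ β, sgn β = τ := fun τ hτ => by
    rcases hτ with rfl | rfl
    · exact ⟨true, rfl⟩
    · exact ⟨false, rfl⟩
  obtain ⟨βa, rfl⟩ := hbool τa ha.1
  obtain ⟨βb, rfl⟩ := hbool τb hb.1
  have hatop : ∀ r, A r ≤ A (a, βa) := fun r =>
    (habs r P).trans ((ha.2 r.1).trans (le_of_eq (hsval (a, βa) P).symm))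
  have hbtop : ∀ r, A r + B r ≤ A (b, βb) + B (b, βb) := fun r => by
    simp only [A, B, add_sub_cancel]
    exact (habs r Q).trans ((hb.2 r.1).trans (le_of_eq (hsval (b, βb) Q).symm))
  have hslope : B (a, βa) ≤ B (b, βb) := by linarith [hatop (b, βb), hbtop (a, βa)]
  have hSge : B (b, βb) - B (a, βa) ≤ S := by simp only [B, hsval]; exact hS
  obtain ⟨E, hE, hφE, hsum⟩ := exists_chain A B (fun r => φ r.1)
    (fun r s h1 h2 => hgen r s h1 (by simp only [B, A] at h1 h2; linarith)) hbtop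
    (Finset.univ : Finset (Fin N × Bool)).card (a, βa) 0 (Finset.card_filter_le _ _) hslope
    zero_le_one le_rfl (fun r => by simpa using hatop r)
  set pt : ℝ → V3 := fun θ => (1 - θ) • P + θ • Q
  have hline : ∀ r θ, A r + θ * B r = sgn r.2 * (ν r.1 ⬝ᵥ pt θ) := fun r θ => by
    simp only [A, B, hsval, pt, dotProduct_add, dotProduct_smul, smul_eq_mul]; ring
  -- properties of a step
  have hstep : ∀ e ∈ E, ∃ θ : ℝ, θ ∈ Icc (0 : ℝ) 1 ∧ 0 < A e.1 + θ * B e.1 ∧ e.1.1 ≠ e.2.1 ∧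
      A e.1 + θ * B e.1 = A e.2 + θ * B e.2 ∧ A e.1 + θ * B e.1 ≤ Γ ∧
      (∀ r, |ν r ⬝ᵥ pt θ| ≤ A e.1 + θ * B e.1) ∧
      |crossProduct (ν e.1.1) (ν e.2.1) ⬝ᵥ crossProduct P Q|
        = (A e.1 + θ * B e.1) * (B e.2 - B e.1) := by
    intro e he
    obtain ⟨-, hlt, θ, h0, h1, heq, htop⟩ := hE e he
    set g := A e.1 + θ * B e.1
    have habs' : ∀ r, |ν r ⬝ᵥ pt θ| ≤ g := fun r => by
      have h2 := htop (r, true)
      have h3 := htop (r, false)
      rw [hline] at h2 h3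
      simp only [sgn, cond_true, cond_false] at h2 h3
      exact abs_le'.2 ⟨by linarith, by linarith⟩
    have hg : 0 < g := by
      by_contra hg
      have hz : pt θ = 0 := hν.span _ fun r => abs_nonpos_iff.1 ((habs' r).trans (not_lt.1 hg))
      apply hK
      have hx : x = (-t) • d + (-θ) • (y - x) := by
        rw [← sub_eq_zero, ← hz]; simp only [pt, P, Q]; module
      have e := congrArg (crossProduct (y - x)) hx
      rw [map_add, map_smul, map_smul, cross_self, smul_zero, add_zero] at e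
      rw [e, dotProduct_smul, dot_cross_self, smul_zero]
    have hne : e.1.1 ≠ e.2.1 := fun h => by
      have h2 : e.2.2 ≠ e.1.2 := fun h2 => hlt.ne (by rw [show e.1 = e.2 from Prod.ext h h2.symm])
      have h3 : sgn e.2.2 = -sgn e.1.2 := by
        revert h2
        cases e.2.2 <;> cases e.1.2 <;> simp [sgn]
      have h4 := hline e.2 θ
      rw [← heq, ← h, h3, neg_mul, ← hline e.1 θ] at h4
      linarith
    have hgΓ : g ≤ Γ := by
      have hP : A e.1 ≤ Γ := (hatop _).trans (le_trans (le_of_eq (hsval (a, βa) P)) haΓ)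
      have hQ : A e.1 + B e.1 ≤ Γ := (hbtop _).trans (le_trans (le_of_eq
        (by simp only [A, B, add_sub_cancel]; exact hsval (b, βb) Q)) hbΓ)
      have := mul_le_mul_of_nonneg_left hP (sub_nonneg.2 h1)
      have := mul_le_mul_of_nonneg_left hQ h0
      simp only [g]
      linarith
    refine ⟨θ, ⟨h0, h1⟩, hg, hne, heq, hgΓ, habs', ?_⟩
    have hdet : sgn e.1.2 * sgn e.2.2 * (crossProduct (ν e.1.1) (ν e.2.1) ⬝ᵥ crossProduct P Q)
        = A e.1 * B e.2 - A e.2 * B e.1 := by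
      rw [cross_dot_cross']
      simp only [A, B, hsval]
      ring
    have hval : A e.1 * B e.2 - A e.2 * B e.1 = g * (B e.2 - B e.1) := by
      simp only [g]; linear_combination B e.1 * heq
    have h5 := congrArg abs (hdet.trans hval)
    rw [abs_mul, abs_of_pos (mul_pos hg (sub_pos.2 hlt))] at h5
    rw [← h5]
    rcases sgn_cases e.1.2 with h | h <;> rcases sgn_cases e.2.2 with h' | h' <;>
      simp [h, h']
  choose! θ hθ hg hne heq hgΓ htop hdet using hstep
  set Det : (Fin N × Bool) × (Fin N × Bool) → ℝ :=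
    fun e => |crossProduct (ν e.1.1) (ν e.2.1) ⬝ᵥ crossProduct P Q|
  have hDet : ∀ e ∈ E, 0 < Det e := fun e he => by
    simp only [Det, hdet e he]
    exact mul_pos (hg e he) (sub_pos.2 (hE e he).2.1)
  have hcs : D ^ 2 ≤ (Γ * S) * ∑ e ∈ E, (φ e.1.1 - φ e.2.1) ^ 2 / Det e := by
    have h1 := Finset.sum_sq_le_sum_mul_sum_of_sq_le_mul E (r := fun e => |φ e.1.1 - φ e.2.1|)
      (f := Det) (g := fun e => (φ e.1.1 - φ e.2.1) ^ 2 / Det e) (fun e he => (hDet e he).le)
      (fun e he => div_nonneg (sq_nonneg _) (hDet e he).le)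
      (fun e he => by rw [sq_abs, mul_div_cancel₀ _ (hDet e he).ne'])
    refine ((pow_le_pow_left₀ hD (hDab.trans hφE) 2).trans h1).trans
      (mul_le_mul_of_nonneg_right ?_ (Finset.sum_nonneg fun e he =>
        div_nonneg (sq_nonneg _) (hDet e he).le))
    calc ∑ e ∈ E, Det e ≤ ∑ e ∈ E, Γ * (B e.2 - B e.1) := Finset.sum_le_sum fun e he => by
          simp only [Det, hdet e he]
          exact mul_le_mul_of_nonneg_right (hgΓ e he) (sub_nonneg.2 (hE e he).2.1.le)
      _ = Γ * ∑ e ∈ E, (B e.2 - B e.1) := (Finset.mul_sum _ _ _).symm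
      _ ≤ Γ * S := by
          have hΓ0 : 0 ≤ Γ := ((abs_nonneg _).trans (ha.2 a)).trans haΓ
          exact mul_le_mul_of_nonneg_left (hsum.trans hSge) hΓ0
  -- each edge is used once
  set key : (Fin N × Bool) × (Fin N × Bool) → (Fin N × Fin N) × Bool := fun e =>
    (if e.1.1 < e.2.1 then (e.1.1, e.2.1) else (e.2.1, e.1.1), e.1.2 == e.2.2)
  have hkey : ∀ e ∈ E, ∀ e' ∈ E, key e = key e' → e = e' := by
    intro e he e' he' h
    have hb1 : (e.1.2 == e.2.2) = (e'.1.2 == e'.2.2) := congrArg Prod.snd h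
    have hp := congrArg Prod.fst h
    simp only [key] at hp
    have hcase : (e.1.1 = e'.1.1 ∧ e.2.1 = e'.2.1) ∨ (e.1.1 = e'.2.1 ∧ e.2.1 = e'.1.1) := by
      split_ifs at hp <;> simp only [Prod.mk.injEq] at hp <;> tauto
    have hB : ∀ i β, B (i, !β) = -B (i, β) := fun i β => by
      cases β <;> simp [B, sval, sgn] <;> ring
    have hA : ∀ i β, A (i, !β) = -A (i, β) := fun i β => by
      cases β <;> simp [A, sval, sgn]
    obtain ⟨⟨i1, β1⟩, i2, β2⟩ := e
    obtain ⟨⟨j1, γ1⟩, j2, γ2⟩ := e'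
    have l1 := (hE _ he).2.1
    have l2 := (hE _ he').2.1
    simp only at hcase hb1 l1 l2
    rcases hcase with ⟨rfl, rfl⟩ | ⟨rfl, rfl⟩
    · rcases eq_or_ne β1 γ1 with rfl | hne1
      · obtain rfl : β2 = γ2 := by revert hb1; cases β1 <;> cases β2 <;> cases γ2 <;> simp
        rfl
      · obtain rfl : γ1 = !β1 := by revert hne1; cases β1 <;> cases γ1 <;> simp
        obtain rfl : γ2 = !β2 := by revert hb1; cases β1 <;> cases β2 <;> cases γ2 <;> simp
        rw [hB, hB] at l2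
        linarith
    · rcases eq_or_ne β1 γ2 with rfl | hne1
      · obtain rfl : γ1 = β2 := by revert hb1; cases β1 <;> cases β2 <;> cases γ1 <;> simp
        linarith
      · obtain rfl : γ2 = !β1 := by revert hne1; cases β1 <;> cases γ2 <;> simp
        obtain rfl : γ1 = !β2 := by revert hb1; cases β1 <;> cases β2 <;> cases γ1 <;> simp
        have g1 := hg _ he
        have g2 := hg _ he'
        have q1 := heq _ he
        have q2 := heq _ he'
        simp only [hA, hB] at g2 q2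
        set u := θ ((i1, β1), (i2, β2))
        set v := θ ((i2, !β2), (i1, !β1))
        have h6 : (u - v) * (B (i2, β2) - B (i1, β1)) = 0 := by linarith
        rw [(sub_eq_zero.1 ((mul_eq_zero.1 h6).resolve_right (sub_pos.2 l1).ne'))] at g1 q1
        linarith
  have hterm : ∀ e ∈ E, key e ∈ ((Finset.univ ×ˢ Finset.univ).filter
        fun q : Fin N × Fin N => q.1 < q.2) ×ˢ (Finset.univ : Finset Bool) ∧
      (φ e.1.1 - φ e.2.1) ^ 2 / Det e = (φ (key e).1.1 - φ (key e).1.2) ^ 2 *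
        (crossed ν x y d I (key e).1.1 (key e).1.2 (sgn (key e).2)).indicator
          (fun t => 1 / |crossProduct (ν (key e).1.1) (ν (key e).1.2) ⬝ᵥ
            crossProduct (x + t • d) (y + t • d)|) t := by
    intro e he
    have hD0 := hDet e he
    have e1 := hline e.1 (θ e)
    have e2 := hline e.2 (θ e)
    rw [← heq e he] at e2
    have htop' := htop e he
    have hσ : sgn (e.1.2 == e.2.2) = sgn e.1.2 * sgn e.2.2 := by
      cases e.1.2 <;> cases e.2.2 <;> simp [sgn]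
    have hsq : ∀ β : Bool, sgn β * sgn β = 1 := fun β => by cases β <;> simp [sgn]
    have habsg : ∀ i β, A e.1 + θ e * B e.1 = sgn β * (ν i ⬝ᵥ pt (θ e)) →
        |ν i ⬝ᵥ pt (θ e)| = A e.1 + θ e * B e.1 := fun i β h => by
      rw [← abs_of_pos (hg e he), h, abs_mul]
      rcases sgn_cases β with hb' | hb' <;> simp [hb']
    simp only [key]
    split_ifs with hlt
    · refine ⟨Finset.mem_product.2 ⟨by simp [hlt], Finset.mem_univ _⟩, ?_⟩
      rw [indicator_of_mem (show t ∈ crossed ν x y d I e.1.1 e.2.1 (sgn (e.1.2 == e.2.2)) from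
        ⟨ht, fun h0 => hD0.ne' (abs_eq_zero.2 h0), θ e, hθ e he, ?_, fun r => ?_⟩)]
      · simp [Det, P, Q, div_eq_mul_inv]
      · show sgn (e.1.2 == e.2.2) * (ν e.2.1 ⬝ᵥ pt (θ e)) = ν e.1.1 ⬝ᵥ pt (θ e)
        rw [hσ, mul_assoc, ← e2, e1, ← mul_assoc, hsq, one_mul]
      · show |ν r ⬝ᵥ pt (θ e)| ≤ |ν e.1.1 ⬝ᵥ pt (θ e)|
        rw [habsg _ _ e1]; exact htop' r
    · have hlt' : e.2.1 < e.1.1 := lt_of_le_of_ne (not_lt.1 hlt) (hne e he).symm
      refine ⟨Finset.mem_product.2 ⟨by simp [hlt'], Finset.mem_univ _⟩, ?_⟩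
      have hsw : |crossProduct (ν e.2.1) (ν e.1.1) ⬝ᵥ crossProduct P Q| = Det e := by
        simp only [Det]
        rw [← cross_anticomm, neg_dotProduct, abs_neg]
      rw [indicator_of_mem (show t ∈ crossed ν x y d I e.2.1 e.1.1 (sgn (e.1.2 == e.2.2)) from
        ⟨ht, fun h0 => hD0.ne' (by rw [← hsw]; exact abs_eq_zero.2 h0), θ e, hθ e he, ?_, fun r => ?_⟩),
        ← hsw]
      · simp only [P, Q]; ring
      · show sgn (e.1.2 == e.2.2) * (ν e.1.1 ⬝ᵥ pt (θ e)) = ν e.2.1 ⬝ᵥ pt (θ e)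
        rw [hσ, mul_comm (sgn e.1.2), mul_assoc, ← e1, e2, ← mul_assoc, hsq, one_mul]
      · show |ν r ⬝ᵥ pt (θ e)| ≤ |ν e.2.1 ⬝ᵥ pt (θ e)|
        rw [habsg _ _ e2]; exact htop' r
  refine hcs.trans (mul_le_mul_of_nonneg_left ?_ ?_)
  · rw [Finset.sum_congr rfl fun e he => (hterm e he).2]
    refine le_trans (le_of_eq ?_) (Finset.sum_le_sum_of_subset_of_nonneg
      (Finset.image_subset_iff.2 fun e he => (hterm e he).1) fun k _ _ =>
      mul_nonneg (sq_nonneg _) (indicator_nonneg (fun _ _ => by positivity) _))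
    exact (Finset.sum_image (g := key) (f := fun k : (Fin N × Fin N) × Bool =>
      (φ k.1.1 - φ k.1.2) ^ 2 * (crossed ν x y d I k.1.1 k.1.2 (sgn k.2)).indicator (fun t => 1 /
        |crossProduct (ν k.1.1) (ν k.1.2) ⬝ᵥ crossProduct (x + t • d) (y + t • d)|) t)
      fun e he e' he' h => hkey e he e' he' h).symm
  · have hΓ0 : 0 ≤ Γ := ((abs_nonneg _).trans (ha.2 a)).trans haΓ
    exact mul_nonneg hΓ0 ((sub_nonneg.2 hslope).trans hSge)

theorem chain_of (hC : CalcStatement) : ChainStatement := by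
  intro N ν hν _ φ x y d I D Γ S hI hIb hD hΓ hyp
  obtain ⟨hc, -⟩ := hC N ν hν
  set E := ∑ i, ∑ j ∈ Finset.univ.filter (i < ·), (φ i - φ j) ^ 2 *
    (partW ν i j 1 (window x y d I) + partW ν i j (-1) (window x y d I))
  have hE0 : 0 ≤ E := Finset.sum_nonneg fun i _ => Finset.sum_nonneg fun j _ =>
    mul_nonneg (sq_nonneg _) (add_nonneg ENNReal.toReal_nonneg ENNReal.toReal_nonneg)
  rcases I.eq_empty_or_nonempty with rfl | ⟨t₁, ht₁⟩
  · rw [measure_empty, ENNReal.toReal_zero, mul_zero, zero_mul]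
    have hz : E = 0 := Finset.sum_eq_zero fun i _ => Finset.sum_eq_zero fun j _ => by
      simp [partW, window]
    rw [hz, mul_zero]
  have hS : 0 ≤ S := by
    obtain ⟨a, b, τa, τb, ha, hb, -, -, -, hS⟩ := hyp t₁ ht₁
    refine le_trans ?_ hS
    have h1 : ∀ c τ R, (τ = 1 ∨ τ = -1) → τ * (ν c ⬝ᵥ R) ≤ |ν c ⬝ᵥ R| := fun c τ R hτ => by
      rcases hτ with rfl | rfl <;> simp [le_abs_self, neg_le_abs]
    linarith [(h1 b τb (x + t₁ • d) hb.1).trans (ha.2 b),
      (h1 a τa (y + t₁ • d) ha.1).trans (hb.2 a)]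
  rcases eq_or_ne (d ⬝ᵥ crossProduct (y - x) x) 0 with hK | hK
  · rw [hK, abs_zero, mul_zero]
    exact mul_nonneg (mul_nonneg (sq_nonneg _) hS) hE0
  set K := d ⬝ᵥ crossProduct (y - x) x
  set keys := ((Finset.univ ×ˢ Finset.univ).filter fun q : Fin N × Fin N => q.1 < q.2)
    ×ˢ (Finset.univ : Finset Bool)
  set G : (Fin N × Fin N) × Bool → ℝ → ℝ := fun k =>
    (crossed ν x y d I k.1.1 k.1.2 (sgn k.2)).indicator
      (fun t => 1 / |crossProduct (ν k.1.1) (ν k.1.2) ⬝ᵥ crossProduct (x + t • d) (y + t • d)|)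
  have hbd : ∀ t ∈ I, ∀ r, |ν r ⬝ᵥ (x + t • d)| ≤ Γ ∧ |ν r ⬝ᵥ (y + t • d)| ≤ Γ := fun t ht r => by
    obtain ⟨a, b, τa, τb, ha, hb, haΓ, hbΓ, -, -⟩ := hyp t ht
    exact ⟨(ha.2 r).trans haΓ, (hb.2 r).trans hbΓ⟩
  have hsweep : ∀ k ∈ keys, Measurable (fun t => ENNReal.ofReal (G k t)) ∧
      ∫⁻ t, ENNReal.ofReal (G k t)
        ≤ ENNReal.ofReal (Γ / |K| * partW ν k.1.1 k.1.2 (sgn k.2) (window x y d I)) := by
    intro k hk
    simp only [keys, Finset.mem_product, Finset.mem_filter] at hk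
    obtain ⟨hm, hle⟩ := sweep hν hc hI hΓ hbd hK hk.1.2.ne (sgn_cases k.2)
    refine ⟨((Measurable.indicator ?_ hm).ennreal_ofReal), ?_⟩
    · simp only [cross_line, dotProduct_add, dotProduct_smul, smul_eq_mul]
      exact measurable_const.div (continuous_abs.comp (by fun_prop : Continuous fun t : ℝ =>
        crossProduct (ν k.1.1) (ν k.1.2) ⬝ᵥ crossProduct x y
          + t * (crossProduct (ν k.1.1) (ν k.1.2) ⬝ᵥ crossProduct d (y - x)))).measurable
    · refine le_trans (le_of_eq ?_) hle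
      rw [← lintegral_indicator hm]
      refine lintegral_congr fun t => ?_
      simp only [G, indicator]
      split_ifs <;> simp
  set bad : Set ℝ := ⋃ r : Fin N × Bool, ⋃ s : Fin N × Bool, ⋃ (_ : r ≠ s),
    {t | sval ν r ⬝ᵥ (x + t • d) = sval ν s ⬝ᵥ (x + t • d) ∧
      sval ν r ⬝ᵥ (y + t • d) = sval ν s ⬝ᵥ (y + t • d)}
  have hbad : volume bad = 0 := by
    refine measure_iUnion_null fun r => measure_iUnion_null fun s => measure_iUnion_null fun hrs =>
      Set.Subsingleton.measure_zero ?_ _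
    rintro t ⟨h1, h2⟩ t' ⟨h1', h2'⟩
    by_contra hne
    have hw : sval ν r - sval ν s ≠ 0 := by
      intro h0
      rcases eq_or_ne r.1 s.1 with he | he
      · apply hrs
        refine Prod.ext he ?_
        rw [sub_eq_zero, sval, sval, he] at h0
        have h3 := smul_left_injective ℝ (hν.ne_zero s.1) h0
        revert h3
        cases r.2 <;> cases s.2 <;> simp [sgn] <;> norm_num
      · refine hν.indep r.1 s.1 he ?_
        rw [sub_eq_zero, sval, sval] at h0
        have hs0 : sgn r.2 ≠ 0 := by rcases sgn_cases r.2 with h | h <;> simp [h]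
        have h3 : ν r.1 = ((sgn r.2)⁻¹ * sgn s.2) • ν s.1 := by
          rw [mul_smul, ← h0, inv_smul_smul₀ hs0]
        rw [h3, LinearMap.map_smul₂, cross_self, smul_zero]
    refine hw (eq_zero_of_triple (e := y - x) hK ?_ ?_ ?_)
    all_goals
      simp only [dotProduct_add, dotProduct_smul, smul_eq_mul] at h1 h2 h1' h2'
      have hd : (sval ν r - sval ν s) ⬝ᵥ d = 0 := by
        rw [sub_dotProduct]
        have h4 : (t - t') * (sval ν r ⬝ᵥ d - sval ν s ⬝ᵥ d) = 0 := by linarith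
        exact (mul_eq_zero.1 h4).resolve_left (sub_ne_zero.2 hne)
      rw [sub_dotProduct, sub_eq_zero] at hd
      rw [hd] at h1 h2
      rw [sub_dotProduct]
      try rw [dotProduct_sub, dotProduct_sub]
      linarith
  have hae : ∀ᵐ t ∂volume.restrict I, ENNReal.ofReal (D ^ 2) ≤
      ENNReal.ofReal (Γ * S) * ∑ k ∈ keys,
        ENNReal.ofReal ((φ k.1.1 - φ k.1.2) ^ 2) * ENNReal.ofReal (G k t) := by
    filter_upwards [ae_restrict_mem hI, ae_restrict_of_ae
      (measure_eq_zero_iff_ae_notMem.1 hbad)] with t ht htb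
    obtain ⟨a, b, τa, τb, ha, hb, haΓ, hbΓ, hDab, hS'⟩ := hyp t ht
    have h := chain_at hν ht hD hK (fun r s h1 h2 => by
      by_contra hrs
      exact htb (mem_iUnion.2 ⟨r, mem_iUnion.2 ⟨s, mem_iUnion.2 ⟨hrs, h1, h2⟩⟩⟩))
      ha hb haΓ hbΓ hDab hS'
    refine (ENNReal.ofReal_le_ofReal h).trans (le_of_eq ?_)
    rw [ENNReal.ofReal_mul (mul_nonneg hΓ.le hS), ENNReal.ofReal_sum_of_nonneg fun k _ =>
      mul_nonneg (sq_nonneg _) (indicator_nonneg (fun _ _ => by positivity) _)]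
    simp only [G, ENNReal.ofReal_mul (sq_nonneg _)]
    rfl
  have hmain : ENNReal.ofReal (D ^ 2) * volume I ≤ ENNReal.ofReal (Γ * S * (Γ / |K| * E)) := by
    calc ENNReal.ofReal (D ^ 2) * volume I = ∫⁻ _ in I, ENNReal.ofReal (D ^ 2) :=
          (setLIntegral_const _ _).symm
      _ ≤ ∫⁻ t in I, ENNReal.ofReal (Γ * S) * ∑ k ∈ keys,
            ENNReal.ofReal ((φ k.1.1 - φ k.1.2) ^ 2) * ENNReal.ofReal (G k t) :=
          lintegral_mono_ae hae
      _ ≤ ∫⁻ t, ENNReal.ofReal (Γ * S) * ∑ k ∈ keys,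
            ENNReal.ofReal ((φ k.1.1 - φ k.1.2) ^ 2) * ENNReal.ofReal (G k t) :=
          setLIntegral_le_lintegral _ _
      _ = ENNReal.ofReal (Γ * S) * ∑ k ∈ keys,
            ENNReal.ofReal ((φ k.1.1 - φ k.1.2) ^ 2) * ∫⁻ t, ENNReal.ofReal (G k t) := by
          rw [lintegral_const_mul' _ _ ENNReal.ofReal_ne_top,
            lintegral_finsetSum _ fun k hk => (hsweep k hk).1.const_mul _]
          simp only [lintegral_const_mul' _ _ ENNReal.ofReal_ne_top]
      _ ≤ ENNReal.ofReal (Γ * S) * ∑ k ∈ keys, ENNReal.ofReal ((φ k.1.1 - φ k.1.2) ^ 2) *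
            ENNReal.ofReal (Γ / |K| * partW ν k.1.1 k.1.2 (sgn k.2) (window x y d I)) :=
          mul_le_mul_right (Finset.sum_le_sum fun k hk => mul_le_mul_right (hsweep k hk).2 _) _
      _ = _ := by
          simp only [← ENNReal.ofReal_mul (sq_nonneg _)]
          have hnn : ∀ k ∈ keys, 0 ≤ (φ k.1.1 - φ k.1.2) ^ 2 *
              (Γ / |K| * partW ν k.1.1 k.1.2 (sgn k.2) (window x y d I)) := fun k _ =>
            mul_nonneg (sq_nonneg _) (mul_nonneg (div_nonneg hΓ.le (abs_nonneg _))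
              ENNReal.toReal_nonneg)
          rw [← ENNReal.ofReal_sum_of_nonneg hnn,
            ← ENNReal.ofReal_mul (mul_nonneg hΓ.le hS)]
          congr 2
          simp only [E, keys, Finset.sum_product, Finset.sum_filter, Fintype.sum_bool, sgn,
            cond_true, cond_false, Finset.mul_sum]
          refine Finset.sum_congr rfl fun i _ => Finset.sum_congr rfl fun j _ => ?_
          split_ifs <;> ring
  have hfin : volume I ≠ ⊤ := hIb.measure_lt_top.ne
  have h := ENNReal.toReal_mono ENNReal.ofReal_ne_top hmain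
  rw [ENNReal.toReal_mul, ENNReal.toReal_ofReal (sq_nonneg _), ENNReal.toReal_ofReal
    (mul_nonneg (mul_nonneg hΓ.le hS) (mul_nonneg (div_nonneg hΓ.le (abs_nonneg _)) hE0))] at h
  have hK' : 0 < |K| := abs_pos.2 hK
  calc D ^ 2 * (volume I).toReal * |K| ≤ Γ * S * (Γ / |K| * E) * |K| :=
        mul_le_mul_of_nonneg_right h hK'.le
    _ = Γ ^ 2 * S * E := by field_simp

end

end Vale.Agent.P227.Lp
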