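import Vale.Agent.P227.Lp.Defs2

/-!
# P227: statements of the semicontinuity modules
-/

namespace Vale.Agent.P227.Lp

open MeasureTheory Set Filter Topology Matrix Function

noncomputable section

/-- The open cone where the signed pair `(j, σ j')` beats every other facet. -/
def pairCone {M : ℕ} (u : Fin M → V3) (j j' : Fin M) (σ : ℝ) : Set V3 :=
  {z | 0 < u j ⬝ᵥ z ∧ 0 < σ * (u j' ⬝ᵥ z) ∧
    ∀ l, l ≠ j → l ≠ j' → |u l ⬝ᵥ z| < u j ⬝ᵥ z ∧ |u l ⬝ᵥ z| < σ * (u j' ⬝ᵥ z)}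

/-- Test lines on both sides of an edge: they stay in the interior of the body, over the two
facets, inside the cone of the edge, and see all but `ε` of the edge. -/
def EdgeStatement : Prop :=
  ∀ (M : ℕ) (u : Fin M → V3), Fam u → Full u 1 → ∀ (j j' : Fin M) (σ : ℝ), j ≠ j' →
    (σ = 1 ∨ σ = -1) → 0 < edgeW u 1 j j' σ → ∀ ε : ℝ, 0 < ε → ε < 1 →
    ∃ (x y : V3) (t₀ t₁ ρ Γ S : ℝ), t₀ < t₁ ∧ 0 < ρ ∧ 0 < Γ ∧ 0 < S ∧
      ∀ x' ∈ Metric.closedBall x ρ, ∀ y' ∈ Metric.closedBall y ρ,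
        σ * (u j' ⬝ᵥ (y' - x')) - u j ⬝ᵥ (y' - x') < S ∧
        (1 - ε) * edgeW u 1 j j' σ * (Γ ^ 2 * S) ≤
          (t₁ - t₀) * |crossProduct (u j) (u j') ⬝ᵥ crossProduct (y' - x') x'| ∧
        ∀ t ∈ Icc t₀ t₁,
          let P := x' + t • crossProduct (u j) (u j')
          let Q := y' + t • crossProduct (u j) (u j')
          (∀ l, l ≠ j → |u l ⬝ᵥ P| < u j ⬝ᵥ P) ∧ u j ⬝ᵥ P < Γ ∧ u j ⬝ᵥ P < 1 ∧
          (∀ l, l ≠ j' → |u l ⬝ᵥ Q| < σ * (u j' ⬝ᵥ Q)) ∧ σ * (u j' ⬝ᵥ Q) < Γ ∧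
          σ * (u j' ⬝ᵥ Q) < 1 ∧
          P ∈ pairCone u j j' σ ∧ Q ∈ pairCone u j j' σ

/-- The energy does not drop in the limit. -/
def LiminfStatement : Prop :=
  ∀ (N M : ℕ) (ν : ℕ → Fin N → V3) (φ : ℕ → Fin N → ℝ) (νl : Fin N → V3) (φl μ : Fin N → ℝ)
    (e : Fin M → Fin N) (cls : Fin N → Option (Fin M)) (a : Fin M → ℝ) (s : ℝ),
    (∀ k, Fam (ν k) ∧ Full (ν k) 1 ∧ Round (ν k)) →
    Tendsto ν atTop (𝓝 νl) → Tendsto φ atTop (𝓝 φl) →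
    (∀ i, Tendsto (fun k => mass (ν k) i) atTop (𝓝 (μ i))) →
    Fam (νl ∘ e) → Full (νl ∘ e) 1 → body νl 1 = body (νl ∘ e) 1 →
    Tendsto (fun k => vol (ν k) 1) atTop (𝓝 (vol (νl ∘ e) 1)) →
    (∀ j, cls (e j) = some j) →
    (∀ i j, cls i = some j ↔ νl i = νl (e j) ∨ νl i = -νl (e j)) →
    (∀ i, cls i = none → μ i = 0) →
    (∀ i j, cls i = some j → 0 < μ i → φl i = a j) →
    Tendsto (fun k => energy (ν k) (φ k)) atTop (𝓝 s) → energy (νl ∘ e) a ≤ s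

end

end Vale.Agent.P227.Lp
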