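import Vale.Agent.P227.Lp.Merge
import Vale.Agent.P227.Log3.NoWorst
import Vale.Agent.P227.Lp.Defs3

/-!
# P227: the worst configuration exists, hence the local theorem
-/

namespace Vale.Agent.P227.Lp

open MeasureTheory Set Filter Topology Matrix Function

noncomputable section

theorem norm_le_one_of_round {N : ℕ} {ν : Fin N → V3} (hR : Round ν) :
    ν ∈ Metric.closedBall 0 1 := by
  rw [mem_closedBall_zero_iff, pi_norm_le_iff_of_nonneg zero_le_one]
  intro i
  rw [pi_norm_le_iff_of_nonneg zero_le_one]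
  intro k
  have := hR.1 (Pi.single k 1) (by simp [Pi.norm_single]) i
  simpa [Real.norm_eq_abs] using this

/-- The local theorem from the modules. -/
theorem local_of (hcalc : CalcStatement) (hchain : ChainStatement)
    (hpart : PartStatement) (hcell : CellStatement) (hsup : SupStatement) (hround : RoundStatement)
    (hlimit : LimitStatement) (hliminf : LiminfStatement) : LocalStatement := by
  classical
  intro N ν₀ hν₀ hF₀
  by_contra hbad
  set S : Set ℝ := {c | c ∈ Icc (0 : ℝ) (1 / 2) ∧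
    ∀ M ≤ N, ∀ ν : Fin M → V3, Fam ν → Full ν 1 → Bound c ν}
  have h0 : (0 : ℝ) ∈ S := ⟨⟨le_rfl, by norm_num⟩, fun M _ ν h h' => bound_zero hcalc h h'⟩
  have hbdd : BddAbove S := ⟨1 / 2, fun c hc => hc.1.2⟩
  set s := sSup S
  have hs0 : 0 ≤ s := le_csSup hbdd h0
  have hs2 : s ≤ 1 / 2 := csSup_le ⟨0, h0⟩ fun c hc => hc.1.2
  have hsS : ∀ M ≤ N, ∀ ν : Fin M → V3, Fam ν → Full ν 1 → Bound s ν := by
    intro M hM ν hν hF f
    obtain ⟨u, -, hu, huS⟩ := exists_seq_tendsto_sSup ⟨0, h0⟩ hbdd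
    refine le_of_tendsto_of_tendsto' ((hu.mul_const _).const_add _)
      ((hu.const_add 1).mul_const _) fun n => ?_
    exact (huS n).2 M hM ν hν hF f
  have hslt : s < 1 / 2 := hs2.lt_of_ne fun h => hbad (h ▸ hsS N le_rfl ν₀ hν₀ hF₀)
  -- bad configurations just above `s`
  set c : ℕ → ℝ := fun k => min (s + ((k : ℝ) + 1)⁻¹) (1 / 2)
  have hcs : ∀ k, s < c k := fun k => lt_min (lt_add_of_pos_right _ (by positivity)) hslt
  have hex : ∀ k, ∃ M, M ≤ N ∧ ∃ (ν : Fin M → V3) (φ : Fin M → ℝ) (t : ℝ),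
      Fam ν ∧ Full ν 1 ∧ Round ν ∧ Worst ν φ t ∧ s ≤ t ∧ t ≤ c k := by
    intro k
    have hk : c k ∉ S := fun h => (le_csSup hbdd h).not_gt (hcs k)
    simp only [S, Set.mem_setOf_eq, not_and, not_forall] at hk
    obtain ⟨M, hM, ν, hν, hF, hnb⟩ := hk ⟨hs0.trans (hcs k).le, min_le_right _ _⟩
    obtain ⟨φ, t, hW, -, ht⟩ := exists_worst hcalc hν hF hnb
    have hst : s ≤ t := by
      have := hsS M hM ν hν hF φ
      rw [hW.1, hW.2.1, hW.2.2.1 φ, ← show (fun i => φ i ^ 2) = φ * φ from funext fun i => sq _,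
        hW.2.1] at this
      linarith
    obtain ⟨A, hR, hνA, hmass, hFA, hform⟩ := hround M ν hν
    have hmean : ∀ f, mean (transform A.toLinearMap ν) f = mean ν f := fun f => by
      simp [mean, hmass]
    refine ⟨M, hM, transform A.toLinearMap ν, φ, t, hνA, hFA.2 hF, hR, ?_, hst, ht.le⟩
    simpa only [Worst, hmean, hform] using hW
  choose Mk hMk hdata using hex
  obtain ⟨M, hM⟩ : ∃ M, ∃ᶠ k in atTop, Mk k = M := by
    by_contra! hno
    have := (Finset.range (N + 1)).eventually_all (l := atTop) (p := fun M k => Mk k ≠ M) |>.2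
      fun M _ => hno M
    obtain ⟨k, hk⟩ := this.exists
    exact hk (Mk k) (Finset.mem_range.2 (Nat.lt_succ_of_le (hMk k))) rfl
  have hex' : ∃ᶠ k in atTop, ∃ (ν : Fin M → V3) (φ : Fin M → ℝ) (t : ℝ),
      Fam ν ∧ Full ν 1 ∧ Round ν ∧ Worst ν φ t ∧ s ≤ t ∧ t ≤ c k :=
    hM.mono fun k hk => hk ▸ hdata k
  have hMN : M ≤ N := by
    obtain ⟨k, hk⟩ := hM.exists
    exact hk ▸ hMk k
  obtain ⟨ψ, hψ, hψd⟩ := extraction_of_frequently_atTop hex'
  choose ν φ t hνk hFk hRk hW hst htc using hψd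
  obtain ⟨C, hC⟩ := hsup M
  have hbound : ∀ k, φ k ∈ Metric.closedBall 0 |C| := fun k => by
    rw [mem_closedBall_zero_iff, pi_norm_le_iff_of_nonneg (abs_nonneg C)]
    intro i
    rw [Real.norm_eq_abs]
    exact (hC (ν k) (hνk k) (hFk k) (hRk k) (φ k) (t k) (hW k) (by linarith [hst k])
      (by linarith [htc k, min_le_right (s + (((ψ k : ℕ) : ℝ) + 1)⁻¹) (1 / 2)]) i).trans (le_abs_self C)
  have hmassk : ∀ k, mass (ν k) ∈ Icc (0 : Fin M → ℝ) 1 := fun k => by
    obtain ⟨h1, -⟩ := hcalc M _ (hνk k)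
    have hV := h1.vol_pos 1 (hFk k).1
    refine ⟨fun i => mass_nonneg hV (hFk k) i, fun i => ?_⟩
    calc mass (ν k) i ≤ ∑ j, mass (ν k) j :=
          Finset.single_le_sum (fun j _ => mass_nonneg hV (hFk k) j) (Finset.mem_univ i)
      _ = 1 := by simpa [mean] using mean_one h1 (hFk k)
  obtain ⟨⟨νl, φl, μ⟩, -, χ, hχ, hlim⟩ := ((isCompact_closedBall (0 : Fin M → V3) 1).prod
    ((isCompact_closedBall (0 : Fin M → ℝ) |C|).prod (isCompact_Icc (a := (0 : Fin M → ℝ))
      (b := 1)))).tendsto_subseq (x := fun k => (ν k, φ k, mass (ν k)))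
      fun k => ⟨norm_le_one_of_round (hRk k), hbound k, hmassk k⟩
  have hνl : Tendsto (fun k => ν (χ k)) atTop (𝓝 νl) :=
    (continuous_fst.tendsto _).comp hlim
  have hφl : Tendsto (fun k => φ (χ k)) atTop (𝓝 φl) :=
    ((continuous_fst.comp continuous_snd).tendsto _).comp hlim
  have hμl : ∀ i, Tendsto (fun k => mass (ν (χ k)) i) atTop (𝓝 (μ i)) :=
    tendsto_pi_nhds.1 (((continuous_snd.comp continuous_snd).tendsto _).comp hlim)
  have htl : Tendsto (fun k => t (χ k)) atTop (𝓝 s) := by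
    have hb : Tendsto (fun k : ℕ => s + ((k : ℝ) + 1)⁻¹) atTop (𝓝 s) := by
      simpa [one_div] using (tendsto_one_div_add_atTop_nhds_zero_nat (𝕜 := ℝ)).const_add s
    refine tendsto_of_tendsto_of_tendsto_of_le_of_le tendsto_const_nhds
      (hb.comp (hψ.tendsto_atTop.comp hχ.tendsto_atTop)) (fun k => hst _) fun k => ?_
    exact (htc _).trans (min_le_left _ _)
  -- the limit configuration
  obtain ⟨M', e, cls, hM', -, hνe, hFe, -, hbody, hvol, hcls, hcls', hnone, hclass⟩ :=
    hlimit M (fun k => ν (χ k)) νl μ (fun k => ⟨hνk _, hFk _, hRk _⟩) hνl hμl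
  obtain ⟨h1, h2⟩ := hcalc M' _ hνe
  have hV := h1.vol_pos 1 hFe.1
  have hμ0 : ∀ i, 0 ≤ μ i := fun i => ge_of_tendsto' (hμl i) fun k => (hmassk _).1 i
  have hsel : ∀ j, ∃ i, cls i = some j ∧ 0 < μ i := fun j => by
    by_contra! hno
    have : mass (νl ∘ e) j ≤ 0 := by
      rw [← hclass j]
      exact Finset.sum_nonpos fun i hi => hno i (Finset.mem_filter.1 hi).2
    exact absurd this (not_le.2 (div_pos (hFe.2 j) (by positivity)))
  choose r hr hrμ using hsel
  set a : Fin M' → ℝ := fun j => φl (r j)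
  have hmerge : ∀ i j, cls i = some j → 0 < μ i → φl i = a j := by
    intro i j hij hi
    refine merge_eq hcalc hchain hpart hcell (fun k => ⟨hνk (χ k), hFk (χ k), hRk (χ k)⟩)
      (fun k => ?_) hνl hφl hμl hvol hV hi (hrμ j) ?_
    · have := (hW (χ k)).2.2.1 (φ (χ k))
      rw [← show (fun i => φ (χ k) i ^ 2) = φ (χ k) * φ (χ k) from funext fun i => sq _,
        (hW (χ k)).2.1] at this
      rw [energy, (hW (χ k)).2.1, this]
      linarith [htc (χ k), min_le_right (s + (((ψ (χ k) : ℕ) : ℝ) + 1)⁻¹) (1 / 2)]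
    · rcases (hcls' i j).1 hij with h | h <;> rcases (hcls' (r j) j).1 (hr j) with h' | h'
      · exact Or.inl (h.trans h'.symm)
      · exact Or.inr (by rw [h, h', neg_neg])
      · exact Or.inr (by rw [h, h'])
      · exact Or.inl (h.trans h'.symm)
  have hmeanlim : ∀ g : ℝ → ℝ, Continuous g →
      Tendsto (fun k => mean (ν (χ k)) fun i => g (φ (χ k) i)) atTop
        (𝓝 (mean (νl ∘ e) fun j => g (a j))) := by
    intro g hg
    have heq : ∑ i, μ i * g (φl i) = mean (νl ∘ e) fun j => g (a j) := by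
      have hsplit : ∀ i, μ i * g (φl i)
          = ∑ j, if cls i = some j then μ i * g (a j) else 0 := fun i => by
        rcases h : cls i with _ | j
        · simp [hnone i h]
        · simp only [Option.some.injEq, Finset.sum_ite_eq, Finset.mem_univ, if_true]
          rcases (hμ0 i).eq_or_lt with h0 | h0
          · simp [← h0]
          · rw [hmerge i j h h0]
      rw [Finset.sum_congr rfl fun i _ => hsplit i, Finset.sum_comm]
      refine Finset.sum_congr rfl fun j _ => ?_
      rw [← Finset.sum_filter, ← hclass j, Finset.sum_mul]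
    rw [← heq]
    exact tendsto_finsetSum _ fun i _ => (hμl i).mul ((hg.tendsto _).comp (tendsto_pi_nhds.1 hφl i))
  have hm0 : mean (νl ∘ e) a = 0 := tendsto_nhds_unique (hmeanlim id continuous_id)
    (tendsto_const_nhds.congr fun k => (hW (χ k)).1.symm)
  have hm2 : mean (νl ∘ e) (fun j => a j ^ 2) = 1 :=
    tendsto_nhds_unique (hmeanlim (fun x => x ^ 2) (continuous_pow 2))
      (tendsto_const_nhds.congr fun k => (hW (χ k)).2.1.symm)
  have hen : energy (νl ∘ e) a ≤ 1 + s := by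
    refine hliminf M M' (fun k => ν (χ k)) (fun k => φ (χ k)) νl φl μ e cls a (1 + s)
      (fun k => ⟨hνk _, hFk _, hRk _⟩) hνl hφl hμl hνe hFe hbody hvol hcls hcls' hnone hmerge ?_
    refine (htl.const_add 1).congr fun k => ?_
    have := (hW (χ k)).2.2.1 (φ (χ k))
    rw [← show (fun i => φ (χ k) i ^ 2) = φ (χ k) * φ (χ k) from funext fun i => sq _,
      (hW (χ k)).2.1] at this
    rw [energy, (hW (χ k)).2.1, this]
    ring
  have hb := hsS M' (hM'.trans hMN) _ hνe hFe
  have hform : form (νl ∘ e) a a = -s := by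
    refine le_antisymm ?_ ?_
    · have := hb a
      rw [hm0, hm2] at this
      linarith
    · rw [energy, hm2] at hen
      linarith
  have hworst := worst_of_eq h1 h2 hFe hb hm0 hm2 hform
  exact Log3.no_worst hcalc hs0 hslt (fun ν' => hsS M' (hM'.trans hMN) ν') hνe hFe hworst

end

end Vale.Agent.P227.Lp
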