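import Vale.Agent.P227.Lp.Energy

/-!
# P227: halves of cells and the null cone of a triple product
-/

namespace Vale.Agent.P227.Lp

open MeasureTheory Set Filter Topology Matrix Function

noncomputable section

variable {N : ℕ}

/-- The half of a cell where `τ ν i ⬝ x` is positive. -/
def half (ν : Fin N → V3) (i : Fin N) (τ : ℝ) : Set V3 :=
  {x | x ∈ cell ν i ∧ 0 < τ * (ν i ⬝ᵥ x)}

theorem isClosed_cell (ν : Fin N → V3) (i : Fin N) : IsClosed (cell ν i) := by
  simp only [cell, body, setOf_and, setOf_forall, Set.mem_setOf_eq]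
  refine (isClosed_iInter fun k => isClosed_le (by fun_prop) continuous_const).inter
    (isClosed_iInter fun k => isClosed_le (by fun_prop) (by fun_prop))

theorem measurableSet_half (ν : Fin N → V3) (i : Fin N) (τ : ℝ) : MeasurableSet (half ν i τ) :=
  (isClosed_cell ν i).measurableSet.inter
    (isOpen_lt continuous_const (by fun_prop : Continuous fun x : V3 => τ * (ν i ⬝ᵥ x))).measurableSet

theorem isTop_of_half {ν : Fin N → V3} {i : Fin N} {τ : ℝ} (hτ : τ = 1 ∨ τ = -1) {x : V3}
    (hx : x ∈ half ν i τ) : IsTop ν i τ x ∧ τ * (ν i ⬝ᵥ x) ≤ 1 := by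
  have h : |ν i ⬝ᵥ x| = τ * (ν i ⬝ᵥ x) := by
    rcases hτ with rfl | rfl
    · have := hx.2
      rw [one_mul] at this ⊢
      exact abs_of_pos this
    · have := hx.2
      rw [neg_one_mul] at this ⊢
      exact abs_of_neg (by linarith)
  exact ⟨⟨hτ, fun j => (hx.1.2 j).trans h.le⟩, h ▸ (hx.1.1 i).trans_eq rfl⟩

theorem volume_plane {u : V3} (hu : u ≠ 0) : volume {x : V3 | u ⬝ᵥ x = 0} = 0 := by
  set ψ : V3 →ₗ[ℝ] ℝ :=
    { toFun := fun x => u ⬝ᵥ x
      map_add' := fun x y => dotProduct_add u x y
      map_smul' := fun c x => dotProduct_smul c u x }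
  exact Measure.addHaar_submodule volume (LinearMap.ker ψ) fun htop => hu
    (dotProduct_self_eq_zero.1 (LinearMap.congr_fun (LinearMap.ker_eq_top.1 htop) u))

/-- Each half has half the volume of the cell. -/
theorem volume_half {ν : Fin N → V3} (hν : Fam ν) (i : Fin N) {τ : ℝ} (hτ : τ = 1 ∨ τ = -1) :
    2 * volume (half ν i τ) = volume (cell ν i) := by
  have hτ0 : τ ≠ 0 := by rcases hτ with rfl | rfl <;> norm_num
  have hneg : volume (half ν i (-τ)) = volume (half ν i τ) := by
    have : half ν i (-τ) = -half ν i τ := by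
      ext x
      simp only [half, cell, body, Set.mem_neg, Set.mem_setOf_eq, dotProduct_neg, abs_neg]
      simp
    rw [this, Measure.measure_neg]
  have hsplit : cell ν i = half ν i τ ∪ half ν i (-τ) ∪ (cell ν i ∩ {x | ν i ⬝ᵥ x = 0}) := by
    ext x
    simp only [half, Set.mem_union, Set.mem_setOf_eq, Set.mem_inter_iff, neg_mul, Left.neg_pos_iff]
    constructor
    · intro hx
      rcases lt_trichotomy (τ * (ν i ⬝ᵥ x)) 0 with h | h | h
      · exact Or.inl (Or.inr ⟨hx, h⟩)
      · exact Or.inr ⟨hx, (mul_eq_zero.1 h).resolve_left hτ0⟩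
      · exact Or.inl (Or.inl ⟨hx, h⟩)
    · rintro ((h | h) | h) <;> exact h.1
  have hdisj : Disjoint (half ν i τ) (half ν i (-τ)) := Set.disjoint_left.2 fun x h1 h2 => by
    have := h1.2
    have := h2.2
    linarith
  refine le_antisymm ?_ ?_
  · rw [two_mul]
    nth_rewrite 2 [← hneg]
    rw [← measure_union hdisj (measurableSet_half ν i _)]
    exact measure_mono (union_subset (fun x hx => hx.1) fun x hx => hx.1)
  · calc volume (cell ν i) = volume (half ν i τ ∪ half ν i (-τ) ∪ (cell ν i ∩ {x | ν i ⬝ᵥ x = 0})) :=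
        by rw [← hsplit]
      _ ≤ volume (half ν i τ ∪ half ν i (-τ)) + volume (cell ν i ∩ {x | ν i ⬝ᵥ x = 0}) :=
        measure_union_le _ _
      _ ≤ (volume (half ν i τ) + volume (half ν i (-τ))) + 0 := add_le_add (measure_union_le _ _)
          ((measure_mono inter_subset_right).trans (volume_plane (hν.ne_zero i)).le)
      _ = 2 * volume (half ν i τ) := by rw [hneg, add_zero, two_mul]

/-- The triple product with a fixed nonzero vector vanishes on a null set of pairs. -/
theorem volume_triple {d : V3} (hd : d ≠ 0) :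
    volume {p : V3 × V3 | d ⬝ᵥ crossProduct p.2 p.1 = 0} = 0 := by
  rw [Measure.volume_eq_prod]
  have hm : MeasurableSet {p : V3 × V3 | d ⬝ᵥ crossProduct p.2 p.1 = 0} := by
    refine (isClosed_eq ?_ continuous_const).measurableSet
    simp only [cross_apply, dotProduct, Fin.sum_univ_three, Matrix.cons_val_zero,
      Matrix.cons_val_one, Matrix.cons_val_two, Matrix.tail_cons, Matrix.head_cons]
    fun_prop
  rw [Measure.measure_prod_null hm]
  have hne : ∀ᵐ x : V3, crossProduct x d ≠ 0 := by
    rw [ae_iff]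
    push_neg
    obtain ⟨u, hu, hud⟩ : ∃ u : V3, u ≠ 0 ∧ u ⬝ᵥ d = 0 := by
      by_cases h : d 0 = 0 ∧ d 1 = 0
      · exact ⟨![1, 0, 0], fun h' => by simpa using congrFun h' 0,
          by simp [dotProduct, Fin.sum_univ_three, h.1]⟩
      · refine ⟨![d 1, -d 0, 0], fun h' => h ⟨by simpa using congrFun h' 1,
          by simpa using congrFun h' 0⟩, ?_⟩
        simp [dotProduct, Fin.sum_univ_three]
        ring
    refine measure_mono_null (fun x (hx : crossProduct x d = 0) => ?_) (volume_plane hu)
    show u ⬝ᵥ x = 0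
    obtain ⟨k, hk⟩ : ∃ k, d k ≠ 0 := by by_contra! h; exact hd (funext h)
    have h0 := congrFun hx 0
    have h1 := congrFun hx 1
    have h2 := congrFun hx 2
    simp [cross_apply] at h0 h1 h2
    have key : (u ⬝ᵥ x) * d k = (u ⬝ᵥ d) * x k := by
      simp only [dotProduct, Fin.sum_univ_three]
      fin_cases k <;> (simp; grind)
    rw [hud, zero_mul] at key
    exact (mul_eq_zero.1 key).resolve_right hk
  filter_upwards [hne] with x hx
  refine measure_mono_null (fun y (hy : d ⬝ᵥ crossProduct y x = 0) => ?_) (volume_plane hx)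
  show crossProduct x d ⬝ᵥ y = 0
  rw [← hy, dotProduct_comm, triple_product_permutation, triple_product_permutation]

theorem cell_subset_ball {ν : Fin N → V3} (hR : Round ν) (i : Fin N) :
    cell ν i ⊆ Metric.closedBall 0 3 := fun x hx => by
  rw [mem_closedBall_zero_iff]
  exact hR.2 x hx.1

theorem vol_le_of_round {ν : Fin N → V3} (hR : Round ν) : vol ν 1 ≤ 216 := by
  have hsub : body ν 1 ⊆ Icc (fun _ => (-3 : ℝ)) fun _ => 3 := fun x hx => by
    have := hR.2 x hx
    constructor <;> intro k <;> have := (norm_le_pi_norm x k).trans this <;>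
      rw [Real.norm_eq_abs, abs_le] at this
    · exact this.1
    · exact this.2
  refine (ENNReal.toReal_mono ?_ (measure_mono hsub)).trans ?_
  · exact isCompact_Icc.measure_lt_top.ne
  · rw [Real.volume_Icc_pi_toReal (fun k => by norm_num)]
    norm_num [Fin.prod_univ_three]

end

end Vale.Agent.P227.Lp
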