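import Vale.Agent.P227.Lp.Defs2
import Vale.Agent.P227.Lp.Calculus

/-!
# P227: cone volumes and limits of configurations

The masses are the volumes of the cells of the body. These converge after the directions are
grouped along the facets of the limit body, which gives the limit of a sequence of configurations.
-/

namespace Vale.Agent.P227.Lp

open MeasureTheory Set Filter Topology Matrix Function Calc
open scoped Pointwise

noncomputable section

namespace Limit

variable {N : ℕ} {ν : Fin N → V3}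

theorem isCompact_cell (h1 : Calc1 ν) (i : Fin N) : IsCompact (cell ν i) := by
  have e : cell ν i = body ν 1 ∩ ⋂ j, {x : V3 | |ν j ⬝ᵥ x| ≤ |ν i ⬝ᵥ x|} := by
    ext x
    simp [cell]
  rw [e]
  exact (h1.compact 1).inter_right (isClosed_iInter fun j =>
    isClosed_le (dotL (ν j)).continuous.abs (dotL (ν i)).continuous.abs)

theorem vol_cell (h1 : Calc1 ν) (i : Fin N) :
    (volume (cell ν i)).toReal = mass ν i * vol ν 1 := by
  have hone : ∀ j, 0 < (1 : Fin N → ℝ) j := fun _ => one_pos
  set C := cell ν i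
  have hC : IsCompact C := isCompact_cell h1 i
  have hsub : C ⊆ body ν 1 := fun x hx => hx.1
  have hB : (volume (body ν 1 \ C)).toReal = vol ν 1 - (volume C).toReal := by
    rw [measure_diff hsub hC.measurableSet.nullMeasurableSet hC.measure_lt_top.ne,
      ENNReal.toReal_sub_of_le (measure_mono hsub) (h1.compact 1).measure_lt_top.ne, vol]
  have hle : ∀ s : ℝ, 0 < s → vol ν (update 1 i s)
      ≤ vol ν 1 - (volume C).toReal + s ^ 3 * (volume C).toReal := by
    intro s hs
    have hcover : body ν (update 1 i s) ⊆ (body ν 1 \ C) ∪ s • C := by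
      intro x hx
      by_cases hf : ∀ j, |ν j ⬝ᵥ x| ≤ |ν i ⬝ᵥ x|
      · refine Or.inr ((mem_smul_set_iff_inv_smul_mem₀ hs.ne' C x).2 ?_)
        have hxi : |ν i ⬝ᵥ x| ≤ s := by simpa using hx i
        refine ⟨fun j => ?_, fun j => ?_⟩
        · rw [dotProduct_smul, smul_eq_mul, abs_mul, abs_inv, abs_of_pos hs, Pi.one_apply,
            inv_mul_le_iff₀ hs, mul_one]
          exact (hf j).trans hxi
        · rw [dotProduct_smul, dotProduct_smul, smul_eq_mul, smul_eq_mul, abs_mul, abs_mul]
          exact mul_le_mul_of_nonneg_left (hf j) (abs_nonneg _)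
      · push Not at hf
        obtain ⟨j, hj⟩ := hf
        have hji : j ≠ i := by
          rintro rfl
          exact lt_irrefl _ hj
        have hxj : |ν j ⬝ᵥ x| ≤ 1 := by simpa [hji] using hx j
        refine Or.inl ⟨fun k => ?_, fun hc => (hc.2 j).not_gt hj⟩
        rcases eq_or_ne k i with rfl | hk
        · exact hj.le.trans hxj
        · simpa [hk] using hx k
    have hfin : ∀ S ⊆ body ν 1, volume S ≠ ⊤ := fun S hS =>
      ((measure_mono hS).trans_lt (h1.compact 1).measure_lt_top).ne
    have hs3 : (volume (s • C)).toReal = s ^ 3 * (volume C).toReal := by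
      rw [Measure.addHaar_smul_of_nonneg volume hs.le, ENNReal.toReal_mul,
        ENNReal.toReal_ofReal (by positivity), Module.finrank_fintype_fun_eq_card, Fintype.card_fin]
    rw [vol, ← hB, ← hs3, ← ENNReal.toReal_add (hfin _ sdiff_subset)
      ((hC.smul s).measure_lt_top.ne)]
    exact ENNReal.toReal_mono (ENNReal.add_ne_top.2 ⟨hfin _ sdiff_subset, (hC.smul s).measure_lt_top.ne⟩)
      ((measure_mono hcover).trans (measure_union_le _ _))
  have hd : HasDerivAt
      (fun s => vol ν 1 - (volume C).toReal + s ^ 3 * (volume C).toReal - vol ν (update 1 i s))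
      (3 * (volume C).toReal - grad ν 1 i) 1 := by
    have h2 := (h1.hasFDeriv 1 hone).comp_hasDerivAt_of_eq (1 : ℝ)
      (hasDerivAt_update (1 : Fin N → ℝ) i (1 : ℝ)) (update_eq_self i (1 : Fin N → ℝ)).symm
    rw [apply_single] at h2
    exact ((((hasDerivAt_pow 3 (1 : ℝ)).mul_const (volume C).toReal).const_add _).sub h2).congr_deriv
      (by simp)
  have hmin : IsLocalMin
      (fun s => vol ν 1 - (volume C).toReal + s ^ 3 * (volume C).toReal - vol ν (update 1 i s))
      1 := by
    filter_upwards [Ioi_mem_nhds one_pos] with s hs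
    have e1 : update (1 : Fin N → ℝ) i 1 = 1 := update_eq_self i (1 : Fin N → ℝ)
    rw [e1, one_pow, one_mul, sub_add_cancel, sub_self]
    linarith [hle s hs]
  have key := hmin.hasDerivAt_eq_zero hd
  have hv := h1.vol_pos 1 hone
  rw [mass]
  field_simp
  linarith

theorem sum_mass (h1 : Calc1 ν) : ∑ i, mass ν i = 1 := by
  have e := h1.euler 1 fun _ => one_pos
  simp only [Pi.one_apply, one_mul] at e
  simp only [mass, ← Finset.sum_div, e]
  exact div_self (mul_pos three_pos (h1.vol_pos 1 fun _ => one_pos)).ne'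

theorem mass_nonneg (h1 : Calc1 ν) (i : Fin N) : 0 ≤ mass ν i :=
  div_nonneg (h1.grad_nonneg 1 (fun _ => one_pos) i)
    (mul_nonneg three_pos.le ENNReal.toReal_nonneg)

/-- Parallel nonzero vectors are proportional. -/
theorem exists_ratio {a b : V3} (hb : b ≠ 0) (h : crossProduct a b = 0) : ∃ c : ℝ, a = c • b := by
  refine ⟨(a ⬝ᵥ b) / (b ⬝ᵥ b), ?_⟩
  have hbb : b ⬝ᵥ b ≠ 0 := fun h0 => hb (dotProduct_self_eq_zero.1 h0)
  have e := cross_cross_eq_smul_sub_smul' b a b
  rw [h, map_zero] at e
  rw [div_eq_inv_mul, ← smul_smul, ← (sub_eq_zero.1 e.symm), smul_smul,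
    inv_mul_cancel₀ hbb, one_smul]

/-- A plane is null. -/
theorem null_dot {v : V3} (hv : v ≠ 0) (c : ℝ) : volume {x : V3 | v ⬝ᵥ x = c} = 0 := by
  let μ : Fin 3 → V3 := fun i => Pi.single i 1
  have hvv : v ⬝ᵥ v ≠ 0 := fun h0 => hv (dotProduct_self_eq_zero.1 h0)
  let S : Submodule ℝ V3 := LinearMap.ker (dotL v).toLinearMap
  have hS : S ≠ ⊤ := fun hS => hvv (by
    have : v ∈ S := hS ▸ Submodule.mem_top
    simpa [S] using this)
  have e : {x : V3 | v ⬝ᵥ x = c}
      = (fun x : V3 => x + -((c / (v ⬝ᵥ v)) • v)) ⁻¹' (S : Set V3) := by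
    ext x
    simp [S, dotProduct_add, dotProduct_neg, dotProduct_smul, hvv, ← sub_eq_add_neg, sub_eq_zero]
  rw [e, measure_preimage_add_right]
  exact Measure.addHaar_submodule volume S hS

theorem null_abs {v : V3} (hv : v ≠ 0) (c : ℝ) : ∀ᵐ x : V3, |v ⬝ᵥ x| ≠ c := by
  refine ae_iff.2 (measure_mono_null (t := {x : V3 | v ⬝ᵥ x = c} ∪ {x : V3 | v ⬝ᵥ x = -c})
    (fun x hx => ?_) (measure_union_null (null_dot hv c) (null_dot hv (-c))))
  simp only [mem_ofPred_eq, not_not] at hx
  subst hx
  rcases abs_choice (v ⬝ᵥ x) with e | e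
  · exact Or.inl e.symm
  · exact Or.inr (by simp only [mem_ofPred_eq]; linarith)

theorem null_eq {a b : V3} (h1 : a ≠ b) (h2 : a ≠ -b) : ∀ᵐ x : V3, |a ⬝ᵥ x| ≠ |b ⬝ᵥ x| := by
  refine ae_iff.2 (measure_mono_null
    (t := {x : V3 | (a - b) ⬝ᵥ x = 0} ∪ {x : V3 | (a + b) ⬝ᵥ x = 0}) (fun x hx => ?_)
    (measure_union_null (null_dot (sub_ne_zero.2 h1) 0)
      (null_dot (fun h => h2 (eq_neg_of_add_eq_zero_left h)) 0)))
  simp only [mem_ofPred_eq, not_not, abs_eq_abs] at hx
  simp only [mem_union, mem_ofPred_eq, sub_dotProduct, add_dotProduct]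
  rcases hx with hx | hx
  · left; linarith
  · right; linarith

/-- The facets of a bounded body, one direction for each. -/
theorem exists_core (νl : Fin N → V3) (hbd : ∀ x ∈ body νl 1, ‖x‖ ≤ 3) :
    ∃ (M : ℕ) (e : Fin M → Fin N), M ≤ N ∧ Injective e ∧ Fam (νl ∘ e) ∧ Full (νl ∘ e) 1 ∧
      body νl 1 = body (νl ∘ e) 1 := by
  classical
  let good : Finset (Fin N) → Prop := fun S =>
    ∀ x, (∀ i ∈ S, |νl i ⬝ᵥ x| ≤ 1) → x ∈ body νl 1
  obtain ⟨S, hS, hmin⟩ := Finset.exists_min_image
    (Finset.univ.filter good) Finset.card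
    ⟨Finset.univ, Finset.mem_filter.2 ⟨Finset.mem_univ _, fun x hx i => hx i (Finset.mem_univ i)⟩⟩
  simp only [Finset.mem_filter, Finset.mem_univ, true_and] at hS hmin
  have key : ∀ a ∈ S, (∀ x, (∀ i ∈ S, i ≠ a → |νl i ⬝ᵥ x| ≤ 1) → |νl a ⬝ᵥ x| ≤ 1) → False := by
    intro a ha hrem
    have : good (S.erase a) := fun x hx => hS x fun i hi => by
      rcases eq_or_ne i a with rfl | hia
      · exact hrem x fun k hk hki => hx k (Finset.mem_erase.2 ⟨hki, hk⟩)
      · exact hx i (Finset.mem_erase.2 ⟨hia, hi⟩)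
    exact (Finset.card_erase_lt_of_mem ha).not_ge (hmin _ this)
  refine ⟨S.card, fun j => S.orderEmbOfFin rfl j, by simpa using S.card_le_univ,
    (S.orderEmbOfFin rfl).injective, ?_⟩
  set e : Fin S.card → Fin N := fun j => S.orderEmbOfFin rfl j
  have he : Injective e := (S.orderEmbOfFin rfl).injective
  have hmem : ∀ j, e j ∈ S := S.orderEmbOfFin_mem rfl
  have hrange : ∀ i ∈ S, ∃ j, e j = i := fun i hi => by
    have : i ∈ Set.range (S.orderEmbOfFin rfl) := by
      rw [Finset.range_orderEmbOfFin]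
      exact hi
    exact this
  have hbody : body νl 1 = body (νl ∘ e) 1 := by
    refine Subset.antisymm (fun x hx j => hx (e j)) fun x hx => hS x fun i hi => ?_
    obtain ⟨j, rfl⟩ := hrange i hi
    exact hx j
  have hF : Fam (νl ∘ e) := by
    refine ⟨fun j hj => ?_, fun j k hjk hc => ?_, fun x hx => ?_⟩
    · refine key (e j) (hmem j) fun x _ => ?_
      simp only [Function.comp_apply] at hj
      simp [hj]
    · simp only [Function.comp_apply] at hc
      by_cases hk0 : νl (e k) = 0
      · refine key (e k) (hmem k) fun x _ => ?_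
        simp [hk0]
      obtain ⟨c, hce⟩ := exists_ratio hk0 hc
      rcases le_or_gt |c| 1 with hc1 | hc1
      · refine key (e j) (hmem j) fun x hx => ?_
        rw [hce, smul_dotProduct, smul_eq_mul, abs_mul]
        exact mul_le_one₀ hc1 (abs_nonneg _) (hx _ (hmem k) (he.ne hjk.symm))
      · refine key (e k) (hmem k) fun x hx => ?_
        have := hx _ (hmem j) (he.ne hjk)
        rw [hce, smul_dotProduct, smul_eq_mul, abs_mul] at this
        nlinarith [abs_nonneg (νl (e k) ⬝ᵥ x)]
    · by_contra hx0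
      have hm : ((4 : ℝ) / ‖x‖) • x ∈ body (νl ∘ e) 1 := fun j => by
        rw [dotProduct_smul, hx j, smul_zero, abs_zero]
        exact zero_le_one
      have := hbd _ (hbody ▸ hm)
      rw [norm_smul, norm_div, norm_norm, div_mul_cancel₀ _ (norm_ne_zero_iff.2 hx0)] at this
      norm_num at this
  have h1 := (calculus _ _ hF).1
  refine ⟨hF, ⟨fun _ => one_pos, fun j => ?_⟩, hbody⟩
  by_contra hj
  refine key (e j) (hmem j) fun x hx => ?_
  have hxm : x ∈ body (νl ∘ e) 1 := by
    rw [h1.drop 1 fun _ => one_pos]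
    exact fun k hk => hx _ (hmem k) (he.ne fun hkj => hj (hkj ▸ hk))
  exact hxm j

end Limit

open Limit

/-- Cone volumes. -/
theorem cell_of : CellStatement := fun N ν hν _ i => vol_cell (calculus N ν hν).1 i

/-- The limit of a sequence of configurations. -/
theorem limit_of : LimitStatement := by
  classical
  intro N ν νl μ hk hν hμ
  have hev : ∀ (i : Fin N) (x : V3), Tendsto (fun k => |ν k i ⬝ᵥ x|) atTop (𝓝 |νl i ⬝ᵥ x|) :=
    fun i x => by
      have hc : Continuous fun v : Fin N → V3 => |v i ⬝ᵥ x| :=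
        ((continuous_apply i).dotProduct continuous_const).abs
      exact (hc.tendsto νl).comp hν
  have hR : Round νl := by
    refine ⟨fun x hx i => le_of_tendsto' (hev i x) fun k => (hk k).2.2.1 x hx i, fun x hx => ?_⟩
    refine le_of_forall_lt_imp_le_of_dense fun r hr => ?_
    rcases le_or_gt r 0 with hr0 | hr0
    · linarith [norm_nonneg x]
    have hxn : 0 < ‖x‖ := hr0.trans hr
    have ht : r / ‖x‖ < 1 := (div_lt_one hxn).2 hr
    obtain ⟨k, hkx⟩ := (eventually_all.2 fun i => (hev i ((r / ‖x‖) • x)).eventually_le_const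
      (show |νl i ⬝ᵥ ((r / ‖x‖) • x)| < 1 by
        rw [dotProduct_smul, smul_eq_mul, abs_mul, abs_of_pos (div_pos hr0 hxn)]
        calc r / ‖x‖ * |νl i ⬝ᵥ x| ≤ r / ‖x‖ * 1 :=
              mul_le_mul_of_nonneg_left (hx i) (div_pos hr0 hxn).le
          _ < 1 := by rw [mul_one]; exact ht)).exists
    have := (hk k).2.2.2 _ hkx
    rwa [norm_smul, norm_div, norm_norm, div_mul_cancel₀ _ hxn.ne', Real.norm_eq_abs,
      abs_of_pos hr0] at this
  obtain ⟨M, e, hMN, he, hF, hfull, hbody⟩ := exists_core νl hR.2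
  set w := νl ∘ e with hw
  have h1 := (calculus M w hF).1
  have h1k := fun k => (calculus N (ν k) (hk k).1).1
  -- membership in the classes
  have uniq : ∀ a b, w a = w b ∨ w a = -w b → a = b := by
    intro a b h
    by_contra hab
    refine hF.indep a b hab ?_
    rcases h with h | h <;> rw [h]
    · exact cross_self _
    · rw [map_neg, LinearMap.neg_apply, cross_self, neg_zero]
  let cls : Fin N → Option (Fin M) := fun i =>
    if h : ∃ j, νl i = w j ∨ νl i = -w j then some h.choose else none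
  have hcls : ∀ i j, cls i = some j ↔ νl i = w j ∨ νl i = -w j := by
    intro i j
    constructor
    · intro h
      simp only [cls] at h
      split_ifs at h with hx
      · exact Option.some.inj h ▸ hx.choose_spec
    · intro h
      have hx : ∃ j, νl i = w j ∨ νl i = -w j := ⟨j, h⟩
      simp only [cls, dif_pos hx, Option.some.injEq]
      refine uniq _ _ ?_
      rcases hx.choose_spec with h' | h' <;> rcases h with h | h
      · exact Or.inl (h'.symm.trans h)
      · exact Or.inr (h'.symm.trans h)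
      · exact Or.inr (neg_eq_iff_eq_neg.2 (h.symm.trans h')).symm
      · exact Or.inl (neg_injective (h'.symm.trans h))
  have hdom : ∀ (x : V3) (g : ℝ), 0 ≤ g → (∀ j, |w j ⬝ᵥ x| ≤ g) → ∀ i, |νl i ⬝ᵥ x| ≤ g := by
    intro x g hg hx i
    refine le_of_forall_pos_le_add fun ε hε => ?_
    have hp : 0 < g + ε := by linarith
    have hm : (g + ε)⁻¹ • x ∈ body w 1 := fun j => by
      rw [dotProduct_smul, smul_eq_mul, abs_mul, abs_inv, abs_of_pos hp, Pi.one_apply,
        inv_mul_le_iff₀ hp]
      linarith [hx j]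
    rw [← hbody] at hm
    have := hm i
    rw [dotProduct_smul, smul_eq_mul, abs_mul, abs_inv, abs_of_pos hp, Pi.one_apply,
      inv_mul_le_iff₀ hp, mul_one] at this
    exact this
  have hgen : ∀ᵐ x : V3, (∀ j, |w j ⬝ᵥ x| ≠ 1) ∧
      ∀ i j, cls i ≠ some j → |νl i ⬝ᵥ x| ≠ |w j ⬝ᵥ x| := by
    refine (ae_all_iff.2 fun j => null_abs (hF.ne_zero j) 1).and
      (ae_all_iff.2 fun i => ae_all_iff.2 fun j => ?_)
    by_cases h : cls i = some j
    · exact Eventually.of_forall fun x hx => absurd h hx
    · have h' := fun hh => h ((hcls i j).2 hh)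
      filter_upwards [null_eq (fun hh => h' (Or.inl hh)) (fun hh => h' (Or.inr hh))] with x hx _
      exact hx
  have hball : ∀ k, body (ν k) 1 ⊆ Metric.closedBall (0 : V3) 3 := fun k x hx =>
    mem_closedBall_zero_iff.2 ((hk k).2.2.2 x hx)
  have hbt : volume (Metric.closedBall (0 : V3) 3) ≠ ⊤ :=
    (isCompact_closedBall (0 : V3) 3).measure_lt_top.ne
  -- points inside the limit body are inside eventually
  have hin : ∀ (x : V3) (g : ℝ), 0 ≤ g → g < 1 → (∀ j, |w j ⬝ᵥ x| ≤ g) →
      ∀ᶠ k in atTop, x ∈ body (ν k) 1 := fun x g hg hg1 hx =>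
    eventually_all.2 fun i => (hev i x).eventually_le_const ((hdom x g hg hx i).trans_lt hg1)
  have hV : Tendsto (fun k => vol (ν k) 1) atTop (𝓝 (vol w 1)) := by
    refine (ENNReal.tendsto_toReal (h1.compact 1).measure_lt_top.ne).comp
      (tendsto_measure_of_ae_tendsto_indicator atTop (h1.compact 1).measurableSet
        (fun k => ((h1k k).compact 1).measurableSet) measurableSet_closedBall hbt
        (Eventually.of_forall hball) ?_)
    filter_upwards [hgen] with x hx
    by_cases hxb : x ∈ body w 1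
    · obtain ⟨g, hg, hg0, hg1⟩ : ∃ g : ℝ, (∀ j, |w j ⬝ᵥ x| ≤ g) ∧ 0 ≤ g ∧ g < 1 :=
        ((eventually_all.2 fun j => (eventually_gt_nhds ((hxb j).lt_of_ne (hx.1 j))).filter_mono
          nhdsWithin_le_nhds |>.mono fun _ => le_of_lt).and
          ((((eventually_gt_nhds (zero_lt_one (α := ℝ))).filter_mono nhdsWithin_le_nhds).mono
            fun _ => le_of_lt).and (self_mem_nhdsWithin : Iio (1 : ℝ) ∈ 𝓝[<] 1))).exists
      filter_upwards [hin x g hg0 hg1 hg] with k hkx
      exact iff_of_true hkx hxb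
    · obtain ⟨j, hj⟩ : ∃ j, 1 < |w j ⬝ᵥ x| := by
        by_contra hno
        push Not at hno
        exact hxb hno
      filter_upwards [(hev (e j) x).eventually_const_lt hj] with k hkx
      exact iff_of_false (fun hc => (hc (e j)).not_gt hkx) hxb
  have hnn : ∀ i, 0 ≤ μ i := fun i => ge_of_tendsto' (hμ i) fun k => mass_nonneg (h1k k) i
  let C : Fin M → Finset (Fin N) := fun j => Finset.univ.filter fun i => cls i = some j
  have hle : ∀ j, mass w j ≤ ∑ i ∈ C j, μ i := by
    intro j
    have hlim : Tendsto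
        (fun k => (volume ((⋃ i ∈ C j, cell (ν k) i) ∩ cell w j)).toReal) atTop
        (𝓝 (volume (cell w j)).toReal) := by
      refine (ENNReal.tendsto_toReal (isCompact_cell h1 j).measure_lt_top.ne).comp
        (tendsto_measure_of_ae_tendsto_indicator atTop (isCompact_cell h1 j).measurableSet
          (fun k => ((Finset.measurableSet_biUnion _ fun i _ =>
            (isCompact_cell (h1k k) i).measurableSet)).inter (isCompact_cell h1 j).measurableSet)
          (isCompact_cell h1 j).measurableSet (isCompact_cell h1 j).measure_lt_top.ne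
          (Eventually.of_forall fun k => inter_subset_right) ?_)
      filter_upwards [hgen] with x hx
      by_cases hxc : x ∈ cell w j
      swap
      · exact Eventually.of_forall fun k => iff_of_false (fun h => hxc h.2) hxc
      set g := |w j ⬝ᵥ x|
      have hg1 : g < 1 := (hxc.1 j).lt_of_ne (hx.1 j)
      have hout : ∀ i, cls i ≠ some j → ∀ᶠ k in atTop, |ν k i ⬝ᵥ x| < |ν k (e j) ⬝ᵥ x| :=
        fun i hi => (hev i x).eventually_lt (hev (e j) x)
          ((hdom x g (abs_nonneg _) hxc.2 i).lt_of_ne (hx.2 i j hi))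
      filter_upwards [hin x g (abs_nonneg _) hg1 hxc.2, eventually_all.2 fun i =>
        (eventually_imp_distrib_left (p := cls i ≠ some j)).2 (hout i)] with k hkx hko
      refine iff_of_true ⟨?_, hxc⟩ hxc
      obtain ⟨i, -, hi⟩ := Finset.exists_max_image Finset.univ (fun i => |ν k i ⬝ᵥ x|)
        ⟨e j, Finset.mem_univ _⟩
      have hij : cls i = some j := by
        by_contra hne
        exact (hko i hne).not_ge (hi (e j) (Finset.mem_univ _))
      exact mem_iUnion₂.2 ⟨i, Finset.mem_filter.2 ⟨Finset.mem_univ i, hij⟩,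
        hkx, fun l => hi l (Finset.mem_univ l)⟩
    have hrhs : Tendsto (fun k => (∑ i ∈ C j, mass (ν k) i) * vol (ν k) 1) atTop
        (𝓝 ((∑ i ∈ C j, μ i) * vol w 1)) :=
      (tendsto_finsetSum _ fun i _ => hμ i).mul hV
    have := le_of_tendsto_of_tendsto' hlim hrhs fun k => by
      have hfin : ∀ i, volume (cell (ν k) i) ≠ ⊤ := fun i =>
        (isCompact_cell (h1k k) i).measure_lt_top.ne
      calc (volume ((⋃ i ∈ C j, cell (ν k) i) ∩ cell w j)).toReal
          ≤ (∑ i ∈ C j, volume (cell (ν k) i)).toReal :=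
            ENNReal.toReal_mono (ENNReal.sum_ne_top.2 fun i _ => hfin i)
              ((measure_mono inter_subset_left).trans (measure_biUnion_finset_le _ _))
        _ = ∑ i ∈ C j, mass (ν k) i * vol (ν k) 1 := by
            rw [ENNReal.toReal_sum fun i _ => hfin i]
            exact Finset.sum_congr rfl fun i _ => vol_cell (h1k k) i
        _ = (∑ i ∈ C j, mass (ν k) i) * vol (ν k) 1 := (Finset.sum_mul ..).symm
    rw [vol_cell h1 j] at this
    exact le_of_mul_le_mul_right this (h1.vol_pos 1 fun _ => one_pos)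
  have htot : ∑ i, μ i = 1 :=
    tendsto_nhds_unique (tendsto_finsetSum _ fun i _ => hμ i)
      (by simp only [fun k => sum_mass (h1k k)]; exact tendsto_const_nhds)
  have hsplit : ∑ i ∈ Finset.univ.filter (fun i => cls i = none), μ i + ∑ j, ∑ i ∈ C j, μ i = 1 := by
    rw [← htot, ← Finset.sum_fiberwise Finset.univ cls μ, Fintype.sum_option]
  have hnone : 0 ≤ ∑ i ∈ Finset.univ.filter (fun i => cls i = none), μ i :=
    Finset.sum_nonneg fun i _ => hnn i
  have hmw := sum_mass h1
  have hsum := Finset.sum_le_sum fun j (_ : j ∈ Finset.univ) => hle j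
  refine ⟨M, e, cls, hMN, he, hF, hfull, ⟨fun x hx => hbody ▸ hR.1 x hx,
    fun x hx => hR.2 x (hbody.symm ▸ hx)⟩, hbody, hV,
    fun j => (hcls _ _).2 (Or.inl rfl), hcls, fun i hi => ?_, fun j => ?_⟩
  · have h0 : ∑ i ∈ Finset.univ.filter (fun i => cls i = none), μ i = 0 := by linarith
    exact (Finset.sum_eq_zero_iff_of_nonneg fun i _ => hnn i).1 h0 i
      (Finset.mem_filter.2 ⟨Finset.mem_univ i, hi⟩)
  · exact ((Finset.sum_eq_sum_iff_of_le fun j _ => hle j).1 (by linarith) j
      (Finset.mem_univ j)).symm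

end

end Vale.Agent.P227.Lp
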