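import Vale.Agent.P227.Lp.Cut.Volume
import Vale.Agent.P227.Lp.Limit
import Vale.Agent.P227.Lp.Half

/-!
# P227: isoperimetry in round position

A plane section missing all separating edges has one colour, and all these sections have the same
colour, so the other colour projects into two small sets.
-/

namespace Vale.Agent.P227.Lp

open MeasureTheory Set Filter Topology Matrix Function
open scoped ENNReal

noncomputable section

namespace Cut

variable {N : ℕ} {ν : Fin N → V3}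

open Classical in
/-- A point of the edge, if there is one. -/
def base (ν : Fin N → V3) (i j : Fin N) (σ : ℝ) : V3 :=
  if h : (edge ν 1 i j σ).Nonempty then h.choose else 0

/-- The separating edges and their antipodes. -/
def idx (U : Finset (Fin N)) : Finset (Fin N × Fin N × Bool × Bool) :=
  U ×ˢ Uᶜ ×ˢ Finset.univ ×ˢ Finset.univ

/-- An interval containing the values on one edge. -/
def badI (ν : Fin N → V3) (a m : Fin 3) (q ε : ℝ) (k : Fin N × Fin N × Bool × Bool) : Set ℝ :=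
  Icc (sgn k.2.2.2 * ev a m q (base ν k.1 k.2.1 (sgn k.2.2.1))
      - 4 * edgeW ν 1 k.1 k.2.1 (sgn k.2.2.1) - ε)
    (sgn k.2.2.2 * ev a m q (base ν k.1 k.2.1 (sgn k.2.2.1))
      + 4 * edgeW ν 1 k.1 k.2.1 (sgn k.2.2.1) + ε)

/-- The values on separating edges. -/
def Bad (ν : Fin N → V3) (U : Finset (Fin N)) (a m : Fin 3) (q ε : ℝ) : Set ℝ :=
  ⋃ k ∈ idx U, badI ν a m q ε k

theorem isClosed_Bad (U : Finset (Fin N)) (a m : Fin 3) (q ε : ℝ) : IsClosed (Bad ν U a m q ε) :=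
  (idx U).finite_toSet.isClosed_biUnion fun _ _ => isClosed_Icc

theorem edgeW_nn (h : Fin N → ℝ) (i j : Fin N) (σ : ℝ) : 0 ≤ edgeW ν h i j σ := by
  rcases (edge ν h i j σ).eq_empty_or_nonempty with he | ⟨x, hx⟩
  · simp [edgeW, he]
  · exact Real.sSup_nonneg' ⟨0, ⟨x, hx, by simpa using hx⟩, le_rfl⟩

theorem cut_nonneg (U : Finset (Fin N)) : 0 ≤ cut ν U :=
  Finset.sum_nonneg fun i _ => Finset.sum_nonneg fun j _ =>
    add_nonneg (edgeW_nn _ _ _ _) (edgeW_nn _ _ _ _)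

theorem volume_Bad (U : Finset (Fin N)) (a m : Fin 3) (q : ℝ) {ε : ℝ} (hε : 0 ≤ ε) :
    volume (Bad ν U a m q ε) ≤ ENNReal.ofReal (32 * cut ν U + 8 * (N : ℝ) ^ 2 * ε) := by
  have hw : ∀ k : Fin N × Fin N × Bool × Bool,
      0 ≤ 8 * edgeW ν 1 k.1 k.2.1 (sgn k.2.2.1) + 2 * ε := fun k => by
    linarith [edgeW_nn (ν := ν) 1 k.1 k.2.1 (sgn k.2.2.1)]
  refine (measure_biUnion_finset_le _ _).trans ?_
  calc ∑ k ∈ idx U, volume (badI ν a m q ε k)
      = ∑ k ∈ idx U, ENNReal.ofReal (8 * edgeW ν 1 k.1 k.2.1 (sgn k.2.2.1) + 2 * ε) :=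
        Finset.sum_congr rfl fun k _ => by
          rw [badI, Real.volume_Icc]
          congr 1
          ring
    _ = ENNReal.ofReal (∑ k ∈ idx U, (8 * edgeW ν 1 k.1 k.2.1 (sgn k.2.2.1) + 2 * ε)) :=
        (ENNReal.ofReal_sum_of_nonneg fun k _ => hw k).symm
    _ ≤ _ := by
        refine ENNReal.ofReal_le_ofReal ?_
        rw [Finset.sum_add_distrib]
        refine add_le_add ?_ ?_
        · have := cut_nonneg (ν := ν) U
          simp only [idx, Finset.sum_product, Fintype.sum_bool, sgn, cut, Finset.mul_sum,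
            Bool.false_eq_true, if_true, if_false] at this ⊢
          refine Finset.sum_le_sum fun i _ => Finset.sum_le_sum fun j _ => ?_
          linarith [edgeW_nn (ν := ν) 1 i j 1, edgeW_nn (ν := ν) 1 i j (-1)]
        · rw [Finset.sum_const, nsmul_eq_mul]
          have hc : (idx U).card ≤ 4 * N ^ 2 := by
            simp only [idx, Finset.card_product, Finset.card_univ, Fintype.card_bool]
            nlinarith [Finset.card_le_univ U, Finset.card_le_univ Uᶜ, Fintype.card_fin N]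
          have hc' : ((idx U).card : ℝ) ≤ 4 * (N : ℝ) ^ 2 := by exact_mod_cast hc
          nlinarith

/-- The values at points of both colours are bad. -/
theorem mem_Bad (hν : Fam ν) (hR : Round ν) {U : Finset (Fin N)} {a m : Fin 3} {q : ℝ}
    (hq : |q| ≤ 1) {x : V3} (hU : On ν U x) (hU' : On ν Uᶜ x) : ev a m q x ∈ Bad ν U a m q 0 := by
  obtain ⟨hx, i, hi, hai⟩ := hU
  obtain ⟨-, j, hj, haj⟩ := hU'
  have hij : i ≠ j := fun h => Finset.mem_compl.1 hj (h ▸ hi)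
  obtain ⟨t, ht⟩ := exists_sgn (ν i ⬝ᵥ x)
  obtain ⟨s, hs⟩ := exists_sgn (ν j ⬝ᵥ (sgn t • x))
  have hsgn : ∀ b, |sgn b| = 1 := fun b => by cases b <;> simp [sgn]
  set y := sgn t • x with hy
  have hye : y ∈ edge ν 1 i j (sgn s) := by
    refine ⟨fun k => ?_, ?_, ?_⟩
    · rw [hy, dotProduct_smul, smul_eq_mul, abs_mul, hsgn, one_mul]
      exact hx k
    · rw [hy, dotProduct_smul, smul_eq_mul, ht, hai]
      rfl
    · rw [hs, hy, dotProduct_smul, smul_eq_mul, abs_mul, hsgn, one_mul, haj]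
      rfl
  have hne : (edge ν 1 i j (sgn s)).Nonempty := ⟨y, hye⟩
  have hbase : base ν i j (sgn s) = hne.choose := dif_pos hne
  set y₀ := hne.choose
  have hy₀ : y₀ ∈ edge ν 1 i j (sgn s) := hne.choose_spec
  set c := crossProduct (ν i) (ν j) with hc
  have hs0 : sgn s ≠ 0 := fun h => by simpa [h] using hsgn s
  obtain ⟨r, hr⟩ : ∃ r : ℝ, y - y₀ = r • c := by
    refine Limit.exists_ratio (hν.indep i j hij) ?_
    have d1 : ν i ⬝ᵥ (y - y₀) = 0 := by rw [dotProduct_sub, hye.2.1, hy₀.2.1, sub_self]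
    have d2 : ν j ⬝ᵥ (y - y₀) = 0 := by
      have := hye.2.2.trans hy₀.2.2.symm
      rw [dotProduct_sub, mul_left_cancel₀ hs0 this, sub_self]
    rw [hc, cross_cross_eq_smul_sub_smul', dotProduct_comm (y - y₀) (ν j), d1, d2]
    simp
  have hc0 : 0 < ‖c‖ := norm_pos_iff.2 (hν.indep i j hij)
  have hbdd : BddAbove {u : ℝ | ∃ z ∈ edge ν 1 i j (sgn s), z + u • c ∈ edge ν 1 i j (sgn s)} := by
    refine ⟨6 / ‖c‖, fun u ⟨z, hz, hz'⟩ => ?_⟩
    rw [le_div_iff₀ hc0]
    refine (mul_le_mul_of_nonneg_right (le_abs_self u) hc0.le).trans ?_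
    rw [← Real.norm_eq_abs, ← norm_smul]
    have := norm_sub_le (z + u • c) z
    rw [add_sub_cancel_left] at this
    linarith [hR.2 _ hz.1, hR.2 _ hz'.1]
  have hrw : |r| ≤ edgeW ν 1 i j (sgn s) := abs_le'.2
    ⟨le_csSup hbdd ⟨y₀, hy₀, by rw [← hr, add_sub_cancel]; exact hye⟩,
      le_csSup hbdd ⟨y, hye, by rw [neg_smul, ← hr, neg_sub, add_sub_cancel]; exact hy₀⟩⟩
  have hcomp : ∀ (l : Fin N) (k : Fin 3), |ν l k| ≤ 1 := fun l k => by
    have := abs_dot_le hR l (Pi.single k 1)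
    simpa [Pi.norm_single] using this
  have hck : ∀ k, |c k| ≤ 2 := fun k => by
    have hp : ∀ u v : Fin 3, |ν i u * ν j v| ≤ 1 := fun u v => by
      rw [abs_mul]
      exact mul_le_one₀ (hcomp i u) (abs_nonneg _) (hcomp j v)
    fin_cases k <;> simp [c, cross_apply] <;>
      refine (abs_sub _ _).trans ?_ <;> linarith [hp 1 2, hp 2 1, hp 2 0, hp 0 2, hp 0 1, hp 1 0]
  have hevc : |ev a m q c| ≤ 4 := by
    refine (abs_sub _ _).trans ?_
    rw [abs_mul]
    nlinarith [hck a, hck m, abs_nonneg q, abs_nonneg (c m)]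
  have hxy : x = sgn t • (y₀ + r • c) := by
    rw [← hr, add_sub_cancel, hy, smul_smul]
    cases t <;> simp [sgn]
  have hval : ev a m q x = sgn t * ev a m q y₀ + sgn t * (r * ev a m q c) := by
    rw [hxy]
    simp [ev]
    ring
  have hb : |sgn t * (r * ev a m q c)| ≤ 4 * edgeW ν 1 i j (sgn s) := by
    rw [abs_mul, hsgn, one_mul, abs_mul]
    nlinarith [abs_nonneg r, abs_nonneg (ev a m q c)]
  refine mem_iUnion₂.2 ⟨(i, j, s, t), by simp [idx, hi, Finset.mem_compl.1 hj], ?_⟩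
  simp only [badI, hbase, hval, mem_Icc]
  constructor <;> linarith [abs_le.1 hb]

theorem mem_Bad_of_near {U : Finset (Fin N)} {a m : Fin 3} {q ε v v' : ℝ}
    (hv : v ∈ Bad ν U a m q 0) (hd : |v' - v| ≤ ε) : v' ∈ Bad ν U a m q ε := by
  obtain ⟨k, hk, hvk⟩ := mem_iUnion₂.1 hv
  refine mem_iUnion₂.2 ⟨k, hk, ?_⟩
  simp only [badI, mem_Icc] at hvk ⊢
  constructor <;> linarith [abs_le.1 hd]

theorem ev_zero (a m : Fin 3) (x : V3) : ev a m 0 x = x a := by simp [ev]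

/-- All good sections have the colour of the first one. -/
theorem exists_colour (hν : Fam ν) (hR : Round ν) (U : Finset (Fin N)) (hcut : cut ν U < 1 / 80) :
    ∃ W, (W = U ∨ W = Uᶜ) ∧ ∀ x, On ν W x → ∀ a m : Fin 3, a ≠ m → ∀ q : ℝ, |q| ≤ 1 →
      |ev a m q x| ≤ 2 / 5 → ev a m q x ∈ Bad ν U a m q 0 := by
  have hgood : ∀ a m q, ∃ t, |t| ≤ 2 / 5 ∧ t ∉ Bad ν U a m q 0 := by
    intro a m q
    by_contra hno
    push Not at hno
    have h := (measure_mono (μ := volume) (fun t (ht : t ∈ Icc (-(2 / 5) : ℝ) (2 / 5)) =>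
      hno t (abs_le.2 ht))).trans (volume_Bad U a m q le_rfl)
    rw [Real.volume_Icc, ENNReal.ofReal_le_ofReal_iff
      (by nlinarith [cut_nonneg (ν := ν) U])] at h
    linarith
  have hone : ∀ a m : Fin 3, a ≠ m → ∀ q t : ℝ, |q| ≤ 1 → |t| ≤ 2 / 5 → t ∉ Bad ν U a m q 0 →
      ¬(Hit ν U a m q t ∧ Hit ν Uᶜ a m q t) := fun a m ham q t hq ht hb =>
    not_hit_both hν hR U ham (lt_of_le_of_lt ht (by norm_num)) fun x h h' he =>
      hb (he ▸ mem_Bad hν hR hq h h')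
  have hne : ∀ k : Fin 3, k ≠ k + 1 := by decide
  choose t ht htg using fun k : Fin 3 => hgood k (k + 1) 0
  have haxis : ∀ (W : Finset (Fin N)) (k a : Fin 3) (s : ℝ), Hit ν W k (k + 1) 0 s ↔ Hit ν W k a 0 s :=
    fun W k a s => by simp [Hit, ev_zero]
  have hstep : ∀ a m : Fin 3, a ≠ m → ∀ q s : ℝ, |q| ≤ 1 → |s| ≤ 2 / 5 → s ∉ Bad ν U a m q 0 →
      (Hit ν U a m q s ↔ Hit ν U m (m + 1) 0 (t m)) ∧
        (Hit ν U a m q s ∨ Hit ν Uᶜ a m q s) := by
    intro a m ham q s hq hs hsb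
    obtain ⟨x, ⟨hx, i, -, hi⟩, hxs, hxm⟩ := meet hR ham hq (t := s) (t' := t m)
      (by linarith [ht m])
    have n1 := hone a m ham q s hq hs hsb
    have n2 := hone m (m + 1) (hne m) 0 (t m) (by norm_num) (ht m) (htg m)
    by_cases hiU : i ∈ U
    · have hO : On ν U x := ⟨hx, i, hiU, hi⟩
      exact ⟨iff_of_true ⟨x, hO, hxs⟩ ⟨x, hO, by rw [ev_zero, hxm]⟩, Or.inl ⟨x, hO, hxs⟩⟩
    · have hO : On ν Uᶜ x := ⟨hx, i, Finset.mem_compl.2 hiU, hi⟩
      exact ⟨iff_of_false (fun h => n1 ⟨h, x, hO, hxs⟩)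
        (fun h => n2 ⟨h, x, hO, by rw [ev_zero, hxm]⟩), Or.inr ⟨x, hO, hxs⟩⟩
  have hall : ∀ m, Hit ν U m (m + 1) 0 (t m) ↔ Hit ν U 0 1 0 (t 0) := by
    intro m
    rcases eq_or_ne m 0 with rfl | hm
    · exact Iff.rfl
    have hb0 : t 0 ∉ Bad ν U 0 m 0 0 := by simpa [Bad, badI, ev_zero] using htg 0
    exact ((hstep 0 m hm.symm 0 (t 0) (by norm_num) (ht 0) hb0).1.symm).trans
      (haxis U 0 m (t 0)).symm
  by_cases h0 : Hit ν U 0 1 0 (t 0)
  · refine ⟨Uᶜ, Or.inr rfl, fun x hx a m ham q hq hxv => ?_⟩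
    by_contra hb
    exact hone a m ham q _ hq hxv hb
      ⟨(hstep a m ham q _ hq hxv hb).1.2 ((hall m).2 h0), x, hx, rfl⟩
  · refine ⟨U, Or.inl rfl, fun x hx a m ham q hq hxv => ?_⟩
    by_contra hb
    exact h0 ((hall m).1 ((hstep a m ham q _ hq hxv hb).1.1 ⟨x, hx, rfl⟩))

end Cut

open Cut Limit

/-- Isoperimetry in round position, given the calculus. -/
theorem cut_of (hC : CalcStatement) : CutStatement := by
  intro N
  refine ⟨(N : ℝ) * 867 * 5120 + 6400, by positivity, fun ν hν _ hR U => ?_⟩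
  have h1 := (hC N ν hν).1
  have hm : ∀ i, 0 ≤ mass ν i := Limit.mass_nonneg h1
  have hsum := sum_mass h1
  have hc0 : 0 ≤ cut ν U := cut_nonneg U
  set M := min (∑ i ∈ U, mass ν i) (∑ i ∈ Uᶜ, mass ν i)
  rcases le_or_gt (1 / 80) (cut ν U) with hbig | hsmall
  · have h1' : M ≤ 1 := (min_le_left _ _).trans
      (hsum ▸ Finset.sum_le_univ_sum_of_nonneg hm)
    have h2 : (1 / 80 : ℝ) ^ 2 ≤ cut ν U ^ 2 := pow_le_pow_left₀ (by norm_num) hbig 2
    nlinarith [sq_nonneg (cut ν U), (Nat.cast_nonneg N : (0 : ℝ) ≤ N)]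
  obtain ⟨W, hW, hbad⟩ := exists_colour hν hR U hsmall
  -- the covering
  set K : Finset ℤ := Finset.Icc (-8) 8
  set J : Finset (Fin 3 × ℤ × ℤ) := Finset.univ ×ˢ K ×ˢ K
  set X : Fin 3 × ℤ × ℤ → Set V3 := fun k => {x | On ν Finset.univ x ∧
    (|ev (k.1 + 1) k.1 ((k.2.1 : ℝ) / 8) x| ≤ 2 / 5 ∧ |ev (k.1 + 2) k.1 ((k.2.2 : ℝ) / 8) x| ≤ 2 / 5) ∧
    ev (k.1 + 1) k.1 ((k.2.1 : ℝ) / 8) x ∈ Bad ν U (k.1 + 1) k.1 ((k.2.1 : ℝ) / 8) 0 ∧
    ev (k.1 + 2) k.1 ((k.2.2 : ℝ) / 8) x ∈ Bad ν U (k.1 + 2) k.1 ((k.2.2 : ℝ) / 8) 0} with hXdef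
  have hK : ∀ z ∈ K, |(z : ℝ) / 8| ≤ 1 := fun z hz => by
    obtain ⟨h8, h8'⟩ := Finset.mem_Icc.1 hz
    have h8r : (-8 : ℝ) ≤ z := by exact_mod_cast h8
    have h8r' : (z : ℝ) ≤ 8 := by exact_mod_cast h8'
    rw [abs_le]
    constructor <;> linarith
  have hpiece : ∀ k ∈ J, (volume (cone (X k))).toReal ≤ 5 * (32 * cut ν U) ^ 2 := by
    rintro ⟨m, z, z'⟩ hk
    simp only [J, Finset.mem_product, Finset.mem_univ, true_and] at hk
    refine volume_cone_le h1 hR m (fun x hx => hx.1)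
      (fun x hx => hx.2.1) (fun ε => Bad ν U (m + 1) m ((z : ℝ) / 8) ε)
      (fun ε => Bad ν U (m + 2) m ((z' : ℝ) / 8) ε) (by linarith)
      (c := 8 * (N : ℝ) ^ 2) (by positivity)
      (fun ε hε => ⟨isClosed_Bad U _ _ _ ε, volume_Bad U _ _ _ hε⟩)
      (fun ε hε => ⟨isClosed_Bad U _ _ _ ε, volume_Bad U _ _ _ hε⟩)
      fun x hx ε r hε hr hr0 => ?_
    have near : ∀ v : ℝ, |v| ≤ 2 / 5 → |r * v - v| ≤ ε := fun v hv => by
      rw [show r * v - v = -((1 - r) * v) by ring, abs_neg, abs_mul,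
        abs_of_nonneg (by linarith [hr.2])]
      nlinarith [hr.1, abs_nonneg v]
    exact ⟨mem_Bad_of_near hx.2.2.1 (near _ hx.2.1.1), mem_Bad_of_near hx.2.2.2 (near _ hx.2.1.2)⟩
  have hcov : ∀ i ∈ W, cell ν i ⊆ {0} ∪ ⋃ k ∈ J, cone (X k) := by
    intro i hi z hz
    rcases eq_or_ne z 0 with rfl | hz0
    · exact Or.inl rfl
    refine Or.inr ?_
    set g := |ν i ⬝ᵥ z| with hg
    have hg0 : 0 < g := by
      refine lt_of_le_of_ne (abs_nonneg _) fun h0 => hz0 (hν.span z fun l => ?_)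
      exact abs_nonpos_iff.1 ((hz.2 l).trans h0.symm.le)
    set x := g⁻¹ • z with hx
    have hxb : x ∈ body ν 1 := fun l => by
      rw [hx, dotProduct_smul, smul_eq_mul, abs_mul, abs_inv, abs_of_pos hg0, Pi.one_apply,
        inv_mul_le_iff₀ hg0, mul_one]
      exact hz.2 l
    have hxi : |ν i ⬝ᵥ x| = 1 := by
      rw [hx, dotProduct_smul, smul_eq_mul, abs_mul, abs_inv, abs_of_pos hg0, ← hg,
        inv_mul_cancel₀ hg0.ne']
    obtain ⟨m, -, hmax⟩ := Finset.exists_max_image Finset.univ (fun l => |x l|) Finset.univ_nonempty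
    have hxm : 0 < |x m| := by
      refine lt_of_le_of_ne (abs_nonneg _) fun h0 => ?_
      have : x = 0 := funext fun l => abs_nonpos_iff.1 ((hmax l (Finset.mem_univ l)).trans h0.symm.le)
      simp [this] at hxi
    have hgrid : ∀ a, ∃ k ∈ K, |ev a m ((k : ℝ) / 8) x| ≤ 2 / 5 * (|x m| / 3) := by
      intro a
      have hr : |8 * (x a / x m)| ≤ 8 := by
        rw [abs_mul, abs_div, abs_of_pos (by norm_num : (0 : ℝ) < 8)]
        have := (div_le_one hxm).2 (hmax a (Finset.mem_univ a))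
        linarith
      refine ⟨round (8 * (x a / x m)), ?_, ?_⟩
      · have hb := abs_sub_round (8 * (x a / x m))
        have h8 : |(round (8 * (x a / x m)) : ℝ)| < 9 := by
          have := abs_sub_abs_le_abs_sub ((round (8 * (x a / x m)) : ℤ) : ℝ) (8 * (x a / x m))
          rw [abs_sub_comm] at hb
          linarith
        have h8i : |round (8 * (x a / x m))| < 9 := by exact_mod_cast h8
        exact Finset.mem_Icc.2 ⟨by linarith [abs_lt.1 h8i], by linarith [abs_lt.1 h8i]⟩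
      · have hxm' : x m ≠ 0 := abs_pos.1 hxm
        have e : ev a m ((round (8 * (x a / x m)) : ℝ) / 8) x
            = x m / 8 * (8 * (x a / x m) - round (8 * (x a / x m))) := by
          rw [ev]
          field_simp
        rw [e, abs_mul, abs_div, abs_of_pos (by norm_num : (0 : ℝ) < 8)]
        calc |x m| / 8 * |8 * (x a / x m) - round (8 * (x a / x m))| ≤ |x m| / 8 * (1 / 2) :=
              mul_le_mul_of_nonneg_left (abs_sub_round _) (by positivity)
          _ ≤ 2 / 5 * (|x m| / 3) := by linarith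
    have h3 : |x m| / 3 ≤ 1 := by
      have := (norm_le_pi_norm x m).trans (hR.2 x hxb)
      rw [Real.norm_eq_abs] at this
      linarith
    obtain ⟨k₁, hk₁, he₁⟩ := hgrid (m + 1)
    obtain ⟨k₂, hk₂, he₂⟩ := hgrid (m + 2)
    have e₁ := he₁.trans (mul_le_of_le_one_right (by norm_num) h3)
    have e₂ := he₂.trans (mul_le_of_le_one_right (by norm_num) h3)
    have hne : ∀ k : Fin 3, k + 1 ≠ k ∧ k + 2 ≠ k := by decide
    refine mem_iUnion₂.2 ⟨(m, k₁, k₂), by simp [J, hk₁, hk₂], x, ?_, g, ⟨hg0, hz.1 i⟩, ?_⟩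
    · exact ⟨⟨hxb, i, Finset.mem_univ i, hxi⟩, ⟨e₁, e₂⟩,
        hbad x ⟨hxb, i, hi, hxi⟩ _ _ (hne m).1 _ (hK _ hk₁) e₁,
        hbad x ⟨hxb, i, hi, hxi⟩ _ _ (hne m).2 _ (hK _ hk₂) e₂⟩
    · rw [hx, smul_smul, mul_inv_cancel₀ hg0.ne', one_smul]
  have hcone : ∀ k, volume (cone (X k)) ≠ ⊤ := fun k => by
    refine ((measure_mono ?_).trans_lt (h1.compact 1).measure_lt_top).ne
    rintro z ⟨x, hx, r, hr, rfl⟩ l
    rw [dotProduct_smul, smul_eq_mul, abs_mul, abs_of_pos hr.1]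
    exact (mul_le_of_le_one_left (abs_nonneg _) hr.2).trans (hx.1.1 l)
  have hcell : ∀ i ∈ W, mass ν i ≤ 867 * (5 * (32 * cut ν U) ^ 2) := by
    intro i hi
    have hv : (volume (cell ν i)).toReal ≤ ∑ k ∈ J, (volume (cone (X k))).toReal := by
      rw [← ENNReal.toReal_sum fun k _ => hcone k]
      refine ENNReal.toReal_mono (ENNReal.sum_ne_top.2 fun k _ => hcone k) ?_
      refine (measure_mono (hcov i hi)).trans ((measure_union_le _ _).trans ?_)
      rw [measure_singleton, zero_add]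
      exact measure_biUnion_finset_le _ _
    have hJ : J.card = 867 := by simp [J, K]
    have hv' := hv.trans (Finset.sum_le_card_nsmul _ _ _ hpiece)
    rw [hJ, nsmul_eq_mul, vol_cell h1 i] at hv'
    have hV : (8 : ℝ) ≤ vol ν 1 := by
      have hb : Metric.closedBall (0 : V3) 1 ⊆ body ν 1 :=
        fun y hy => hR.1 y (mem_closedBall_zero_iff.1 hy)
      refine le_trans (le_of_eq ?_) (ENNReal.toReal_mono (h1.compact 1).measure_lt_top.ne (measure_mono hb))
      rw [Real.volume_pi_closedBall _ zero_le_one, Fintype.card_fin, ENNReal.toReal_ofReal (by norm_num)]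
      norm_num
    refine le_trans ?_ (hv'.trans_eq (by norm_num))
    exact le_mul_of_one_le_right (hm i) (by linarith)
  have hWsum : ∑ i ∈ W, mass ν i ≤ (N : ℝ) * (867 * (5 * (32 * cut ν U) ^ 2)) := by
    refine (Finset.sum_le_card_nsmul W _ _ hcell).trans ?_
    rw [nsmul_eq_mul]
    have hle : (W.card : ℝ) ≤ N := by exact_mod_cast (Finset.card_le_univ W).trans_eq (Fintype.card_fin N)
    exact mul_le_mul_of_nonneg_right hle (by positivity)
  have hM : M ≤ ∑ i ∈ W, mass ν i := by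
    rcases hW with rfl | rfl
    · exact min_le_left _ _
    · exact min_le_right _ _
  nlinarith [sq_nonneg (cut ν U)]

end

end Vale.Agent.P227.Lp
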