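import Mathlib

/-!
# P227: symmetric polytopes in three dimensions and the local inequality, the notions
-/

namespace Vale.Agent.P227.Lp

open MeasureTheory Set Filter Topology Matrix Function

noncomputable section

/-- Three-dimensional coordinate space. -/
abbrev V3 : Type := Fin 3 → ℝ

variable {ι : Type} [Fintype ι] [DecidableEq ι]

/-- The polytope cut out by the slabs `|ν i ⬝ x| ≤ h i`. -/
def body (ν : ι → V3) (h : ι → ℝ) : Set V3 := {x | ∀ i, |ν i ⬝ᵥ x| ≤ h i}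

/-- Its volume. -/
def vol (ν : ι → V3) (h : ι → ℝ) : ℝ := (volume (body ν h)).toReal

/-- The derivative of the volume in the support number `i`: twice the area of the facet `i`
divided by `|ν i|`. -/
def grad (ν : ι → V3) (h : ι → ℝ) (i : ι) : ℝ :=
  deriv (fun s => vol ν (update h i s)) (h i)

/-- The second derivative of the volume. -/
def hess (ν : ι → V3) (h : ι → ℝ) (i j : ι) : ℝ :=
  deriv (fun s => grad ν (update h j s) i) (h j)

/-- The directions are nonzero, pairwise non-parallel and spanning. -/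
structure Fam (ν : ι → V3) : Prop where
  ne_zero : ∀ i, ν i ≠ 0
  indep : ∀ i j, i ≠ j → crossProduct (ν i) (ν j) ≠ 0
  span : ∀ x : V3, (∀ i, ν i ⬝ᵥ x = 0) → x = 0

/-- Positive support numbers with every facet present. -/
def Full (ν : ι → V3) (h : ι → ℝ) : Prop := (∀ i, 0 < h i) ∧ ∀ i, 0 < grad ν h i

/-- The edge on the facets `ν i` and `σ ν j`. -/
def edge (ν : ι → V3) (h : ι → ℝ) (i j : ι) (σ : ℝ) : Set V3 :=
  {x | x ∈ body ν h ∧ ν i ⬝ᵥ x = h i ∧ σ * (ν j ⬝ᵥ x) = h j}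

/-- The edge's length divided by `|ν i × ν j|`. -/
def edgeW (ν : ι → V3) (h : ι → ℝ) (i j : ι) (σ : ℝ) : ℝ :=
  sSup {s : ℝ | ∃ x ∈ edge ν h i j σ, x + s • crossProduct (ν i) (ν j) ∈ edge ν h i j σ}

/-- A trilinear form given by its coefficients. -/
def tri (C : ι → ι → ι → ℝ) (f g k : ι → ℝ) : ℝ := ∑ i, ∑ j, ∑ l, C i j l * f i * g j * k l

/-- Coefficients invariant under permutations. -/
def SymC (C : ι → ι → ι → ℝ) : Prop := ∀ i j l, C i j l = C j i l ∧ C i j l = C i l j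

/-- The volume, its gradient and Hessian at `h` agree with a cubic form. -/
def Agrees (ν : ι → V3) (C : ι → ι → ι → ℝ) (h : ι → ℝ) : Prop :=
  vol ν h = tri C h h h ∧ (∀ i, grad ν h i = 3 * tri C (Pi.single i 1) h h) ∧
    ∀ i j, hess ν h i j = 6 * tri C (Pi.single i 1) (Pi.single j 1) h

/-- The first-order calculus of the volume, at positive support numbers. -/
structure Calc1 (ν : ι → V3) : Prop where
  compact : ∀ h, IsCompact (body ν h)
  vol_pos : ∀ h, (∀ i, 0 < h i) → 0 < vol ν h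
  vol_continuous : ContinuousOn (vol ν) {h | ∀ i, 0 ≤ h i}
  hasFDeriv : ∀ h, (∀ i, 0 < h i) → HasFDerivAt (vol ν)
    (∑ i, grad ν h i • ContinuousLinearMap.proj (R := ℝ) (φ := fun _ : ι => ℝ) i) h
  grad_continuous : ∀ h, (∀ i, 0 < h i) → ∀ i, ContinuousAt (fun h => grad ν h i) h
  grad_nonneg : ∀ h, (∀ i, 0 < h i) → ∀ i, 0 ≤ grad ν h i
  euler : ∀ h, (∀ i, 0 < h i) → ∑ i, h i * grad ν h i = 3 * vol ν h
  drop : ∀ h, (∀ i, 0 < h i) →
    body ν h = {x | ∀ i, 0 < grad ν h i → |ν i ⬝ᵥ x| ≤ h i}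

/-- The second-order calculus, where every facet is present. -/
structure Calc2 (ν : ι → V3) : Prop where
  isOpen : IsOpen {h | Full ν h}
  hasFDeriv : ∀ h, Full ν h → ∀ i, HasFDerivAt (fun h => grad ν h i)
    (∑ j, hess ν h i j • ContinuousLinearMap.proj (R := ℝ) (φ := fun _ : ι => ℝ) j) h
  continuous : ∀ h, Full ν h → ∀ i j, ContinuousAt (fun h => hess ν h i j) h
  symm : ∀ h, Full ν h → ∀ i j, hess ν h i j = hess ν h j i
  euler : ∀ h, Full ν h → ∀ i, ∑ j, hess ν h i j * h j = 2 * grad ν h i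
  hess_eq : ∀ h, Full ν h → ∀ i j, i ≠ j →
    hess ν h i j = 2 * (edgeW ν h i j 1 + edgeW ν h i j (-1))
  cubic : ∃ S : Finset (ι → ι → ι → ℝ), (∀ C ∈ S, SymC C) ∧
    ∀ h, Full ν h → ∃ C ∈ S, Agrees ν C h

/-- Statement of the calculus module. -/
def CalcStatement : Prop :=
  ∀ (N : ℕ) (ν : Fin N → V3), Fam ν → Calc1 ν ∧ Calc2 ν

/-- Statement of the kink module: along a line through a point with all facets present, the cubic
coefficient of the volume jumps upwards. -/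
def KinkStatement : Prop :=
  ∀ (N : ℕ) (ν : Fin N → V3), Fam ν → Full ν 1 → ∀ (g : Fin N → ℝ) (p₀ p₁ p₂ a b : ℝ),
    (∀ᶠ t in 𝓝[>] (0 : ℝ), vol ν (1 + t • g) = p₀ + p₁ * t + p₂ * t ^ 2 + a * t ^ 3) →
    (∀ᶠ t in 𝓝[<] (0 : ℝ), vol ν (1 + t • g) = p₀ + p₁ * t + p₂ * t ^ 2 + b * t ^ 3) →
    b ≤ a

/-- The cone-volume share of the facet `i` at support numbers `1`. -/
def mass (ν : ι → V3) (i : ι) : ℝ := grad ν 1 i / (3 * vol ν 1)

/-- The cone-volume mean. -/
def mean (ν : ι → V3) (f : ι → ℝ) : ℝ := ∑ i, mass ν i * f i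

/-- The normalised Hessian. -/
def form (ν : ι → V3) (f g : ι → ℝ) : ℝ :=
  (∑ i, ∑ j, hess ν 1 i j * f i * g j) / (6 * vol ν 1)

/-- The local inequality with parameter `c`, equivalent to `p = 1 - 2 c`. -/
def Bound (c : ℝ) (ν : ι → V3) : Prop :=
  ∀ f : ι → ℝ, form ν f f + c * mean ν (fun i => f i ^ 2) ≤ (1 + c) * mean ν f ^ 2

/-- The local theorem. -/
def LocalStatement : Prop :=
  ∀ (N : ℕ) (ν : Fin N → V3), Fam ν → Full ν 1 → Bound (1 / 2) ν

/-- The body lies between the cubes of radius `1` and `3`. -/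
def Round (ν : ι → V3) : Prop :=
  (∀ x : V3, ‖x‖ ≤ 1 → x ∈ body ν 1) ∧ ∀ x ∈ body ν 1, ‖x‖ ≤ 3

/-- The total weighted length of the edges separating `U` from the other facets. -/
def cut (ν : ι → V3) (U : Finset ι) : ℝ :=
  ∑ i ∈ U, ∑ j ∈ Uᶜ, (edgeW ν 1 i j 1 + edgeW ν 1 i j (-1))

/-- Statement of the isoperimetric module. -/
def CutStatement : Prop :=
  ∀ N : ℕ, ∃ C : ℝ, 0 < C ∧ ∀ ν : Fin N → V3, Fam ν → Full ν 1 → Round ν →
    ∀ U : Finset (Fin N), min (∑ i ∈ U, mass ν i) (∑ i ∈ Uᶜ, mass ν i) ≤ C * cut ν U ^ 2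

/-- A maximiser of the normalised Hessian among functions of mean zero, with value `-s`. -/
def Worst (ν : ι → V3) (φ : ι → ℝ) (s : ℝ) : Prop :=
  mean ν φ = 0 ∧ mean ν (fun i => φ i ^ 2) = 1 ∧ (∀ e, form ν φ e = -s * mean ν (φ * e)) ∧
    ∀ e, mean ν e = 0 → form ν e e ≤ -s * mean ν (fun i => e i ^ 2)

/-- A priori bound for maximisers. -/
def SupStatement : Prop :=
  ∀ N : ℕ, ∃ C : ℝ, ∀ ν : Fin N → V3, Fam ν → Full ν 1 → Round ν → ∀ φ s,
    Worst ν φ s → -1 ≤ s → s ≤ 1 → ∀ i, |φ i| ≤ C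

/-- The directions transformed by a linear map of the space. -/
def transform (A : V3 →ₗ[ℝ] V3) (ν : ι → V3) : ι → V3 :=
  fun i k => ν i ⬝ᵥ A (Pi.single k 1)

/-- Linear normalisation. -/
def RoundStatement : Prop :=
  ∀ (N : ℕ) (ν : Fin N → V3), Fam ν → ∃ A : V3 ≃ₗ[ℝ] V3,
    Round (transform A.toLinearMap ν) ∧ Fam (transform A.toLinearMap ν) ∧
    (∀ i, mass (transform A.toLinearMap ν) i = mass ν i) ∧
    (Full (transform A.toLinearMap ν) 1 ↔ Full ν 1) ∧
    ∀ f g, form (transform A.toLinearMap ν) f g = form ν f g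

end

end Vale.Agent.P227.Lp
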