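import Vale.Agent.P227.Lp.Defs

/-!
# P227: statements of the compactness modules
-/

namespace Vale.Agent.P227.Lp

open MeasureTheory Set Filter Topology Matrix Function

noncomputable section

variable {ι : Type} [Fintype ι] [DecidableEq ι]

/-- A point of the line `ν i ⬝ x = 1`, `σ ν j ⬝ x = 1`. -/
def linePoint (ν : ι → V3) (i j : ι) (σ : ℝ) : V3 :=
  ((crossProduct (ν i) (σ • ν j)) ⬝ᵥ (crossProduct (ν i) (σ • ν j)))⁻¹ •
    (crossProduct (σ • ν j) (crossProduct (ν i) (σ • ν j))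
      + crossProduct (crossProduct (ν i) (σ • ν j)) (ν i))

/-- The part of `edgeW` lying in a set, at support numbers `1`. -/
def partW (ν : ι → V3) (i j : ι) (σ : ℝ) (R : Set V3) : ℝ :=
  (volume {s : ℝ | linePoint ν i j σ + s • crossProduct (ν i) (ν j) ∈ edge ν 1 i j σ ∩ R}).toReal

/-- The edge parts add up to the edge weights. -/
def PartStatement : Prop :=
  ∀ (N : ℕ) (ν : Fin N → V3), Fam ν → Full ν 1 → ∀ i j, i ≠ j → ∀ σ : ℝ, σ = 1 ∨ σ = -1 →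
    IsCompact (edge ν 1 i j σ) ∧ partW ν i j σ univ = edgeW ν 1 i j σ

/-- The symmetric cone over the segments `[x + t d, y + t d]`, `t ∈ I`. -/
def window (x y d : V3) (I : Set ℝ) : Set V3 :=
  {z | ∃ t ∈ I, ∃ θ ∈ Icc (0 : ℝ) 1, ∃ r : ℝ,
    r ≠ 0 ∧ z = r • ((1 - θ) • (x + t • d) + θ • (y + t • d))}

/-- The signed index `(a, τ)` attains the norm of the body at `P`. -/
def IsTop (ν : ι → V3) (a : ι) (τ : ℝ) (P : V3) : Prop :=
  (τ = 1 ∨ τ = -1) ∧ ∀ i, |ν i ⬝ᵥ P| ≤ τ * (ν a ⬝ᵥ P)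

/-- The chain inequality: a jump of `φ` between the facets over two parallel lines costs energy. -/
def ChainStatement : Prop :=
  ∀ (N : ℕ) (ν : Fin N → V3), Fam ν → Full ν 1 →
  ∀ (φ : Fin N → ℝ) (x y d : V3) (I : Set ℝ) (D Γ S : ℝ), MeasurableSet I → Bornology.IsBounded I →
  0 ≤ D → 0 < Γ →
  (∀ t ∈ I, ∃ a b τa τb, IsTop ν a τa (x + t • d) ∧ IsTop ν b τb (y + t • d) ∧
    τa * (ν a ⬝ᵥ (x + t • d)) ≤ Γ ∧ τb * (ν b ⬝ᵥ (y + t • d)) ≤ Γ ∧ D ≤ |φ a - φ b| ∧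
    (τb * (ν b ⬝ᵥ (y + t • d)) - τb * (ν b ⬝ᵥ (x + t • d)))
      - (τa * (ν a ⬝ᵥ (y + t • d)) - τa * (ν a ⬝ᵥ (x + t • d))) ≤ S) →
  D ^ 2 * (volume I).toReal * |d ⬝ᵥ crossProduct (y - x) x| ≤
    Γ ^ 2 * S * ∑ i, ∑ j ∈ Finset.univ.filter (i < ·), (φ i - φ j) ^ 2 *
      (partW ν i j 1 (window x y d I) + partW ν i j (-1) (window x y d I))

/-- The points of the body where the facet `i` is on top. -/
def cell (ν : ι → V3) (i : ι) : Set V3 :=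
  {x | x ∈ body ν 1 ∧ ∀ j, |ν j ⬝ᵥ x| ≤ |ν i ⬝ᵥ x|}

/-- Cone volumes. -/
def CellStatement : Prop :=
  ∀ (N : ℕ) (ν : Fin N → V3), Fam ν → Full ν 1 →
    ∀ i, (volume (cell ν i)).toReal = mass ν i * vol ν 1

/-- The limit of a sequence of configurations, grouped into the facets of the limit body. -/
def LimitStatement : Prop :=
  ∀ (N : ℕ) (ν : ℕ → Fin N → V3) (νl : Fin N → V3) (μ : Fin N → ℝ),
    (∀ k, Fam (ν k) ∧ Full (ν k) 1 ∧ Round (ν k)) → Tendsto ν atTop (𝓝 νl) →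
    (∀ i, Tendsto (fun k => mass (ν k) i) atTop (𝓝 (μ i))) →
    ∃ (M : ℕ) (e : Fin M → Fin N) (cls : Fin N → Option (Fin M)), M ≤ N ∧ Injective e ∧
      Fam (νl ∘ e) ∧ Full (νl ∘ e) 1 ∧ Round (νl ∘ e) ∧
      body νl 1 = body (νl ∘ e) 1 ∧
      Tendsto (fun k => vol (ν k) 1) atTop (𝓝 (vol (νl ∘ e) 1)) ∧
      (∀ j, cls (e j) = some j) ∧
      (∀ i j, cls i = some j ↔ νl i = νl (e j) ∨ νl i = -νl (e j)) ∧
      (∀ i, cls i = none → μ i = 0) ∧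
      ∀ j, ∑ i ∈ Finset.univ.filter (fun i => cls i = some j), μ i = mass (νl ∘ e) j

/-- The energy of `φ`. -/
def energy (ν : ι → V3) (φ : ι → ℝ) : ℝ :=
  mean ν (fun i => φ i ^ 2) - form ν φ φ

end

end Vale.Agent.P227.Lp
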