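import Vale.Agent.P227.Lp.Scale

/-!
# P227: dropping the absent facets
-/

namespace Vale.Agent.P227.Lp

open MeasureTheory Set Filter Topology Matrix Function

noncomputable section

variable {ι κ : Type} [Fintype ι] [DecidableEq ι] [Fintype κ] [DecidableEq κ]

omit [Fintype ι] [DecidableEq ι] [Fintype κ] [DecidableEq κ] in
theorem body_subset_comp (ν : ι → V3) (h : ι → ℝ) (e : κ → ι) :
    body ν h ⊆ body (ν ∘ e) (h ∘ e) := fun _ hx j => hx (e j)

omit [Fintype κ] [DecidableEq κ] in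
theorem body_comp {ν : ι → V3} (h1 : Calc1 ν) {h : ι → ℝ} (hh : ∀ i, 0 < h i) {e : κ → ι}
    (hS : ∀ i, 0 < grad ν h i → ∃ j, e j = i) : body (ν ∘ e) (h ∘ e) = body ν h := by
  refine Subset.antisymm (fun x hx => ?_) (body_subset_comp ν h e)
  rw [h1.drop h hh]
  intro i hi
  obtain ⟨j, rfl⟩ := hS i hi
  exact hx j

omit [Fintype κ] [DecidableEq κ] in
theorem fam_comp {ν : ι → V3} (hν : Fam ν) (h1 : Calc1 ν) {h : ι → ℝ} (hh : ∀ i, 0 < h i)
    {e : κ → ι} (he : Injective e) (hS : ∀ i, 0 < grad ν h i → ∃ j, e j = i) :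
    Fam (ν ∘ e) where
  ne_zero j := hν.ne_zero (e j)
  indep j k hjk := hν.indep (e j) (e k) (he.ne hjk)
  span x hx := by
    by_contra hx0
    obtain ⟨R, hR⟩ := (h1.compact h).isBounded.exists_norm_le
    have hxn : 0 < ‖x‖ := norm_pos_iff.2 hx0
    have hm : ((|R| + 1) / ‖x‖) • x ∈ body ν h := by
      rw [← body_comp h1 hh hS]
      intro j
      rw [dotProduct_smul, hx j, smul_zero, abs_zero]
      exact (hh (e j)).le
    have := hR _ hm
    rw [norm_smul, Real.norm_eq_abs, abs_of_pos (by positivity), div_mul_cancel₀ _ hxn.ne'] at this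
    linarith [le_abs_self R]

omit [Fintype ι] [DecidableEq ι] [Fintype κ] [DecidableEq κ] in
theorem vol_le_comp {ν : ι → V3} {h : ι → ℝ} {e : κ → ι} (hc : IsCompact (body (ν ∘ e) (h ∘ e))) :
    vol ν h ≤ vol (ν ∘ e) (h ∘ e) :=
  ENNReal.toReal_mono hc.measure_lt_top.ne (measure_mono (body_subset_comp ν h e))

omit [Fintype κ] [DecidableEq κ] in
theorem vol_comp {ν : ι → V3} (h1 : Calc1 ν) {h : ι → ℝ} (hh : ∀ i, 0 < h i) {e : κ → ι}
    (hS : ∀ i, 0 < grad ν h i → ∃ j, e j = i) : vol (ν ∘ e) (h ∘ e) = vol ν h := by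
  rw [vol, body_comp h1 hh hS, vol]

theorem hasDerivAt_update (h : ι → ℝ) (i : ι) :
    HasDerivAt (fun s => update h i s) (Pi.single i 1) (h i) := by
  have : (fun s => update h i s) = fun s => h + (s - h i) • (Pi.single i 1 : ι → ℝ) := by
    funext s k
    rcases eq_or_ne k i with rfl | hk
    · simp
    · simp [hk]
  rw [this]
  simpa using (((hasDerivAt_id (h i)).sub_const (h i)).smul_const (Pi.single i 1 : ι → ℝ)).const_add h

/-- Dropping absent facets keeps the gradient. -/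
theorem grad_comp {ν : ι → V3} (h1 : Calc1 ν) {h : ι → ℝ} (hh : ∀ i, 0 < h i) {e : κ → ι}
    (he : Injective e) (hS : ∀ i, 0 < grad ν h i → ∃ j, e j = i) (h1' : Calc1 (ν ∘ e)) (j : κ) :
    grad (ν ∘ e) (h ∘ e) j = grad ν h (e j) := by
  have hu := hasDerivAt_update h (e j)
  have d1 : HasDerivAt (fun s => vol ν (update h (e j) s)) (grad ν h (e j)) (h (e j)) := by
    have := (h1.hasFDeriv h hh).comp_hasDerivAt_of_eq (h (e j)) hu (update_eq_self _ _).symm
    simpa [Pi.single_apply, Finset.sum_ite_eq', Function.comp_def] using this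
  have d2 : HasDerivAt (fun s => vol (ν ∘ e) (update (h ∘ e) j s)) (grad (ν ∘ e) (h ∘ e) j)
      (h (e j)) := by
    have := (h1'.hasFDeriv (h ∘ e) fun k => hh (e k)).comp_hasDerivAt_of_eq (h (e j))
      (hasDerivAt_update (h ∘ e) j) (update_eq_self _ _).symm
    simpa [Pi.single_apply, Finset.sum_ite_eq', Function.comp_def] using this
  have hd := d2.sub d1
  have hmin : IsLocalMin (fun s => vol (ν ∘ e) (update (h ∘ e) j s) - vol ν (update h (e j) s))
      (h (e j)) := Filter.Eventually.of_forall fun s => by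
    simp only [update_eq_self]
    rw [show update (h ∘ e) j (h (e j)) = h ∘ e from update_eq_self _ _, vol_comp h1 hh hS,
      sub_self, ← update_comp_eq_of_injective h he, sub_nonneg]
    exact vol_le_comp (h1'.compact _)
  exact sub_eq_zero.1 (hmin.hasDerivAt_eq_zero hd)

theorem full_comp {ν : ι → V3} (h1 : Calc1 ν) {h : ι → ℝ} (hh : ∀ i, 0 < h i) {e : κ → ι}
    (he : Injective e) (hS : ∀ i, 0 < grad ν h i → ∃ j, e j = i)
    (hS' : ∀ j, 0 < grad ν h (e j)) (h1' : Calc1 (ν ∘ e)) : Full (ν ∘ e) (h ∘ e) :=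
  ⟨fun j => hh (e j), fun j => by rw [grad_comp h1 hh he hS h1']; exact hS' j⟩

/-- The present facets, listed by `Fin M`. -/
theorem exists_present {N : ℕ} (ν : Fin N → V3) (h : Fin N → ℝ) :
    ∃ (M : ℕ) (e : Fin M → Fin N), M ≤ N ∧ Injective e ∧
      (∀ i, 0 < grad ν h i → ∃ j, e j = i) ∧ ∀ j, 0 < grad ν h (e j) := by
  classical
  set s : Finset (Fin N) := Finset.univ.filter fun i => 0 < grad ν h i
  refine ⟨s.card, fun j => s.orderEmbOfFin rfl j, ?_, (s.orderEmbOfFin rfl).injective,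
    fun i hi => ?_, fun j => ?_⟩
  · simpa using s.card_le_univ
  · have : i ∈ Set.range (s.orderEmbOfFin rfl) := by
      rw [Finset.range_orderEmbOfFin]
      simp [s, hi]
    exact this
  · have := s.orderEmbOfFin_mem rfl j
    simp only [s, Finset.mem_filter] at this
    exact this.2

end

end Vale.Agent.P227.Lp
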