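import Vale.Agent.P227.Lp.Defs3
import Vale.Agent.P227.Lp.Calculus

/-!
# P227: test lines along an edge

Two parallel lines through the interior of the body, one over each facet at an edge, which see all
but a small part of the edge.
-/

namespace Vale.Agent.P227.Lp

open MeasureTheory Set Filter Topology Matrix Function Calc

noncomputable section

namespace Edge

variable {M : ℕ} {u : Fin M → V3}

/-- The interior of an edge meets no third facet. -/
theorem interior_edge (hu : Fam u) (hF : Full u 1) {j j' : Fin M} (hjj : j ≠ j') {σ : ℝ}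
    (hσ : σ = 1 ∨ σ = -1) {z : V3} {s t : ℝ} (hz : z ∈ edge u 1 j j' σ)
    (hzs : z + s • crossProduct (u j) (u j') ∈ edge u 1 j j' σ) (ht : 0 < t) (hts : t < s)
    {l : Fin M} (hlj : l ≠ j) (hlj' : l ≠ j') :
    |u l ⬝ᵥ (z + t • crossProduct (u j) (u j'))| < 1 := by
  set c := crossProduct (u j) (u j')
  by_contra hge
  push Not at hge
  obtain ⟨k, hkl, hk1⟩ : ∃ k : Fin M × Bool, k.1 = l ∧ 1 ≤ halves u k ⬝ᵥ (z + t • c) := by
    rcases le_abs'.1 hge with h | h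
    · exact ⟨(l, false), rfl, by simp only [halves, Bool.false_eq_true, if_false, neg_dotProduct]; linarith⟩
    · exact ⟨(l, true), rfl, by simpa [halves] using h⟩
  have hz0 : halves u k ⬝ᵥ z ≤ 1 := by
    have h := hz.1
    rw [body_eq] at h
    exact h k
  have hzs0 : halves u k ⬝ᵥ (z + s • c) ≤ 1 := by
    have h := hzs.1
    rw [body_eq] at h
    exact h k
  simp only [dotProduct_add, dotProduct_smul, smul_eq_mul] at hk1 hzs0
  have hg : halves u k ⬝ᵥ c = 0 := by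
    rcases lt_trichotomy (halves u k ⬝ᵥ c) 0 with hg | hg | hg
    · linarith [mul_neg_of_pos_of_neg ht hg]
    · exact hg
    · linarith [mul_lt_mul_of_pos_right hts hg]
  rw [hg, mul_zero, add_zero] at hk1
  obtain ⟨b, hb⟩ : ∃ b : Bool, halves u (j', b) = σ • u j' := by
    rcases hσ with rfl | rfl
    · exact ⟨true, by simp [halves]⟩
    · exact ⟨false, by simp [halves]⟩
  have hσ0 : σ ≠ 0 := by rcases hσ with rfl | rfl <;> norm_num
  have hwe : w (halves u) (j, true) (j', b) = σ • c := by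
    rw [w, hb, map_smul]; rfl
  have hw : w (halves u) (j, true) (j', b) ≠ 0 := by
    rw [hwe]; exact smul_ne_zero hσ0 (hu.indep j j' hjj)
  have hkw : halves u k ⬝ᵥ w (halves u) (j, true) (j', b) = 0 := by
    rw [hwe, dotProduct_smul, hg, smul_zero]
  have hn := no_third (gfam_halves hu) hw ((full_iff hu).1 hF)
    (show k ≠ (j, true) from fun h => hlj (by rw [← hkl, h]))
    (show k ≠ (j', b) from fun h => hlj' (by rw [← hkl, h])) hkw
  refine hn ?_
  have e := dot_expand _ hw k z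
  have h1 : (crd (halves u) (j, true) (j', b) z).1 = 1 := by simp [crd, halves, hz.2.1]
  have h2 : (crd (halves u) (j, true) (j', b) z).2.1 = 1 := by
    simp [crd, hb, smul_dotProduct, hz.2.2]
  rw [h1, h2, hkw, zero_mul, add_zero] at e
  simp only [pairs_apply, Pi.one_apply]
  linarith

/-- The conditions on a pair of test lines at one parameter. -/
def Good (u : Fin M → V3) (j j' : Fin M) (σ Γ : ℝ) (P Q : V3) : Prop :=
  (∀ l, l ≠ j → |u l ⬝ᵥ P| < u j ⬝ᵥ P) ∧ u j ⬝ᵥ P < Γ ∧ u j ⬝ᵥ P < 1 ∧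
    (∀ l, l ≠ j' → |u l ⬝ᵥ Q| < σ * (u j' ⬝ᵥ Q)) ∧ σ * (u j' ⬝ᵥ Q) < Γ ∧ σ * (u j' ⬝ᵥ Q) < 1 ∧
    P ∈ pairCone u j j' σ ∧ Q ∈ pairCone u j j' σ

theorem isOpen_good (u : Fin M → V3) (j j' : Fin M) (σ Γ : ℝ) :
    IsOpen {p : V3 × V3 | Good u j j' σ Γ p.1 p.2} := by
  have hd : ∀ v : V3, Continuous fun x : V3 => v ⬝ᵥ x := fun v => (dotL v).continuous
  have hP : ∀ v : V3, Continuous fun p : V3 × V3 => v ⬝ᵥ p.1 := fun v => (hd v).comp continuous_fst
  have hQ : ∀ v : V3, Continuous fun p : V3 × V3 => v ⬝ᵥ p.2 := fun v => (hd v).comp continuous_snd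
  have hQs : ∀ v : V3, Continuous fun p : V3 × V3 => σ * (v ⬝ᵥ p.2) := fun v =>
    continuous_const.mul (hQ v)
  have hPs : ∀ v : V3, Continuous fun p : V3 × V3 => σ * (v ⬝ᵥ p.1) := fun v =>
    continuous_const.mul (hP v)
  refine isOpen_iff_mem_nhds.2 fun p hp => ?_
  obtain ⟨a1, a2, a3, a4, a5, a6, ⟨a7, a8, a9⟩, b7, b8, b9⟩ := hp
  have e1 : ∀ᶠ r in 𝓝 p, ∀ l, l ≠ j → |u l ⬝ᵥ r.1| < u j ⬝ᵥ r.1 :=
    eventually_all.2 fun l => eventually_imp_distrib_left.2 fun hl =>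
      (hP (u l)).abs.continuousAt.eventually_lt (hP (u j)).continuousAt (a1 l hl)
  have e4 : ∀ᶠ r in 𝓝 p, ∀ l, l ≠ j' → |u l ⬝ᵥ r.2| < σ * (u j' ⬝ᵥ r.2) :=
    eventually_all.2 fun l => eventually_imp_distrib_left.2 fun hl =>
      (hQ (u l)).abs.continuousAt.eventually_lt (hQs (u j')).continuousAt (a4 l hl)
  have e9 : ∀ᶠ r in 𝓝 p, ∀ l, l ≠ j → l ≠ j' →
      |u l ⬝ᵥ r.1| < σ * (u j' ⬝ᵥ r.1) ∧ |u l ⬝ᵥ r.2| < u j ⬝ᵥ r.2 :=
    eventually_all.2 fun l => eventually_imp_distrib_left.2 fun hl =>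
      eventually_imp_distrib_left.2 fun hl' =>
      ((hP (u l)).abs.continuousAt.eventually_lt (hPs (u j')).continuousAt (a9 l hl hl').2).and
      ((hQ (u l)).abs.continuousAt.eventually_lt (hQ (u j)).continuousAt (b9 l hl hl').1)
  filter_upwards [e1, (hP (u j)).continuousAt.eventually_lt continuousAt_const a2,
    (hP (u j)).continuousAt.eventually_lt continuousAt_const a3, e4,
    (hQs (u j')).continuousAt.eventually_lt continuousAt_const a5,
    (hQs (u j')).continuousAt.eventually_lt continuousAt_const a6,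
    continuousAt_const.eventually_lt (hP (u j)).continuousAt a7,
    continuousAt_const.eventually_lt (hPs (u j')).continuousAt a8,
    continuousAt_const.eventually_lt (hQ (u j)).continuousAt b7,
    continuousAt_const.eventually_lt (hQs (u j')).continuousAt b8, e9]
    with r r1 r2 r3 r4 r5 r6 r7 r8 s7 s8 r9
  exact ⟨r1, r2, r3, r4, r5, r6, ⟨r7, r8, fun l hl hl' => ⟨r1 l hl, (r9 l hl hl').1⟩⟩,
    s7, s8, fun l hl hl' => ⟨(r9 l hl hl').2, r4 l hl'⟩⟩

/-- The test lines before perturbation. -/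
theorem exists_base (hu : Fam u) (hF : Full u 1) {j j' : Fin M} {σ : ℝ} (hjj : j ≠ j')
    (hσ : σ = 1 ∨ σ = -1) (hL : 0 < edgeW u 1 j j' σ) {ε : ℝ} (hε : 0 < ε) (hε1 : ε < 1) :
    ∃ (x y : V3) (T₀ T₁ η : ℝ), T₀ < T₁ ∧ 0 < η ∧ η < 1 / 4 ∧
      u j ⬝ᵥ x = 1 / 2 ∧ u j' ⬝ᵥ x = σ * (1 / 2 - η) ∧
      u j ⬝ᵥ y = 1 / 2 - η ∧ u j' ⬝ᵥ y = σ * (1 / 2) ∧
      (∀ t ∈ Icc T₀ T₁, ∀ l, l ≠ j → l ≠ j' →
        |u l ⬝ᵥ (x + t • crossProduct (u j) (u j'))| < 1 / 2 - η ∧
        |u l ⬝ᵥ (y + t • crossProduct (u j) (u j'))| < 1 / 2 - η) ∧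
      (1 - ε) * edgeW u 1 j j' σ * ((1 / 2) ^ 2 * (2 * η)) < (T₁ - T₀) * (η * (1 - η)) := by
  set c := crossProduct (u j) (u j') with hc
  set L := edgeW u 1 j j' σ with hLdef
  have hσ2 : σ * σ = 1 := by rcases hσ with rfl | rfl <;> norm_num
  set δ := ε / 6 with hδ
  -- almost all of the edge
  obtain ⟨s, hs, z, hz, hzs⟩ : ∃ s, (1 - δ) * L < s ∧
      ∃ z, z ∈ edge u 1 j j' σ ∧ z + s • c ∈ edge u 1 j j' σ := by
    have hne : {s : ℝ | ∃ x ∈ edge u 1 j j' σ,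
        x + s • crossProduct (u j) (u j') ∈ edge u 1 j j' σ}.Nonempty := by
      by_contra h
      have : L = 0 := by rw [hLdef, edgeW, not_nonempty_iff_eq_empty.1 h, Real.sSup_empty]
      linarith
    obtain ⟨s, ⟨x, hx, hxs⟩, hlt⟩ := exists_lt_of_lt_csSup hne
      (show (1 - δ) * L < L from mul_lt_of_lt_one_left hL (by linarith))
    exact ⟨s, hlt, x, hx, hxs⟩
  have hs0 : 0 < s := lt_trans (mul_pos (by linarith) hL) hs
  obtain ⟨b, hb⟩ : ∃ b : Bool, halves u (j', b) = σ • u j' := by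
    rcases hσ with rfl | rfl
    · exact ⟨true, by simp [halves]⟩
    · exact ⟨false, by simp [halves]⟩
  have hw : w (halves u) (j, true) (j', b) ≠ 0 := by
    rw [w, hb, map_smul]
    refine smul_ne_zero (fun h => ?_) (hu.indep j j' hjj)
    rw [h, mul_zero] at hσ2
    exact zero_ne_one hσ2
  obtain ⟨d1, d2, d3, d4, -, -⟩ := duals _ hw
  set p := -vb (halves u) (j, true) (j', b) with hp
  set q := -va (halves u) (j, true) (j', b) with hq
  have hup : u j ⬝ᵥ p = 0 := by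
    simp only [halves, if_true] at d3
    rw [hp, dotProduct_neg, d3, neg_zero]
  have huq : u j ⬝ᵥ q = -1 := by
    simp only [halves, if_true] at d1
    rw [hq, dotProduct_neg, d1]
  have hvp : σ * (u j' ⬝ᵥ p) = -1 := by
    rw [hb, smul_dotProduct, smul_eq_mul] at d4
    rw [hp, dotProduct_neg, mul_neg, d4]
  have hvq : σ * (u j' ⬝ᵥ q) = 0 := by
    rw [hb, smul_dotProduct, smul_eq_mul] at d2
    rw [hq, dotProduct_neg, mul_neg, d2, neg_zero]
  have huz : u j ⬝ᵥ z = 1 := hz.2.1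
  have hvz : σ * (u j' ⬝ᵥ z) = 1 := hz.2.2
  have huc : u j ⬝ᵥ c = 0 := dot_self_cross _ _
  have hvc : u j' ⬝ᵥ c = 0 := dot_cross_self _ _
  -- the values along a line with displacement `η r`
  have hval : ∀ (v r : V3) (η t : ℝ), v ⬝ᵥ ((1 / 2 : ℝ) • z + η • r + t • c)
      = (1 / 2) * (v ⬝ᵥ z) + η * (v ⬝ᵥ r) + t * (v ⬝ᵥ c) := fun v r η t => by
    simp only [dotProduct_add, dotProduct_smul, smul_eq_mul]
  set T := Icc (δ * s / 2) ((1 - δ) * s / 2)
  have hδ0 : 0 < δ := by rw [hδ]; linarith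
  -- a displacement below which the third facets stay away
  have hfar : ∀ r : V3, ∀ᶠ η in 𝓝 (0 : ℝ), ∀ t ∈ T, ∀ l, l ≠ j → l ≠ j' →
      |u l ⬝ᵥ ((1 / 2 : ℝ) • z + η • r + t • c)| < 1 / 2 - η := by
    intro r
    refine IsCompact.eventually_forall_of_forall_eventually isCompact_Icc fun t ht => ?_
    refine eventually_all.2 fun l => eventually_imp_distrib_left.2 fun hl =>
      eventually_imp_distrib_left.2 fun hl' => ?_
    have hin := interior_edge hu hF hjj hσ hz hzs (t := 2 * t) (by nlinarith [ht.1])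
      (by nlinarith [ht.2]) hl hl'
    refine ContinuousAt.eventually_lt ?_ ?_ ?_
    · exact ((dotL (u l)).continuous.comp (by fun_prop)).abs.continuousAt
    · exact (continuous_const.sub continuous_fst).continuousAt
    · simp only [dotProduct_add, dotProduct_smul, smul_eq_mul, sub_zero, zero_mul, add_zero] at hin ⊢
      rw [abs_lt] at hin ⊢
      constructor <;> linarith
  obtain ⟨η, hη0, hηε, hfp, hfq⟩ : ∃ η : ℝ, 0 < η ∧ η < ε / 4 ∧
      (∀ t ∈ T, ∀ l, l ≠ j → l ≠ j' → |u l ⬝ᵥ ((1 / 2 : ℝ) • z + η • p + t • c)| < 1 / 2 - η) ∧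
      ∀ t ∈ T, ∀ l, l ≠ j → l ≠ j' → |u l ⬝ᵥ ((1 / 2 : ℝ) • z + η • q + t • c)| < 1 / 2 - η := by
    obtain ⟨η, ⟨h1, h2, h3⟩, h4⟩ := ((((eventually_lt_nhds (show (0 : ℝ) < ε / 4 by linarith)).and
      ((hfar p).and (hfar q))).filter_mono nhdsWithin_le_nhds).and
      (self_mem_nhdsWithin : ∀ᶠ η in 𝓝[>] (0 : ℝ), η ∈ Ioi (0 : ℝ))).exists
    exact ⟨η, h4, h1, h2, h3⟩
  set x := (1 / 2 : ℝ) • z + η • p with hx
  set y := (1 / 2 : ℝ) • z + η • q with hy
  have hv' : u j' ⬝ᵥ x = σ * (1 / 2 - η) ∧ u j' ⬝ᵥ y = σ * (1 / 2) := by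
    simp only [hx, hy, dotProduct_add, dotProduct_smul, smul_eq_mul]
    constructor
    · linear_combination σ * ((1 / 2) * hvz + η * hvp)
        - ((1 / 2) * (u j' ⬝ᵥ z) + η * (u j' ⬝ᵥ p)) * hσ2
    · linear_combination σ * ((1 / 2) * hvz + η * hvq)
        - ((1 / 2) * (u j' ⬝ᵥ z) + η * (u j' ⬝ᵥ q)) * hσ2
  have hu' : u j ⬝ᵥ x = 1 / 2 ∧ u j ⬝ᵥ y = 1 / 2 - η := by
    simp only [hx, hy, dotProduct_add, dotProduct_smul, smul_eq_mul, huz, hup, huq]
    constructor <;> ring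
  refine ⟨x, y, δ * s / 2, (1 - δ) * s / 2, η, by nlinarith, hη0, by linarith, hu'.1, hv'.1, hu'.2,
    hv'.2, fun t ht l hl hl' => ⟨hfp t ht l hl hl', hfq t ht l hl hl'⟩, ?_⟩
  have h1 : (1 - ε) < (1 - 2 * δ) * (1 - δ) * (1 - η) := by
    have : 1 - 3 * δ ≤ (1 - 2 * δ) * (1 - δ) := by nlinarith
    have h2 : (1 - 3 * δ) * (1 - η) ≤ (1 - 2 * δ) * (1 - δ) * (1 - η) :=
      mul_le_mul_of_nonneg_right this (by linarith)
    nlinarith
  have h3 : (1 - ε) * (L * η) < (1 - 2 * δ) * (1 - δ) * (1 - η) * (L * η) :=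
    mul_lt_mul_of_pos_right h1 (mul_pos hL hη0)
  have h4 : (1 - 2 * δ) * ((1 - δ) * L) * ((1 - η) * η) ≤ (1 - 2 * δ) * s * ((1 - η) * η) :=
    mul_le_mul_of_nonneg_right (mul_le_mul_of_nonneg_left hs.le (by linarith))
      (mul_nonneg (by linarith) hη0.le)
  nlinarith

end Edge

open Edge

/-- Test lines along an edge. -/
theorem edge_of (_hC : CalcStatement) : EdgeStatement := by
  intro M u hu hF j j' σ hjj hσ hL ε hε hε1
  obtain ⟨x, y, T₀, T₁, η, hT, hη0, hη4, hux, hvx, huy, hvy, hfar, hB⟩ :=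
    exists_base hu hF hjj hσ hL hε hε1
  have hu' : u j ⬝ᵥ x = 1 / 2 ∧ u j ⬝ᵥ y = 1 / 2 - η := ⟨hux, huy⟩
  have hv' : u j' ⬝ᵥ x = σ * (1 / 2 - η) ∧ u j' ⬝ᵥ y = σ * (1 / 2) := ⟨hvx, hvy⟩
  set c := crossProduct (u j) (u j') with hc
  generalize edgeW u 1 j j' σ = L at hL hB ⊢
  have hσ2 : σ * σ = 1 := by rcases hσ with rfl | rfl <;> norm_num
  have huc : u j ⬝ᵥ c = 0 := dot_self_cross _ _
  have hvc : u j' ⬝ᵥ c = 0 := dot_cross_self _ _
  set T := Icc T₀ T₁
  have hfp : ∀ t ∈ T, ∀ l, l ≠ j → l ≠ j' → |u l ⬝ᵥ (x + t • c)| < 1 / 2 - η :=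
    fun t ht l hl hl' => (hfar t ht l hl hl').1
  have hfq : ∀ t ∈ T, ∀ l, l ≠ j → l ≠ j' → |u l ⬝ᵥ (y + t • c)| < 1 / 2 - η :=
    fun t ht l hl hl' => (hfar t ht l hl hl').2
  obtain ⟨κ, hκ0, hκ⟩ : ∃ κ : ℝ, 0 < κ ∧
      (1 - ε) * L * ((1 / 2 + κ) ^ 2 * (2 * η + κ)) < (T₁ - T₀) * (η * (1 - η)) := by
    have hcont : ContinuousAt (fun κ : ℝ => (1 - ε) * L * ((1 / 2 + κ) ^ 2 * (2 * η + κ))) 0 := by
      fun_prop
    obtain ⟨κ, h1, h2⟩ := (((hcont.eventually_lt continuousAt_const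
      (by simpa only [add_zero] using hB)).filter_mono nhdsWithin_le_nhds).and
      (self_mem_nhdsWithin : ∀ᶠ κ in 𝓝[>] (0 : ℝ), κ ∈ Ioi (0 : ℝ))).exists
    exact ⟨κ, h2, h1⟩
  set Γ := 1 / 2 + κ with hΓ
  set S := 2 * η + κ with hS'
  have hbase : ∀ t ∈ T, Good u j j' σ Γ (x + t • c) (y + t • c) := by
    intro t ht
    have e1 : u j ⬝ᵥ (x + t • c) = 1 / 2 := by
      rw [dotProduct_add, dotProduct_smul, huc, hu'.1, smul_zero, add_zero]
    have e2 : u j' ⬝ᵥ (x + t • c) = σ * (1 / 2 - η) := by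
      rw [dotProduct_add, dotProduct_smul, hvc, hv'.1, smul_zero, add_zero]
    have e3 : u j ⬝ᵥ (y + t • c) = 1 / 2 - η := by
      rw [dotProduct_add, dotProduct_smul, huc, hu'.2, smul_zero, add_zero]
    have e4 : u j' ⬝ᵥ (y + t • c) = σ * (1 / 2) := by
      rw [dotProduct_add, dotProduct_smul, hvc, hv'.2, smul_zero, add_zero]
    have e2' : σ * (u j' ⬝ᵥ (x + t • c)) = 1 / 2 - η := by rw [e2, ← mul_assoc, hσ2, one_mul]
    have e4' : σ * (u j' ⬝ᵥ (y + t • c)) = 1 / 2 := by rw [e4, ← mul_assoc, hσ2, one_mul]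
    have hsabs : |σ| = 1 := by rcases hσ with rfl | rfl <;> norm_num
    refine ⟨fun l hl => ?_, by linarith, by linarith, fun l hl => ?_, by linarith, by linarith,
      ⟨by linarith, by linarith, fun l hl hl' => ?_⟩, by linarith, by linarith, fun l hl hl' => ?_⟩
    · rcases eq_or_ne l j' with rfl | hl'
      · rw [e1, e2, abs_mul, hsabs, one_mul, abs_of_pos (by linarith)]
        linarith
      · exact e1.symm ▸ (hfp t ht l hl hl').trans_le (by linarith)
    · rcases eq_or_ne l j with rfl | hl'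
      · rw [e4', e3, abs_of_pos (by linarith)]
        linarith
      · exact e4'.symm ▸ (hfq t ht l hl' hl).trans_le (by linarith)
    · have h := hfp t ht l hl hl'
      rw [e1, e2']
      exact ⟨h.trans_le (by linarith), h⟩
    · have h := hfq t ht l hl hl'
      rw [e3, e4']
      exact ⟨h, h.trans_le (by linarith)⟩
  have hev : ∀ᶠ r in 𝓝 (x, y), ∀ t ∈ T, Good u j j' σ Γ (r.1 + t • c) (r.2 + t • c) := by
    refine IsCompact.eventually_forall_of_forall_eventually isCompact_Icc fun t ht => ?_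
    have hcont : Continuous fun z : (V3 × V3) × ℝ => (z.1.1 + z.2 • c, z.1.2 + z.2 • c) := by
      fun_prop
    exact ((isOpen_good u j j' σ Γ).preimage hcont).mem_nhds (hbase t ht)
  have hevS : ∀ᶠ r in 𝓝 (x, y), σ * (u j' ⬝ᵥ (r.2 - r.1)) - u j ⬝ᵥ (r.2 - r.1) < S := by
    refine ContinuousAt.eventually_lt (Continuous.continuousAt ?_) continuousAt_const ?_
    · exact (continuous_const.mul ((dotL (u j')).continuous.comp
        (continuous_snd.sub continuous_fst))).sub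
        ((dotL (u j)).continuous.comp (continuous_snd.sub continuous_fst))
    · simp only [dotProduct_sub, hu'.1, hu'.2, hv'.1, hv'.2]
      rw [show σ * (σ * (1 / 2) - σ * (1 / 2 - η)) = σ * σ * η by ring, hσ2]
      simp only [S]
      linarith
  have hevD : ∀ᶠ r in 𝓝 (x, y), (1 - ε) * L * (Γ ^ 2 * S)
      < (T₁ - T₀) * |c ⬝ᵥ crossProduct (r.2 - r.1) r.1| := by
    refine ContinuousAt.eventually_lt continuousAt_const (Continuous.continuousAt ?_) ?_
    · have : Continuous fun r : V3 × V3 => crossProduct (r.2 - r.1) r.1 := by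
        simp only [cross_apply]
        fun_prop
      exact continuous_const.mul ((dotL c).continuous.comp this).abs
    · refine hκ.trans_le (le_of_eq ?_)
      show (T₁ - T₀) * (η * (1 - η)) = _ * |c ⬝ᵥ crossProduct (y - x) x|
      have hd : c ⬝ᵥ crossProduct (y - x) x = -σ * (η * (1 - η)) := by
        rw [hc, cross_dot_cross, dotProduct_sub, dotProduct_sub, hu'.1, hu'.2, hv'.1, hv'.2]
        ring
      rw [hd, abs_mul, abs_neg, abs_of_pos (mul_pos hη0 (by linarith : 0 < 1 - η)),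
        show |σ| = 1 by rcases hσ with rfl | rfl <;> norm_num, one_mul]
  obtain ⟨ρ, hρ0, hρ⟩ := (Metric.nhds_basis_closedBall.eventually_iff).1 (hev.and (hevS.and hevD))
  refine ⟨x, y, T₀, T₁, ρ, Γ, S, hT, hρ0, by positivity, by positivity,
    fun x' hx' y' hy' => ?_⟩
  have hmem : (x', y') ∈ Metric.closedBall (x, y) ρ := by
    rw [Metric.mem_closedBall, Prod.dist_eq]
    exact max_le (Metric.mem_closedBall.1 hx') (Metric.mem_closedBall.1 hy')
  obtain ⟨hG, hS, hD⟩ := hρ hmem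
  exact ⟨hS, hD.le, fun t ht => hG t ht⟩

end

end Vale.Agent.P227.Lp
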