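import Vale.Agent.P227.Lp.Minkowski
import Vale.Agent.P227.Lp.Defs2

/-!
# P227: the energy, and maximisers for one configuration
-/

namespace Vale.Agent.P227.Lp

open MeasureTheory Set Filter Topology Matrix Function

noncomputable section

variable {N : ℕ} {ν : Fin N → V3}

theorem hess_nonneg (h2 : Calc2 ν) (hF : Full ν 1) {i j : Fin N} (hij : i ≠ j) :
    0 ≤ hess ν 1 i j := by
  rw [h2.hess_eq 1 hF i j hij]
  have h : ∀ σ : ℝ, 0 ≤ edgeW ν 1 i j σ := fun σ => by
    unfold edgeW
    set A := {s : ℝ | ∃ x ∈ edge ν 1 i j σ, x + s • crossProduct (ν i) (ν j) ∈ edge ν 1 i j σ}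
    by_cases hne : A.Nonempty
    · by_cases hb : BddAbove A
      · obtain ⟨s, x, hx, -⟩ := hne
        exact le_csSup hb ⟨x, hx, by simpa using hx⟩
      · simp [Real.sSup_of_not_bddAbove hb]
    · simp [Set.not_nonempty_iff_eq_empty.1 hne]
  linarith [h 1, h (-1)]

/-- The energy is the sum over pairs of facets of squared jumps weighted by the edges. -/
theorem energy_eq (h2 : Calc2 ν) (hF : Full ν 1) (φ : Fin N → ℝ) :
    energy ν φ = (∑ i, ∑ j ∈ Finset.univ.filter (i < ·), (φ i - φ j) ^ 2 *
      (edgeW ν 1 i j 1 + edgeW ν 1 i j (-1))) / (3 * vol ν 1) := by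
  set H := hess ν 1
  have hq : mean ν (fun i => φ i ^ 2) = (∑ i, ∑ j, H i j * φ i ^ 2) / (6 * vol ν 1) := by
    rw [Finset.sum_div]
    refine Finset.sum_congr rfl fun i _ => ?_
    have e := h2.euler 1 hF i
    simp only [Pi.one_apply, mul_one] at e
    rw [← Finset.sum_mul, e, mass]
    ring
  have key : ∑ i, ∑ j, H i j * φ i ^ 2 - ∑ i, ∑ j, H i j * φ i * φ j
      = ∑ i, ∑ j ∈ Finset.univ.filter (i < ·), H i j * (φ i - φ j) ^ 2 := by
    have hs : ∀ i j, H i j = H j i := h2.symm 1 hF
    have split : ∀ f : Fin N → Fin N → ℝ, (∀ i, f i i = 0) →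
        ∑ i, ∑ j, f i j = ∑ i, ∑ j ∈ Finset.univ.filter (i < ·), (f i j + f j i) := by
      intro f hf
      have e1 : ∀ i, ∑ j, f i j = ∑ j ∈ Finset.univ.filter (i < ·), f i j
          + ∑ j ∈ Finset.univ.filter (· < i), f i j := fun i => by
        have : ∀ j, f i j = (if i < j then f i j else 0) + (if j < i then f i j else 0) := fun j => by
          rcases lt_trichotomy i j with h | rfl | h
          · simp [h, h.asymm]
          · simp [hf]
          · simp [h, h.asymm]
        rw [Finset.sum_filter, Finset.sum_filter, ← Finset.sum_add_distrib]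
        exact Finset.sum_congr rfl fun j _ => this j
      simp only [e1, Finset.sum_add_distrib]
      congr 1
      simp only [Finset.sum_filter]
      exact Finset.sum_comm
    rw [← Finset.sum_sub_distrib]
    simp only [← Finset.sum_sub_distrib]
    rw [split _ fun i => by ring]
    exact Finset.sum_congr rfl fun i _ => Finset.sum_congr rfl fun j _ => by rw [hs j i]; ring
  rw [energy, hq, form, ← sub_div, key, Finset.sum_div, Finset.sum_div]
  refine Finset.sum_congr rfl fun i _ => ?_
  rw [Finset.sum_div, Finset.sum_div]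
  refine Finset.sum_congr rfl fun j hj => ?_
  rw [show H i j = 2 * (edgeW ν 1 i j 1 + edgeW ν 1 i j (-1)) from
    h2.hess_eq 1 hF i j (Finset.mem_filter.1 hj).2.ne]
  ring

theorem mean_add' (f g : Fin N → ℝ) : mean ν (f + g) = mean ν f + mean ν g := by
  simp [mean, mul_add, Finset.sum_add_distrib]

theorem mean_smul' (c : ℝ) (f : Fin N → ℝ) : mean ν (c • f) = c * mean ν f := by
  simp [mean, Finset.mul_sum, mul_left_comm]

theorem form_add_left (f g k : Fin N → ℝ) : form ν (f + g) k = form ν f k + form ν g k := by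
  simp [form, mul_add, add_mul, Finset.sum_add_distrib, add_div]

theorem form_add_right (f g k : Fin N → ℝ) : form ν k (f + g) = form ν k f + form ν k g := by
  simp [form, mul_add, Finset.sum_add_distrib, add_div]

theorem form_smul_left (c : ℝ) (f k : Fin N → ℝ) : form ν (c • f) k = c * form ν f k := by
  rw [form, form, ← mul_div_assoc, Finset.mul_sum]
  congr 1
  refine Finset.sum_congr rfl fun i _ => ?_
  rw [Finset.mul_sum]
  exact Finset.sum_congr rfl fun j _ => by simp; ring

theorem form_smul_right (c : ℝ) (f k : Fin N → ℝ) : form ν k (c • f) = c * form ν k f := by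
  rw [form, form, ← mul_div_assoc, Finset.mul_sum]
  congr 1
  refine Finset.sum_congr rfl fun i _ => ?_
  rw [Finset.mul_sum]
  exact Finset.sum_congr rfl fun j _ => by simp; ring

/-- Equality in the local inequality makes a maximiser. -/
theorem worst_of_eq (h1 : Calc1 ν) (h2 : Calc2 ν) (hF : Full ν 1) {s : ℝ} (hb : Bound s ν)
    {φ : Fin N → ℝ} (h0 : mean ν φ = 0) (h2m : mean ν (fun i => φ i ^ 2) = 1)
    (he : form ν φ φ = -s) : Worst ν φ s := by
  refine ⟨h0, h2m, fun e => ?_, fun e he0 => ?_⟩
  · set P := form ν φ e + s * mean ν (φ * e)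
    have key : ∀ t : ℝ, 0 ≤ t ^ 2 *
        ((1 + s) * mean ν e ^ 2 - form ν e e - s * mean ν (e ^ 2)) + (-2 * t) * P := fun t => by
      have := hb (φ + t • e)
      rw [show (fun i => (φ + t • e) i ^ 2) = (fun i => φ i ^ 2) + (2 * t) • (φ * e) + t ^ 2 • e ^ 2
        by funext i; simp; ring, mean_add', mean_add', mean_smul', mean_smul', mean_add',
        mean_smul', h0, h2m, form_add_left, form_add_right, form_add_right, form_smul_left,
        form_smul_left, form_smul_right, form_smul_right, form_comm h2 hF e φ, he] at this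
      simp only [P]
      linarith
    set Q := (1 + s) * mean ν e ^ 2 - form ν e e - s * mean ν (e ^ 2)
    have : P = 0 := by
      by_contra hP
      have h := key (P / (|Q| + 1))
      have hd : 0 < |Q| + 1 := by positivity
      rw [show (P / (|Q| + 1)) ^ 2 * Q + -2 * (P / (|Q| + 1)) * P
        = P ^ 2 / (|Q| + 1) * (Q / (|Q| + 1) - 2) by field_simp; ring] at h
      have : Q / (|Q| + 1) < 2 := by
        rw [div_lt_iff₀ hd]
        linarith [le_abs_self Q, abs_nonneg Q]
      exact absurd h (not_le.2 (mul_neg_of_pos_of_neg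
        (div_pos (pow_two_pos_of_ne_zero hP) hd) (by linarith)))
    simp only [P] at this
    linarith
  · have := hb e
    rw [he0] at this
    simp at this
    linarith

/-- A failing configuration has a maximiser. -/
theorem exists_worst (hcalc : CalcStatement) (hν : Fam ν) (hF : Full ν 1) {c : ℝ}
    (hc : ¬ Bound c ν) : ∃ φ s, Worst ν φ s ∧ 0 ≤ s ∧ s < c := by
  obtain ⟨h1, h2⟩ := hcalc N ν hν
  have hV := h1.vol_pos 1 hF.1
  have hm : ∀ i, 0 < mass ν i := fun i => div_pos (hF.2 i) (by positivity)
  -- the function centred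
  obtain ⟨f, hf⟩ := not_forall.1 hc
  rw [not_le] at hf
  set g : Fin N → ℝ := f + (-mean ν f) • 1
  have hg0 : mean ν g = 0 := by
    simp only [g, mean_add', mean_smul', mean_one h1 hF]
    ring
  have hgc : 0 < form ν g g + c * mean ν (fun i => g i ^ 2) := by
    rw [show (fun i => g i ^ 2) = (fun i => f i ^ 2) + (-2 * mean ν f) • f
      + (mean ν f ^ 2) • (1 : Fin N → ℝ) by funext i; simp [g]; ring, mean_add', mean_add',
      mean_smul', mean_smul', mean_one h1 hF]
    simp only [g, form_add_left, form_add_right, form_smul_left, form_smul_right,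
      form_comm h2 hF 1 f, form_one h2 hF, mean_add', mean_smul', mean_one h1 hF]
    linarith
  have hgq : 0 < mean ν (fun i => g i ^ 2) := by
    refine lt_of_le_of_ne (Finset.sum_nonneg fun i _ => mul_nonneg (hm i).le (sq_nonneg _)) fun h => ?_
    have : g = 0 := funext fun i => by
      have := (Finset.sum_eq_zero_iff_of_nonneg fun i _ => mul_nonneg (hm i).le (sq_nonneg (g i))).1
        h.symm i (Finset.mem_univ i)
      simpa using (mul_eq_zero.1 this).resolve_left (hm i).ne'
    rw [← h, this] at hgc
    simp [form] at hgc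
  set K : Set (Fin N → ℝ) := {e | mean ν e = 0 ∧ mean ν (fun i => e i ^ 2) = 1}
  have hK : IsCompact K := by
    refine (isCompact_univ_pi fun i : Fin N =>
      isCompact_Icc (a := -(√(mass ν i))⁻¹) (b := (√(mass ν i))⁻¹)).of_isClosed_subset ?_ ?_
    · refine (isClosed_eq ?_ continuous_const).inter (isClosed_eq ?_ continuous_const) <;>
        (unfold mean; fun_prop)
    · intro e he i _
      have h1le : mass ν i * e i ^ 2 ≤ 1 := he.2 ▸ Finset.single_le_sum
        (f := fun i => mass ν i * e i ^ 2) (fun i _ => mul_nonneg (hm i).le (sq_nonneg _))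
        (Finset.mem_univ i)
      refine abs_le.1 ?_
      rw [← Real.sqrt_sq_eq_abs, ← Real.sqrt_inv]
      exact Real.sqrt_le_sqrt (by rw [← one_div, le_div_iff₀ (hm i)]; linarith)
  set r := (√(mean ν fun i => g i ^ 2))⁻¹
  have hr2 : r ^ 2 * mean ν (fun i => g i ^ 2) = 1 := by
    simp only [r, inv_pow, Real.sq_sqrt hgq.le]
    exact inv_mul_cancel₀ hgq.ne'
  have hrK : r • g ∈ K := ⟨by rw [mean_smul', hg0, mul_zero], by
    rw [show (fun i => (r • g) i ^ 2) = r ^ 2 • (fun i => g i ^ 2) by funext i; simp; ring,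
      mean_smul', hr2]⟩
  obtain ⟨φ, hφK, hφmax⟩ := hK.exists_isMaxOn ⟨_, hrK⟩
    (f := fun e => form ν e e) (by unfold form; fun_prop)
  refine ⟨φ, -form ν φ φ, worst_of_eq h1 h2 hF (fun e => ?_) hφK.1 hφK.2 (by ring), ?_, ?_⟩
  · -- maximality, extended by homogeneity and shifts
    set μ := mean ν e
    set e₀ : Fin N → ℝ := e + (-μ) • 1
    have he₀ : mean ν e₀ = 0 := by
      simp only [e₀, mean_add', mean_smul', mean_one h1 hF]
      ring
    have hexp : form ν e₀ e₀ = form ν e e - μ ^ 2 := by
      simp only [e₀, form_add_left, form_add_right, form_smul_left, form_smul_right,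
        form_comm h2 hF 1 e, form_one h2 hF, mean_add', mean_smul', mean_one h1 hF]
      ring
    have hq : mean ν (fun i => e₀ i ^ 2) = mean ν (fun i => e i ^ 2) - μ ^ 2 := by
      rw [show (fun i => e₀ i ^ 2) = (fun i => e i ^ 2) + (-2 * μ) • e
        + (μ ^ 2) • (1 : Fin N → ℝ) by funext i; simp [e₀]; ring, mean_add', mean_add',
        mean_smul', mean_smul', mean_one h1 hF]
      ring
    have hmain : form ν e₀ e₀ ≤ form ν φ φ * mean ν (fun i => e₀ i ^ 2) := by
      have hnn : 0 ≤ mean ν fun i => e₀ i ^ 2 :=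
        Finset.sum_nonneg fun i _ => mul_nonneg (hm i).le (sq_nonneg (e₀ i))
      rcases hnn.eq_or_lt with h | h
      · have : e₀ = 0 := funext fun i => by
          have := (Finset.sum_eq_zero_iff_of_nonneg fun i _ =>
            mul_nonneg (hm i).le (sq_nonneg (e₀ i))).1 h.symm i (Finset.mem_univ i)
          simpa using (mul_eq_zero.1 this).resolve_left (hm i).ne'
        rw [← h, this]
        simp [form]
      · set w := (√(mean ν fun i => e₀ i ^ 2))⁻¹
        have hw2 : w ^ 2 * mean ν (fun i => e₀ i ^ 2) = 1 := by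
          simp only [w, inv_pow, Real.sq_sqrt h.le]
          exact inv_mul_cancel₀ h.ne'
        have hw : form ν (w • e₀) (w • e₀) ≤ form ν φ φ := isMaxOn_iff.1 hφmax (w • e₀)
          ⟨by rw [mean_smul', he₀, mul_zero], by
            rw [show (fun i => (w • e₀) i ^ 2) = w ^ 2 • (fun i => e₀ i ^ 2) by funext i; simp; ring,
              mean_smul', hw2]⟩
        rw [form_smul_left, form_smul_right, ← mul_assoc, ← sq] at hw
        calc form ν e₀ e₀
            = mean ν (fun i => e₀ i ^ 2) * (w ^ 2 * form ν e₀ e₀) := by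
              rw [← mul_assoc, mul_comm (mean ν _), hw2, one_mul]
          _ ≤ mean ν (fun i => e₀ i ^ 2) * form ν φ φ := mul_le_mul_of_nonneg_left hw h.le
          _ = _ := mul_comm _ _
    rw [hexp, hq] at hmain
    linarith
  · have := bound_zero hcalc hν hF φ
    rw [hφK.1] at this
    simp at this
    linarith
  · have h : form ν (r • g) (r • g) ≤ form ν φ φ := isMaxOn_iff.1 hφmax _ hrK
    rw [form_smul_left, form_smul_right, ← mul_assoc, ← sq] at h
    have := mul_pos (show 0 < r ^ 2 by
      exact pow_pos (inv_pos.2 (Real.sqrt_pos.2 hgq)) 2) hgc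
    rw [mul_add, mul_left_comm, hr2] at this
    linarith

end

end Vale.Agent.P227.Lp
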