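import Vale.Agent.P227.Lp.Germ

/-!
# P227: second-order expansion of the local functional along the test curve
-/

namespace Vale.Agent.P227.Lp

open MeasureTheory Set Filter Topology Matrix Function

noncomputable section

variable {ι : Type} [Fintype ι]

/-- The local functional of a form at the support numbers `h`. -/
def func (C : ι → ι → ι → ℝ) (s : ℝ) (g h : ι → ℝ) : ℝ :=
  tri C g g h + s * tri C (g ^ 2 / h) h h - (1 + s) * tri C g h h ^ 2 / tri C h h h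

/-- The first-order coefficient. -/
def coef₁ (C : ι → ι → ι → ℝ) (s : ℝ) (φ : ι → ℝ) : ℝ :=
  2 * (2 * s) * tri C φ (φ ^ 2) 1 + tri C φ φ φ
    + s * ((2 * (2 * s) - 1) * tri C (φ ^ 3) 1 1 + 2 * tri C (φ ^ 2) φ 1)

/-- The second-order coefficient. -/
def coef₂ (C : ι → ι → ι → ℝ) (s σ : ℝ) (φ : ι → ℝ) : ℝ :=
  (2 * s) ^ 2 * tri C (φ ^ 2) (φ ^ 2) 1 + (2 * (2 * s) + σ + s) * tri C (φ ^ 2) φ φ
    + s * (((2 * s) ^ 2 - σ - (2 * (2 * s) - 1)) * tri C (φ ^ 4) 1 1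
      + 2 * (2 * (2 * s) - 1) * tri C (φ ^ 3) φ 1 + 2 * σ * tri C (φ ^ 2) (φ ^ 2) 1)

theorem expand {C : ι → ι → ι → ℝ} (hC : SymC C) {s σ : ℝ} {φ : ι → ℝ}
    (hV : tri C 1 1 1 ≠ 0) (h0 : tri C φ 1 1 = 0) (hq : tri C (φ ^ 2) 1 1 = tri C 1 1 1)
    (hA : tri C φ φ 1 = -s * tri C 1 1 1) :
    ∃ M : ℝ → ℝ, ContinuousAt M 0 ∧ M 0 = coef₂ C s σ φ ∧
      ∀ᶠ t in 𝓝 (0 : ℝ), func C s (φ + (t * (2 * s)) • φ ^ 2) (1 + t • φ + (σ * t ^ 2) • φ ^ 2)
        = t * coef₁ C s φ + t ^ 2 * M t := by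
  set w : ℝ → ι → ℝ := fun t => φ + (σ * t) • φ ^ 2 with hw
  set h : ℝ → ι → ℝ := fun t => 1 + t • w t with hh
  set b : ι → ℝ := (2 * (2 * s) - 1) • φ ^ 3 with hb
  set u : ℝ → ι → ℝ := fun t i => ((2 * s) ^ 2 * φ i ^ 4 - b i * φ i - σ * φ i ^ 2 * φ i ^ 2
    - t * b i * σ * φ i ^ 2) / h t i with hu
  set X : ℝ → ℝ := fun t => 2 * σ * tri C φ (φ ^ 2) 1 + 2 * (2 * s) * tri C (φ ^ 2) (w t) 1
    + tri C φ (w t) (w t) + t * (2 * s) * tri C (φ ^ 2) (w t) (w t) with hX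
  set M : ℝ → ℝ := fun t => (2 * s) ^ 2 * tri C (φ ^ 2) (φ ^ 2) 1
      + 2 * (2 * s) * tri C φ (φ ^ 2) (w t) + σ * tri C φ φ (φ ^ 2)
      + t * (2 * s) ^ 2 * tri C (φ ^ 2) (φ ^ 2) (w t)
      + s * (tri C (u t) 1 1 + 2 * tri C b (w t) 1 + tri C (φ ^ 2) (w t) (w t)
        + 2 * σ * tri C (φ ^ 2) (φ ^ 2) 1
        + t * (2 * tri C (u t) (w t) 1 + tri C b (w t) (w t)) + t ^ 2 * tri C (u t) (w t) (w t))
      - (1 + s) * t ^ 2 * X t ^ 2 / tri C (h t) (h t) (h t) with hM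
  have hwc : ContinuousAt w 0 := by rw [hw]; fun_prop
  have hhc : ContinuousAt h 0 := by rw [hh]; exact continuousAt_const.add (continuousAt_id.smul hwc)
  have h00 : h 0 = 1 := by simp [hh]
  have hw0 : w 0 = φ := by simp [hw]
  have huc : ContinuousAt u 0 := by
    refine continuousAt_pi.2 fun i => ContinuousAt.div (by fun_prop) (continuousAt_pi.1 hhc i) ?_
    simp [h00]
  have hXc : ContinuousAt X 0 :=
    ((continuousAt_const.add (continuousAt_const.mul (tri_continuousAt C continuousAt_const hwc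
      continuousAt_const))).add (tri_continuousAt C continuousAt_const hwc hwc)).add
      ((continuousAt_id.mul continuousAt_const).mul (tri_continuousAt C continuousAt_const hwc hwc))
  have hMc : ContinuousAt M 0 := by
    have c1 := tri_continuousAt C (continuousAt_const (y := φ)) (continuousAt_const (y := φ ^ 2)) hwc
    have c2 := tri_continuousAt C (continuousAt_const (y := φ ^ 2))
      (continuousAt_const (y := φ ^ 2)) hwc
    have c3 := tri_continuousAt C huc (continuousAt_const (y := (1 : ι → ℝ)))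
      (continuousAt_const (y := (1 : ι → ℝ)))
    have c4 := tri_continuousAt C (continuousAt_const (y := b)) hwc
      (continuousAt_const (y := (1 : ι → ℝ)))
    have c5 := tri_continuousAt C (continuousAt_const (y := φ ^ 2)) hwc hwc
    have c6 := tri_continuousAt C huc hwc (continuousAt_const (y := (1 : ι → ℝ)))
    have c7 := tri_continuousAt C (continuousAt_const (y := b)) hwc hwc
    have c8 := tri_continuousAt C huc hwc hwc
    have c9 := tri_continuousAt C hhc hhc hhc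
    rw [hM]
    refine ContinuousAt.sub (by fun_prop) (ContinuousAt.div (by fun_prop) c9 ?_)
    rw [h00]
    exact hV
  refine ⟨M, hMc, ?_, ?_⟩
  · have e1 : tri C φ (φ ^ 2) φ = tri C (φ ^ 2) φ φ := hC.swap₁ φ (φ ^ 2) φ
    have e2 : tri C φ φ (φ ^ 2) = tri C (φ ^ 2) φ φ := by rw [hC.swap₂ φ φ (φ ^ 2), e1]
    have e3 : u 0 = ((2 * s) ^ 2 - σ - (2 * (2 * s) - 1)) • φ ^ 4 := by
      funext i
      simp only [hu, h00, hb, Pi.smul_apply, Pi.pow_apply, Pi.one_apply, smul_eq_mul]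
      ring
    simp only [hM, hw0, e3, e1, e2, hb, tri_smul₁, coef₂]
    ring
  · have hpos : ∀ᶠ t in 𝓝 (0 : ℝ), ∀ i, h t i ≠ 0 := eventually_all.2 fun i =>
      (continuousAt_pi.1 hhc i).eventually_ne (by simp [h00])
    filter_upwards [hpos] with t ht
    have eh : (1 : ι → ℝ) + t • φ + (σ * t ^ 2) • φ ^ 2 = h t := by
      simp only [hh, hw, smul_add, smul_smul, add_assoc]
      congr 3
      ring
    have ef : (φ + (t * (2 * s)) • φ ^ 2) ^ 2 / h t = φ ^ 2 + t • b + (t ^ 2) • u t := by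
      funext i
      have := ht i
      simp only [Pi.div_apply, Pi.pow_apply, Pi.add_apply, Pi.smul_apply, smul_eq_mul, hu, hb]
      field_simp
      simp only [hh, hw, Pi.add_apply, Pi.smul_apply, Pi.pow_apply, Pi.one_apply, smul_eq_mul]
      ring
    have s1 : ∀ a c, tri C a c φ = tri C a φ c := fun a c => hC.swap₂ a c φ
    have eg : tri C (φ + (t * (2 * s)) • φ ^ 2) (h t) (h t) = t ^ 2 * X t := by
      have e4 : tri C φ 1 (w t) = tri C φ (w t) 1 := hC.swap₂ _ _ _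
      have e5 : tri C (φ ^ 2) 1 (w t) = tri C (φ ^ 2) (w t) 1 := hC.swap₂ _ _ _
      have e6 : tri C φ (w t) 1 = tri C φ φ 1 + σ * t * tri C φ (φ ^ 2) 1 := by
        simp only [hw, tri_add₂, tri_smul₂]
      simp only [hh, tri_add₁, tri_add₂, tri_add₃, tri_smul₁, tri_smul₂, tri_smul₃, e4, e5, hX, h0]
      rw [e6, hA, hq]
      ring
    have egg : tri C (φ + (t * (2 * s)) • φ ^ 2) (φ + (t * (2 * s)) • φ ^ 2) (h t)
        = tri C φ φ 1 + t * (2 * (2 * s) * tri C φ (φ ^ 2) 1 + tri C φ φ φ)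
          + t ^ 2 * ((2 * s) ^ 2 * tri C (φ ^ 2) (φ ^ 2) 1
            + 2 * (2 * s) * tri C φ (φ ^ 2) (w t) + σ * tri C φ φ (φ ^ 2)
            + t * (2 * s) ^ 2 * tri C (φ ^ 2) (φ ^ 2) (w t)) := by
      have e4 : ∀ c, tri C (φ ^ 2) φ c = tri C φ (φ ^ 2) c := fun c => hC.swap₁ _ _ _
      have e6 : tri C φ φ (w t) = tri C φ φ φ + σ * t * tri C φ φ (φ ^ 2) := by
        simp only [hw, tri_add₃, tri_smul₃]
      simp only [hh, tri_add₁, tri_add₂, tri_add₃, tri_smul₁, tri_smul₂, tri_smul₃, e4]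
      rw [e6]
      ring
    have efh : tri C (φ ^ 2 + t • b + (t ^ 2) • u t) (h t) (h t)
        = tri C (φ ^ 2) 1 1 + t * (tri C b 1 1 + 2 * tri C (φ ^ 2) φ 1)
          + t ^ 2 * (tri C (u t) 1 1 + 2 * tri C b (w t) 1 + tri C (φ ^ 2) (w t) (w t)
            + 2 * σ * tri C (φ ^ 2) (φ ^ 2) 1
            + t * (2 * tri C (u t) (w t) 1 + tri C b (w t) (w t))
            + t ^ 2 * tri C (u t) (w t) (w t)) := by
      have e4 : ∀ a, tri C a 1 (w t) = tri C a (w t) 1 := fun a => hC.swap₂ _ _ _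
      have e6 : tri C (φ ^ 2) (w t) 1 = tri C (φ ^ 2) φ 1 + σ * t * tri C (φ ^ 2) (φ ^ 2) 1 := by
        simp only [hw, tri_add₂, tri_smul₂]
      simp only [hh, tri_add₁, tri_add₂, tri_add₃, tri_smul₁, tri_smul₂, tri_smul₃, e4]
      rw [e6]
      ring
    rw [eh, func, ef, eg, egg, efh, hA, hq, hM, coef₁, hb, tri_smul₁]
    ring

end

end Vale.Agent.P227.Lp
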