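import Vale.Agent.P227.Statement

/-!
# P227: the notions of the `L_p` statement
-/

namespace Vale.Agent.P227

open MeasureTheory Set
open scoped RealInnerProductSpace

noncomputable section

/-- The `L_p` combination `(1 - l) K +_p l L`: the Wulff body of the `p`-th power mean of the
support functions over unit vectors. -/
def lpSum {n : ℕ} (p l : ℝ) (K L : Set (Space n)) : Set (Space n) :=
  {x | ∀ u : Space n, ‖u‖ = 1 →
    ⟪u, x⟫ ≤ ((1 - l) * supportFn K u ^ p + l * supportFn L u ^ p) ^ (1 / p)}

/-- The `L_p`-Brunn–Minkowski inequality for `K`, `L` and `l`. -/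
def LpBMAt {n : ℕ} (p l : ℝ) (K L : Set (Space n)) : Prop :=
  (1 - l) * (volume K).toReal ^ (p / n) + l * (volume L).toReal ^ (p / n)
    ≤ (volume (lpSum p l K L)).toReal ^ (p / n)

/-- The target of the hand-in. -/
def LpStatement : Prop :=
  ∀ p : ℝ, 0 < p → p ≤ 1 → ∀ K L : Set (Space 3), SymmBody K → SymmBody L →
    ∀ l ∈ Icc (0 : ℝ) 1, LpBMAt p l K L

end

end Vale.Agent.P227
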