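import Vale.Agent.P227.Lp.Scale
import Vale.Agent.P227.Lp.Statement

/-!
# P227: from the local inequality on symmetric polytopes to the `L_p` inequality for bodies

Along a `p`-mean curve of support numbers the power `p / 3` of the volume has, near every time, an
upper support with nonpositive second derivative (forget the absent facets), so it is concave. Finitely
many directions then decrease to the Wulff body.
-/

namespace Vale.Agent.P227

open MeasureTheory Set Filter Topology Matrix Function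
open scoped RealInnerProductSpace

noncomputable section

namespace Lp

/-- A function with an upper affine support near every interior point lies above its chord. -/
theorem chord_le_of_support {f : ℝ → ℝ} (hf : ContinuousOn f (Icc 0 1))
    (h : ∀ t ∈ Ioo (0 : ℝ) 1, ∃ c, ∀ᶠ s in 𝓝 t, f s ≤ f t + c * (s - t)) {l : ℝ}
    (hl : l ∈ Icc (0 : ℝ) 1) : (1 - l) * f 0 + l * f 1 ≤ f l := by
  set g : ℝ → ℝ := fun t => f t - ((1 - t) * f 0 + t * f 1) with hg
  have hgc : ContinuousOn g (Icc 0 1) := hf.sub (by fun_prop)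
  obtain ⟨a, ha, hmin⟩ := isCompact_Icc.exists_isMinOn (nonempty_Icc.2 zero_le_one) hgc
  suffices 0 ≤ g a by
    have := this.trans (hmin hl)
    simp only [hg] at this ⊢
    linarith
  by_contra hneg
  push Not at hneg
  set S := Icc (0 : ℝ) 1 ∩ g ⁻¹' {g a}
  have hS : IsCompact S :=
    isCompact_Icc.of_isClosed_subset (hgc.preimage_isClosed_of_isClosed isClosed_Icc isClosed_singleton)
      inter_subset_left
  obtain ⟨t, ⟨ht, hgt⟩, htop⟩ := hS.exists_isGreatest ⟨a, ha, rfl⟩
  have hgt : g t = g a := hgt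
  have g0 : g 0 = 0 := by simp [hg]
  have g1 : g 1 = 0 := by simp [hg]
  have ht' : t ∈ Ioo (0 : ℝ) 1 := by
    refine ⟨lt_of_le_of_ne ht.1 fun e => ?_, lt_of_le_of_ne ht.2 fun e => ?_⟩
    · rw [← e] at hgt; linarith
    · rw [e] at hgt; linarith
  obtain ⟨c, hc⟩ := h t ht'
  set c' := c + f 0 - f 1
  have hev : ∀ᶠ s in 𝓝 t, s ∈ Icc (0 : ℝ) 1 ∧ g s ≤ g t + c' * (s - t) := by
    filter_upwards [hc, Ioo_mem_nhds ht'.1 ht'.2] with s hs hsI
    refine ⟨Ioo_subset_Icc_self hsI, ?_⟩
    simp only [hg, c']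
    linarith
  obtain ⟨e, he, hball⟩ := Metric.eventually_nhds_iff.1 hev
  obtain ⟨h1, h1'⟩ := @hball (t + e / 2) (by rw [Real.dist_eq, abs_lt]; constructor <;> linarith)
  obtain ⟨h2, h2'⟩ := @hball (t - e / 2) (by rw [Real.dist_eq, abs_lt]; constructor <;> linarith)
  have m1 : g a ≤ g (t + e / 2) := hmin h1
  have m2 : g a ≤ g (t - e / 2) := hmin h2
  have hc0 : 0 ≤ c' := nonneg_of_mul_nonneg_left
    (show 0 ≤ c' * (e / 2) by nlinarith) (by positivity)
  have hc0' : c' ≤ 0 := by nlinarith
  have hmem : t + e / 2 ∈ S := ⟨h1, show g (t + e / 2) = g a by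
    refine le_antisymm ?_ m1
    rw [le_antisymm hc0' hc0] at h1'
    linarith⟩
  have := htop hmem
  linarith

variable {ι : Type} [Fintype ι] [DecidableEq ι] {ν : ι → V3}

theorem mean_sq_le (hC : Calc1 ν) (f : ι → ℝ) : mean ν f ^ 2 ≤ mean ν fun i => f i ^ 2 := by
  have h1 : ∀ i : ι, (0 : ℝ) < (1 : ι → ℝ) i := fun _ => one_pos
  have hV := hC.vol_pos 1 h1
  have hm : ∀ i, 0 ≤ mass ν i := fun i => div_nonneg (hC.grad_nonneg 1 h1 i) (by positivity)
  have hs : ∑ i, mass ν i = 1 := by
    have := hC.euler 1 h1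
    simp only [Pi.one_apply, one_mul] at this
    simp only [mass]
    rw [← Finset.sum_div, this, div_self (by positivity)]
  have h := Finset.sum_sq_le_sum_mul_sum_of_sq_le_mul (s := Finset.univ)
    (r := fun i => mass ν i * f i) (f := mass ν) (g := fun i => mass ν i * f i ^ 2)
    (fun i _ => hm i) (fun i _ => mul_nonneg (hm i) (sq_nonneg _)) fun i _ => le_of_eq (by ring)
  rwa [hs, one_mul] at h

theorem bound_of_half (hC : Calc1 ν) (h : Bound (1 / 2) ν) {c : ℝ} (hc : c ≤ 1 / 2) :
    Bound c ν := fun f => by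
  nlinarith [h f, mean_sq_le hC f]

/-- The `p`-mean curve of support numbers. -/
def pcurve (p : ℝ) (a b : ι → ℝ) (t : ℝ) : ι → ℝ :=
  fun i => ((1 - t) * a i ^ p + t * b i ^ p) ^ (1 / p)

omit [Fintype ι] [DecidableEq ι] in
theorem pcurve_base_pos {p : ℝ} {a b : ι → ℝ} (ha : ∀ i, 0 < a i) (hb : ∀ i, 0 < b i) {t : ℝ}
    (ht : t ∈ Icc (0 : ℝ) 1) (i : ι) : 0 < (1 - t) * a i ^ p + t * b i ^ p := by
  have := Real.rpow_pos_of_pos (ha i) p
  have := Real.rpow_pos_of_pos (hb i) p
  rcases eq_or_lt_of_le ht.1 with rfl | h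
  · simpa
  · exact add_pos_of_nonneg_of_pos (mul_nonneg (by linarith [ht.2]) (by positivity)) (by positivity)

/-- Near a time with all facets present the power of the volume is below its tangent. -/
theorem tangent_le {N : ℕ} {ν : Fin N → V3} (hν : Fam ν) (hC : CalcStatement)
    (hL : LocalStatement) {p : ℝ} (hp0 : 0 < p) (hp1 : p ≤ 1) {a b : Fin N → ℝ}
    (ha : ∀ i, 0 < a i) (hb : ∀ i, 0 < b i) {t₀ : ℝ} (ht₀ : t₀ ∈ Ioo (0 : ℝ) 1)
    (hfull : Full ν (pcurve p a b t₀)) :
    ∃ c, ∀ᶠ t in 𝓝 t₀, vol ν (pcurve p a b t) ^ (p / 3)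
      ≤ vol ν (pcurve p a b t₀) ^ (p / 3) + c * (t - t₀) := by
  obtain ⟨h1, h2⟩ := hC N ν hν
  set q := 1 / p with hqdef
  have hq : 1 ≤ q := by rw [hqdef, le_div_iff₀ hp0]; linarith
  set M : ℝ → Fin N → ℝ := fun t i => (1 - t) * a i ^ p + t * b i ^ p
  set D : Fin N → ℝ := fun i => b i ^ p - a i ^ p
  set d1 : ℝ → Fin N → ℝ := fun t i => D i * q * M t i ^ (q - 1)
  set d2 : ℝ → Fin N → ℝ := fun t i => D i * q * (D i * (q - 1) * M t i ^ (q - 1 - 1))
  set H := fun t => pcurve p a b t with hH
  have hM : ∀ t i, HasDerivAt (fun t => M t i) (D i) t := fun t i => by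
    have := ((((hasDerivAt_id t).const_sub 1).mul_const (a i ^ p))).add
      ((hasDerivAt_id t).mul_const (b i ^ p))
    exact this.congr_deriv (by simp only [D]; ring)
  have hH1 : ∀ t, HasDerivAt H (d1 t) t := fun t =>
    hasDerivAt_pi.2 fun i => (hM t i).rpow_const (Or.inr hq)
  have hHc : Continuous H := continuous_iff_continuousAt.2 fun t => (hH1 t).continuousAt
  -- a neighbourhood on which everything is smooth
  have hev : ∀ᶠ t in 𝓝 t₀, t ∈ Ioo (0 : ℝ) 1 ∧ Full ν (H t) :=
    (show ∀ᶠ t in 𝓝 t₀, t ∈ Ioo (0 : ℝ) 1 from Ioo_mem_nhds ht₀.1 ht₀.2).and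
      (hHc.continuousAt.eventually (h2.isOpen.mem_nhds hfull))
  obtain ⟨e, he, hball⟩ := Metric.eventually_nhds_iff.1 hev
  set r := p / 3 with hr
  have hr0 : 0 < r := by positivity
  set V := fun t => vol ν (H t)
  set V1 := fun t => ∑ i, grad ν (H t) i * d1 t i
  set G1 := fun t => V1 t * r * V t ^ (r - 1)
  have key : ∀ t, dist t t₀ < e → HasDerivAt (fun t => V t ^ r) (G1 t) t ∧
      ∃ G2 ≤ 0, HasDerivAt G1 G2 t := by
    intro t ht
    obtain ⟨htI, htF⟩ := hball ht
    have hVpos : 0 < V t := h1.vol_pos _ htF.1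
    have hMpos : ∀ i, 0 < M t i := fun i => pcurve_base_pos ha hb (Ioo_subset_Icc_self htI) i
    have hV1 : HasDerivAt V (V1 t) t :=
      ((h1.hasFDeriv _ htF.1).comp_hasDerivAt t (hH1 t)).congr_deriv (by simp [V1])
    refine ⟨hV1.rpow_const (Or.inl hVpos.ne'), ?_⟩
    have hgr : ∀ i, HasDerivAt (fun t => grad ν (H t) i) (∑ j, hess ν (H t) i j * d1 t j) t :=
      fun i => ((h2.hasFDeriv _ htF i).comp_hasDerivAt t (hH1 t)).congr_deriv (by simp)
    have hd : ∀ i, HasDerivAt (fun t => d1 t i) (d2 t i) t := fun i =>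
      ((hM t i).rpow_const (Or.inl (hMpos i).ne')).const_mul (D i * q)
    have hV2 : HasDerivAt V1
        (∑ i, ((∑ j, hess ν (H t) i j * d1 t j) * d1 t i + grad ν (H t) i * d2 t i)) t :=
      HasDerivAt.fun_sum fun i _ => (hgr i).mul (hd i)
    refine ⟨_, ?_, (hV2.mul_const r).mul (hV1.rpow_const (Or.inl hVpos.ne'))⟩
    have hd2 : ∀ i, d2 t i = (1 - p) * (d1 t i ^ 2 / H t i) := fun i => by
      have e1 : H t i = M t i ^ q := rfl
      simp only [d2, d1]
      rw [e1, show q - 1 - 1 = (q - 1) + (q - 1) - q by ring, Real.rpow_sub (hMpos i),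
        Real.rpow_add (hMpos i)]
      have : M t i ^ q ≠ 0 := (Real.rpow_pos_of_pos (hMpos i) q).ne'
      have hpq : q * (1 - p) = q - 1 := by rw [hqdef]; field_simp
      field_simp
      rw [← hpq]
      ring
    have hB : Bound ((1 - p) / 2) (scale ν (H t)) := by
      have hC1' := (hC N _ (fam_scale hν htF.1)).1
      exact bound_of_half hC1' (hL N _ (fam_scale hν htF.1) (full_scale ν htF)) (by linarith)
    have hb' := bound_at htF.1 hVpos hB (d1 t)
    simp only [hd2, Finset.sum_add_distrib]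
    rw [show ∑ i, (∑ j, hess ν (H t) i j * d1 t j) * d1 t i
        = ∑ i, ∑ j, hess ν (H t) i j * d1 t i * d1 t j from Finset.sum_congr rfl fun i _ => by
      rw [Finset.sum_mul]; exact Finset.sum_congr rfl fun j _ => by ring]
    rw [show ∑ i, grad ν (H t) i * ((1 - p) * (d1 t i ^ 2 / H t i))
        = (1 - p) * ∑ i, grad ν (H t) i * (d1 t i ^ 2 / H t i) by
      rw [Finset.mul_sum]; exact Finset.sum_congr rfl fun i _ => by ring]
    change _ + V1 t * r * (V1 t * (r - 1) * V t ^ (r - 1 - 1)) ≤ 0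
    change _ + _ * _ - _ * (V1 t / 3) ^ 2 / V t ≤ 0 at hb'
    generalize (∑ i, ∑ j, hess ν (H t) i j * d1 t i * d1 t j) = A at hb' ⊢
    generalize (∑ i, grad ν (H t) i * (d1 t i ^ 2 / H t i)) = B at hb' ⊢
    generalize V1 t = W at hb' ⊢
    rw [show V t ^ (r - 1) = V t ^ (r - 1 - 1) * V t by
      rw [← Real.rpow_add_one hVpos.ne']; ring_nf]
    have hP := Real.rpow_pos_of_pos hVpos (r - 1 - 1)
    have h6 : (A + (1 - p) * B) * V t + W ^ 2 * (r - 1) ≤ 0 := by
      have h5 := mul_nonpos_of_nonpos_of_nonneg hb' hVpos.le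
      rw [sub_mul, div_mul_cancel₀ _ hVpos.ne'] at h5
      simp only [hr]
      nlinarith
    calc (A + (1 - p) * B) * r * (V t ^ (r - 1 - 1) * V t) + W * r * (W * (r - 1) * V t ^ (r - 1 - 1))
        = r * V t ^ (r - 1 - 1) * ((A + (1 - p) * B) * V t + W ^ 2 * (r - 1)) := by ring
      _ ≤ 0 := mul_nonpos_of_nonneg_of_nonpos (by positivity) h6
  refine ⟨G1 t₀, Metric.eventually_nhds_iff.2 ⟨e, he, fun t ht => ?_⟩⟩
  have hanti : AntitoneOn G1 (Metric.ball t₀ e) := by
    refine antitoneOn_of_deriv_nonpos (convex_ball t₀ e)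
      (fun s hs => (key s hs).2.choose_spec.2.continuousAt.continuousWithinAt) (fun s hs => ?_) fun s hs => ?_
    · rw [Metric.isOpen_ball.interior_eq] at hs
      exact (key s hs).2.choose_spec.2.differentiableAt.differentiableWithinAt
    · rw [Metric.isOpen_ball.interior_eq] at hs
      rw [(key s hs).2.choose_spec.2.deriv]
      exact (key s hs).2.choose_spec.1
  have hbt : t ∈ Metric.ball t₀ e := ht
  have hb0 : t₀ ∈ Metric.ball t₀ e := Metric.mem_ball_self he
  rcases lt_trichotomy t t₀ with hlt | rfl | hlt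
  · have hsub : Icc t t₀ ⊆ Metric.ball t₀ e := (convex_ball t₀ e).ordConnected.out hbt hb0
    obtain ⟨c, hc, hcs⟩ := exists_hasDerivAt_eq_slope (fun t => V t ^ r) G1 hlt
      (fun s hs => (key s (hsub hs)).1.continuousAt.continuousWithinAt)
      fun s hs => (key s (hsub (Ioo_subset_Icc_self hs))).1
    have := hanti (hsub (Ioo_subset_Icc_self hc)) hb0 hc.2.le
    rw [hcs, le_div_iff₀ (by linarith)] at this
    change V t ^ r ≤ V t₀ ^ r + G1 t₀ * (t - t₀)
    linarith
  · simp
  · have hsub : Icc t₀ t ⊆ Metric.ball t₀ e := (convex_ball t₀ e).ordConnected.out hb0 hbt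
    obtain ⟨c, hc, hcs⟩ := exists_hasDerivAt_eq_slope (fun t => V t ^ r) G1 hlt
      (fun s hs => (key s (hsub hs)).1.continuousAt.continuousWithinAt)
      fun s hs => (key s (hsub (Ioo_subset_Icc_self hs))).1
    have := hanti hb0 (hsub (Ioo_subset_Icc_self hc)) hc.1.le
    rw [hcs, div_le_iff₀ (by linarith)] at this
    change V t ^ r ≤ V t₀ ^ r + G1 t₀ * (t - t₀)
    linarith

/-- The `L_p` inequality for the polytopes with given directions. -/
theorem vol_pcurve_le (hC : CalcStatement) (hL : LocalStatement) {N : ℕ} {ν : Fin N → V3}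
    (hν : Fam ν) {p : ℝ} (hp0 : 0 < p) (hp1 : p ≤ 1) {a b : Fin N → ℝ} (ha : ∀ i, 0 < a i)
    (hb : ∀ i, 0 < b i) {l : ℝ} (hl : l ∈ Icc (0 : ℝ) 1) :
    (1 - l) * vol ν a ^ (p / 3) + l * vol ν b ^ (p / 3) ≤ vol ν (pcurve p a b l) ^ (p / 3) := by
  obtain ⟨h1, -⟩ := hC N ν hν
  have hpos : ∀ t ∈ Icc (0 : ℝ) 1, ∀ i, 0 < pcurve p a b t i := fun t ht i =>
    Real.rpow_pos_of_pos (pcurve_base_pos ha hb ht i) _
  have hcont : Continuous (pcurve p a b) := continuous_pi fun i =>
    (show Continuous fun t : ℝ => (1 - t) * a i ^ p + t * b i ^ p by fun_prop).rpow_const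
      fun _ => Or.inr (by positivity)
  have h0 : pcurve p a b 0 = a := funext fun i => by
    simp [pcurve, ← Real.rpow_mul (ha i).le, hp0.ne']
  have h1' : pcurve p a b 1 = b := funext fun i => by
    simp [pcurve, ← Real.rpow_mul (hb i).le, hp0.ne']
  have key := chord_le_of_support (f := fun t => vol ν (pcurve p a b t) ^ (p / 3)) (l := l)
    ((h1.vol_continuous.comp hcont.continuousOn fun t ht i => (hpos t ht i).le).rpow_const
      fun _ _ => Or.inr (by positivity)) (fun t₀ ht₀ => ?_) hl
  · simpa [h0, h1'] using key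
  set h₀ := pcurve p a b t₀
  have hh₀ : ∀ i, 0 < h₀ i := hpos t₀ (Ioo_subset_Icc_self ht₀)
  -- forget the absent facets
  set e := (Fintype.equivFin {i : Fin N // 0 < grad ν h₀ i}).symm
  set η : Fin (Fintype.card {i : Fin N // 0 < grad ν h₀ i}) → Fin N := fun k => (e k).1
  have hη : Injective η := Subtype.val_injective.comp e.injective
  have hdrop : body (ν ∘ η) (h₀ ∘ η) = body ν h₀ := by
    rw [h1.drop h₀ hh₀]
    ext x
    refine ⟨fun hx i hi => ?_, fun hx k => hx _ (e k).2⟩
    have := hx (e.symm ⟨i, hi⟩)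
    simpa [η] using this
  have hν' : Fam (ν ∘ η) :=
    { ne_zero := fun k => hν.ne_zero _
      indep := fun j k hjk => hν.indep _ _ fun h => hjk (hη h)
      span := fun x hx => hν.span x fun i => by
        by_contra hne
        have hmem : (2 * h₀ i / (ν i ⬝ᵥ x)) • x ∈ body (ν ∘ η) (h₀ ∘ η) := fun k => by
          simp only [dotProduct_smul, hx k, smul_zero, abs_zero]
          exact (hh₀ _).le
        rw [hdrop] at hmem
        have := hmem i
        rw [dotProduct_smul, smul_eq_mul, div_mul_cancel₀ _ hne,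
          abs_of_pos (by linarith [hh₀ i])] at this
        linarith [hh₀ i] }
  obtain ⟨k1, -⟩ := hC _ (ν ∘ η) hν'
  have hle : ∀ h : Fin N → ℝ, vol ν h ≤ vol (ν ∘ η) (h ∘ η) := fun h =>
    ENNReal.toReal_mono (k1.compact _).measure_lt_top.ne (measure_mono fun x hx k => hx _)
  have heq : vol (ν ∘ η) (h₀ ∘ η) = vol ν h₀ := by rw [vol, hdrop]; rfl
  have hgrad : ∀ k, grad (ν ∘ η) (h₀ ∘ η) k = grad ν h₀ (η k) := by
    intro k
    set f := fun s => vol ν (update h₀ (η k) s)
    set g := fun s => vol (ν ∘ η) (update (h₀ ∘ η) k s)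
    have hup : ∀ s, update (h₀ ∘ η) k s = update h₀ (η k) s ∘ η := fun s =>
      (update_comp_eq_of_injective _ hη _ _).symm
    have hs0 : f (h₀ (η k)) = g ((h₀ ∘ η) k) := by
      simp only [f, g]
      rw [update_eq_self, update_eq_self, heq]
    have hf : HasDerivAt f (grad ν h₀ (η k)) (h₀ (η k)) := by
      refine DifferentiableAt.hasDerivAt ?_
      refine DifferentiableAt.comp (h₀ (η k)) (g := vol ν) ?_ (hasDerivAt_update h₀ _ _).differentiableAt
      rw [update_eq_self]
      exact (h1.hasFDeriv h₀ hh₀).differentiableAt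
    have hg : HasDerivAt g (grad (ν ∘ η) (h₀ ∘ η) k) ((h₀ ∘ η) k) := by
      refine DifferentiableAt.hasDerivAt ?_
      refine DifferentiableAt.comp ((h₀ ∘ η) k) (g := vol (ν ∘ η)) ?_
        (hasDerivAt_update (h₀ ∘ η) _ _).differentiableAt
      rw [update_eq_self]
      exact (k1.hasFDeriv _ fun j => hh₀ _).differentiableAt
    have hmin : IsLocalMin (fun s => g s - f s) (h₀ (η k)) := Eventually.of_forall fun s => by
      have h' : f s ≤ g s := (hle (update h₀ (η k) s)).trans_eq (by simp only [g, hup])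
      have h'' : g (h₀ (η k)) = f (h₀ (η k)) := hs0.symm
      change g _ - f _ ≤ g s - f s
      linarith
    have := hmin.hasDerivAt_eq_zero (hg.sub hf)
    linarith
  have hfull : Full (ν ∘ η) (pcurve p (a ∘ η) (b ∘ η) t₀) :=
    ⟨fun k => hh₀ _, fun k => by
      rw [show pcurve p (a ∘ η) (b ∘ η) t₀ = h₀ ∘ η from rfl, hgrad]; exact (e k).2⟩
  obtain ⟨c, hc⟩ := tangent_le (a := a ∘ η) (b := b ∘ η) hν' hC hL hp0 hp1 (fun k => ha _)
    (fun k => hb _) ht₀ hfull
  refine ⟨c, ?_⟩
  filter_upwards [hc] with t ht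
  refine (Real.rpow_le_rpow ENNReal.toReal_nonneg (hle _) (by positivity)).trans (ht.trans_eq ?_)
  rw [show pcurve p (a ∘ η) (b ∘ η) t₀ = h₀ ∘ η from rfl, heq]

end Lp

/-! ### Support functions and finitely many directions -/

namespace Lp

variable {K : Set (Space 3)}

theorem le_supportFn (hK : SymmBody K) {x : Space 3} (hx : x ∈ K) (u : Space 3) :
    ⟪u, x⟫ ≤ supportFn K u :=
  le_csSup (hK.compact.bddAbove_image (by fun_prop)) (mem_image_of_mem _ hx)

theorem supportFn_continuous (hK : SymmBody K) : Continuous (supportFn K) :=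
  hK.compact.continuous_sSup (f := fun u x => ⟪u, x⟫) (by fun_prop)

theorem supportFn_neg (hK : SymmBody K) (u : Space 3) : supportFn K (-u) = supportFn K u := by
  unfold supportFn
  congr 1
  ext r
  constructor <;> rintro ⟨x, hx, rfl⟩ <;> exact ⟨-x, hK.neg_mem x hx, by simp⟩

theorem supportFn_pos (hK : SymmBody K) {u : Space 3} (hu : u ≠ 0) : 0 < supportFn K u := by
  obtain ⟨x, hx⟩ := hK.interior_nonempty
  have hx' : -x ∈ interior K := by
    have h1 : -K = K := Subset.antisymm (fun y hy => by simpa using hK.neg_mem _ hy)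
      fun y hy => hK.neg_mem y hy
    have h2 : Neg.neg ⁻¹' interior K = interior K :=
      ((Homeomorph.neg (Space 3)).preimage_interior K).trans (congrArg interior h1)
    rw [← h2] at hx
    exact hx
  have h0 : (0 : Space 3) ∈ interior K := by
    have := hK.convex.interior hx hx' (show (0 : ℝ) ≤ 1 / 2 by norm_num)
      (show (0 : ℝ) ≤ 1 / 2 by norm_num) (by norm_num)
    simpa [smul_neg] using this
  obtain ⟨r, hr, hball⟩ := Metric.mem_nhds_iff.1 (mem_interior_iff_mem_nhds.1 h0)
  have hn : 0 < ‖u‖ := norm_pos_iff.2 hu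
  have hmem : (r / 2 / ‖u‖) • u ∈ K := hball <| by
    rw [mem_ball_zero_iff, norm_smul, Real.norm_eq_abs, abs_of_pos (by positivity),
      div_mul_cancel₀ _ hn.ne']
    linarith
  refine lt_of_lt_of_le ?_ (le_supportFn hK hmem u)
  rw [real_inner_smul_right, real_inner_self_eq_norm_sq]
  positivity

/-- The polytope of finitely many slabs. -/
def slabs (F : Finset (Space 3)) (h : Space 3 → ℝ) : Set (Space 3) :=
  {x | ∀ u ∈ F, |⟪u, x⟫| ≤ h u}

/-- A symmetric set of unit vectors has a half without antipodes. -/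
theorem exists_half (F : Finset (Space 3)) :
    ∃ T ⊆ F, (∀ u ∈ T, ∀ v ∈ T, u ≠ -v ∨ u = v) ∧ ∀ u ∈ F, u ∈ T ∨ -u ∈ T := by
  classical
  induction F using Finset.induction with
  | empty => exact ⟨∅, subset_rfl, by simp⟩
  | @insert a s _ ih =>
    obtain ⟨T, hTs, hT, hcov⟩ := ih
    by_cases hmem : -a ∈ T
    · refine ⟨T, hTs.trans (Finset.subset_insert _ _), hT, fun u hu => ?_⟩
      rcases Finset.mem_insert.1 hu with rfl | hu
      exacts [Or.inr hmem, hcov u hu]
    · refine ⟨insert a T, Finset.insert_subset_insert _ hTs, fun u hu v hv => ?_, fun u hu => ?_⟩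
      · rcases Finset.mem_insert.1 hu with rfl | hu' <;> rcases Finset.mem_insert.1 hv with rfl | hv'
        · exact Or.inr rfl
        · exact Or.inl fun h => hmem (by rwa [h, neg_neg])
        · exact Or.inl fun h => hmem (by rwa [← h])
        · exact hT u hu' v hv'
      · rcases Finset.mem_insert.1 hu with rfl | hu
        · exact Or.inl (Finset.mem_insert_self _ _)
        · exact (hcov u hu).imp (Finset.mem_insert_of_mem ·) (Finset.mem_insert_of_mem ·)

theorem dot_ofLp (u x : Space 3) : u.ofLp ⬝ᵥ x.ofLp = ⟪u, x⟫ := by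
  simp [PiLp.inner_apply, dotProduct, mul_comm]

/-- The `L_p` inequality for finitely many slabs. -/
theorem slabs_le (hC : CalcStatement) (hL : LocalStatement) {p : ℝ} (hp0 : 0 < p) (hp1 : p ≤ 1)
    {F : Finset (Space 3)} (hF : ∀ u ∈ F, ‖u‖ = 1)
    (hspan : ∀ x : Space 3, (∀ u ∈ F, ⟪u, x⟫ = 0) → x = 0) {hA hB : Space 3 → ℝ}
    (hA0 : ∀ u ∈ F, 0 < hA u) (hB0 : ∀ u ∈ F, 0 < hB u) (hA1 : ∀ u, hA (-u) = hA u)
    (hB1 : ∀ u, hB (-u) = hB u) {l : ℝ} (hl : l ∈ Icc (0 : ℝ) 1) :
    (1 - l) * (volume (slabs F hA)).toReal ^ (p / 3) + l * (volume (slabs F hB)).toReal ^ (p / 3)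
      ≤ (volume (slabs F fun u => ((1 - l) * hA u ^ p + l * hB u ^ p) ^ (1 / p))).toReal
          ^ (p / 3) := by
  classical
  obtain ⟨T, hTF, hT, hcov⟩ := exists_half F
  set e := T.equivFin.symm
  set ν : Fin T.card → V3 := fun i => (e i).1.ofLp
  have hν : Fam ν :=
    { ne_zero := fun i h => by
        have := hF _ (hTF (e i).2)
        rw [show (e i).1 = 0 from (WithLp.ofLp_injective 2) h, norm_zero] at this
        exact zero_ne_one this
      indep := fun i j hij => by
        rw [crossProduct_ne_zero_iff_linearIndependent, linearIndependent_fin2]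
        simp only [Matrix.cons_val_zero, Matrix.cons_val_one]
        refine ⟨fun h => ?_, fun c hc => ?_⟩
        · have := hF _ (hTF (e j).2)
          rw [show (e j).1 = 0 from (WithLp.ofLp_injective 2) h, norm_zero] at this
          exact zero_ne_one this
        · have hc' : c • (e j).1 = (e i).1 := WithLp.ofLp_injective 2 hc
          have hn := congrArg norm hc'
          rw [norm_smul, hF _ (hTF (e i).2), hF _ (hTF (e j).2), mul_one, Real.norm_eq_abs] at hn
          rcases eq_or_eq_neg_of_abs_eq hn with rfl | rfl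
          · rw [one_smul] at hc'
            exact hij (e.injective (Subtype.ext hc')).symm
          · rw [neg_smul, one_smul] at hc'
            rcases hT _ (e i).2 _ (e j).2 with h | h
            · exact h hc'.symm
            · exact hij (e.injective (Subtype.ext h))
      span := fun x hx => by
        have h := hspan (WithLp.toLp 2 x) fun u hu => by
          rcases hcov u hu with h | h
          · have := hx (e.symm ⟨u, h⟩)
            simpa [ν, ← dot_ofLp] using this
          · have := hx (e.symm ⟨-u, h⟩)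
            simpa [ν, ← dot_ofLp] using this
        simpa using congrArg WithLp.ofLp h }
  have hvol : ∀ h : Space 3 → ℝ, (∀ u, h (-u) = h u) →
      (volume (slabs F h)).toReal = vol ν fun i => h (e i).1 := by
    intro h hh
    have he : slabs F h = (WithLp.ofLp : Space 3 → V3) ⁻¹' body ν fun i => h (e i).1 := by
      ext x
      refine ⟨fun hx i => ?_, fun hx u hu => ?_⟩
      · rw [dot_ofLp]; exact hx _ (hTF (e i).2)
      · rcases hcov u hu with h' | h'
        · have := hx (e.symm ⟨u, h'⟩)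
          simpa [ν, dot_ofLp] using this
        · have := hx (e.symm ⟨-u, h'⟩)
          simpa [ν, dot_ofLp, hh] using this
    have hm : MeasurableSet (body ν fun i => h (e i).1) :=
      ((hC _ ν hν).1.compact _).measurableSet
    rw [he, (PiLp.volume_preserving_ofLp (Fin 3)).measure_preimage hm.nullMeasurableSet, vol]
  rw [hvol hA hA1, hvol hB hB1, hvol _ fun u => by simp only [hA1, hB1]]
  exact vol_pcurve_le hC hL hν hp0 hp1 (fun i => hA0 _ (hTF (e i).2))
    (fun i => hB0 _ (hTF (e i).2)) hl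

end Lp

open Lp in
/-- The global inequality from the calculus and the local inequality. -/
theorem lp_of (hC : Lp.CalcStatement) (hL : Lp.LocalStatement) : LpStatement := by
  intro p hp0 hp1 K L hK hL' l hl
  classical
  set h : Space 3 → ℝ := fun u =>
    ((1 - l) * supportFn K u ^ p + l * supportFn L u ^ p) ^ (1 / p)
  have hh : Continuous h :=
    ((((supportFn_continuous hK).rpow_const fun _ => Or.inr hp0.le).const_smul (1 - l)).add
      (((supportFn_continuous hL').rpow_const fun _ => Or.inr hp0.le).const_smul l)).rpow_const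
      fun _ => Or.inr (by positivity)
  have : Nonempty (Metric.sphere (0 : Space 3) 1) :=
    ⟨⟨EuclideanSpace.single 0 1, by simp⟩⟩
  obtain ⟨d, hd⟩ := TopologicalSpace.exists_dense_seq (Metric.sphere (0 : Space 3) 1)
  set F : ℕ → Finset (Space 3) := fun n =>
    Finset.univ.image (EuclideanSpace.basisFun (Fin 3) ℝ) ∪ (Finset.range n).image (fun k => (d k).1)
  have hF : ∀ n, ∀ u ∈ F n, ‖u‖ = 1 := by
    intro n u hu
    rcases Finset.mem_union.1 hu with hu | hu <;> obtain ⟨k, -, rfl⟩ := Finset.mem_image.1 hu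
    · exact (EuclideanSpace.basisFun (Fin 3) ℝ).norm_eq_one k
    · simp
  have hbasis : ∀ (n : ℕ) (k : Fin 3), EuclideanSpace.basisFun (Fin 3) ℝ k ∈ F n := fun n k =>
    Finset.mem_union_left _ (Finset.mem_image_of_mem _ (Finset.mem_univ k))
  have hspan : ∀ n (x : Space 3), (∀ u ∈ F n, ⟪u, x⟫ = 0) → x = 0 := fun n x hx => by
    ext k
    simpa [EuclideanSpace.inner_single_left] using hx _ (hbasis n k)
  have hne : ∀ n, ∀ u ∈ F n, u ≠ 0 := fun n u hu h0 => by
    have := hF n u hu
    rw [h0, _root_.norm_zero] at this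
    exact zero_ne_one this
  set P := fun n => slabs (F n) h
  have hclosed : ∀ n, IsClosed (P n) := fun n => by
    simp only [P, slabs, ofPred_forall]
    exact isClosed_biInter fun u _ => isClosed_le (by fun_prop) continuous_const
  have hbdd : ∀ n, Bornology.IsBounded (P n) := fun n => by
    refine (Metric.isBounded_closedBall (x := (0 : Space 3))
      (r := ∑ k, h (EuclideanSpace.basisFun (Fin 3) ℝ k))).subset fun x hx => ?_
    rw [mem_closedBall_zero_iff]
    conv_lhs => rw [← (EuclideanSpace.basisFun (Fin 3) ℝ).sum_repr' x]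
    refine (norm_sum_le _ _).trans (Finset.sum_le_sum fun k _ => ?_)
    rw [norm_smul, (EuclideanSpace.basisFun (Fin 3) ℝ).norm_eq_one k, mul_one, Real.norm_eq_abs]
    exact hx _ (hbasis n k)
  have hfin : ∀ n, volume (P n) ≠ ⊤ := fun n => (hbdd n).measure_lt_top.ne
  have hmono : Antitone P := fun m n hmn x hx u hu => by
    refine hx u ?_
    rcases Finset.mem_union.1 hu with hu | hu
    · exact Finset.mem_union_left _ hu
    · exact Finset.mem_union_right _
        (Finset.image_subset_image (Finset.range_subset_range.2 hmn) hu)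
  have hiInter : ⋂ n, P n = lpSum p l K L := by
    ext x
    rw [mem_iInter]
    constructor
    · intro hx u hu
      have hcl : IsClosed {v : Metric.sphere (0 : Space 3) 1 | |⟪v.1, x⟫| ≤ h v.1} :=
        isClosed_le (by fun_prop) (hh.comp continuous_subtype_val)
      have := hd.induction_on (p := fun v => |⟪v.1, x⟫| ≤ h v.1) ⟨u, by simp [hu]⟩ hcl fun k =>
        hx (k + 1) _ (Finset.mem_union_right _ (Finset.mem_image.2 ⟨k, Finset.self_mem_range_succ k, rfl⟩))
      exact (le_abs_self _).trans this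
    · intro hx n u hu
      refine abs_le'.2 ⟨hx u (hF n u hu), ?_⟩
      have := hx (-u) (by rw [_root_.norm_neg]; exact hF n u hu)
      rwa [inner_neg_left, supportFn_neg hK, supportFn_neg hL'] at this
  have hlim : Tendsto (fun n => (volume (P n)).toReal ^ (p / 3)) atTop
      (𝓝 ((volume (lpSum p l K L)).toReal ^ (p / 3))) := by
    have h1 := tendsto_measure_iInter_atTop (μ := volume)
      (fun n => (hclosed n).nullMeasurableSet) hmono ⟨0, hfin 0⟩
    rw [hiInter] at h1
    refine ((Real.continuous_rpow_const (by positivity)).tendsto _).comp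
      ((ENNReal.tendsto_toReal ?_).comp h1)
    rw [← hiInter]
    exact ne_top_of_le_ne_top (hfin 0) (measure_mono (iInter_subset _ 0))
  show (1 - l) * (volume K).toReal ^ (p / ((3 : ℕ) : ℝ)) + _ ≤ _
  push_cast
  refine ge_of_tendsto' hlim fun n => ?_
  refine le_trans ?_ (slabs_le hC hL hp0 hp1 (hF n) (hspan n)
    (fun u hu => supportFn_pos hK (hne n u hu)) (fun u hu => supportFn_pos hL' (hne n u hu))
    (supportFn_neg hK) (supportFn_neg hL') hl)
  have hsub : ∀ {A : Set (Space 3)}, SymmBody A → (volume A).toReal ^ (p / 3)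
      ≤ (volume (slabs (F n) (supportFn A))).toReal ^ (p / 3) := fun {A} hA => by
    refine Real.rpow_le_rpow ENNReal.toReal_nonneg (ENNReal.toReal_mono ?_ (measure_mono
      fun x hx u _ => abs_le'.2 ⟨le_supportFn hA hx u, ?_⟩)) (by positivity)
    · refine (Bornology.IsBounded.measure_lt_top (?_)).ne
      refine (Metric.isBounded_closedBall (x := (0 : Space 3))
        (r := ∑ k, supportFn A (EuclideanSpace.basisFun (Fin 3) ℝ k))).subset fun x hx => ?_
      rw [mem_closedBall_zero_iff]
      conv_lhs => rw [← (EuclideanSpace.basisFun (Fin 3) ℝ).sum_repr' x]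
      refine (norm_sum_le _ _).trans (Finset.sum_le_sum fun k _ => ?_)
      rw [norm_smul, (EuclideanSpace.basisFun (Fin 3) ℝ).norm_eq_one k, mul_one, Real.norm_eq_abs]
      exact hx _ (hbasis n k)
    · rw [← inner_neg_right]
      exact le_supportFn hA (hA.neg_mem x hx) u
  exact add_le_add (mul_le_mul_of_nonneg_left (hsub hK) (by linarith [hl.2]))
    (mul_le_mul_of_nonneg_left (hsub hL') hl.1)

end

end Vale.Agent.P227
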