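import Vale.Agent.P227.Lp.Kink.Sum

/-!
# P227: the cubic coefficient of the volume jumps upwards

For small `t > 0` put `K = body ν (1 + t g)`, `L = body ν (1 - t g)`. The volume of
`(1 - u) K + u L` is a cubic in `u` with known values and slopes at both ends, and the middle
body lies in `body ν 1`.
-/

namespace Vale.Agent.P227.Lp

open MeasureTheory Set Filter Topology Matrix Function

noncomputable section

variable {ι : Type} [Fintype ι] [DecidableEq ι]

omit [Fintype ι] [DecidableEq ι] in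
theorem vol_mono {κ : Type} {ν : ι → V3} {ν' : κ → V3} {h : ι → ℝ} {h' : κ → ℝ}
    (hc : IsCompact (body ν' h')) (hsub : body ν h ⊆ body ν' h') : vol ν h ≤ vol ν' h' :=
  ENNReal.toReal_mono hc.measure_lt_top.ne (measure_mono hsub)

theorem hasDerivAt_vol {ν : ι → V3} (hc : Calc1 ν) {c : ℝ → ι → ℝ} {d : ι → ℝ} {x : ℝ}
    (hd : HasDerivAt c d x) (hpos : ∀ i, 0 < c x i) :
    HasDerivAt (fun s => vol ν (c s)) (∑ i, d i * grad ν (c x) i) x := by
  refine ((hc.hasFDeriv _ hpos).comp_hasDerivAt x hd).congr_deriv ?_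
  simp [mul_comm]

theorem hasDerivAt_update_vol {ν : ι → V3} (hc : Calc1 ν) {h : ι → ℝ} (hh : ∀ i, 0 < h i)
    (i : ι) : HasDerivAt (fun s => vol ν (update h i s)) (grad ν h i) (h i) := by
  have h1 := hasDerivAt_vol hc (c := fun s => update h i s) (hasDerivAt_update h i (h i))
    (by simpa using hh)
  simp only [update_eq_self] at h1
  refine h1.congr_deriv ?_
  rw [Finset.sum_eq_single i (fun j _ hj => by simp [hj]) (by simp)]
  simp

/-- The support numbers of a body with all facets present are its own. -/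
theorem supp_eq_of_full {ν : ι → V3} (hc : Calc1 ν) {h : ι → ℝ} (hf : Full ν h) (i : ι) :
    supp (body ν h) (ν i) = h i := by
  have hC := ctr_body (fun i => (hf.1 i).le) (hc.compact h)
  refine (supp_le hC fun x hx => (le_abs_self _).trans (hx i)).antisymm (le_of_not_gt fun hlt => ?_)
  have hmax : IsLocalMin (fun s => vol ν (update h i s)) (h i) := by
    filter_upwards [eventually_ge_nhds hlt] with s hs
    rw [update_eq_self]
    refine vol_mono (hc.compact _) fun x hx j => ?_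
    rcases eq_or_ne j i with rfl | hj
    · rw [update_self]
      exact (abs_le_supp hC hx _).trans hs
    · rw [update_of_ne hj]
      exact hx j
  exact (hf.2 i).ne' (hmax.hasDerivAt_eq_zero (hasDerivAt_update_vol hc hf.1 i))

/-- A facet which can be left out carries no area. -/
theorem grad_eq_zero {ν : ι → V3} (hc : Calc1 ν) {h : ι → ℝ} (hh : ∀ i, 0 < h i) {i : ι}
    (hdrop : ∀ z, (∀ k, k ≠ i → |ν k ⬝ᵥ z| ≤ h k) → z ∈ body ν h) : grad ν h i = 0 := by
  have hmax : IsLocalMax (fun s => vol ν (update h i s)) (h i) :=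
    Eventually.of_forall fun s => by
      simp only [update_eq_self]
      refine vol_mono (hc.compact h) fun z hz => hdrop z fun k hk => ?_
      simpa [hk] using hz k
  exact hmax.hasDerivAt_eq_zero (hasDerivAt_update_vol hc hh i)

/-- Dropping empty facets does not change the others. -/
theorem grad_sub {κ : Type} [Fintype κ] [DecidableEq κ] {ν : ι → V3} (hc : Calc1 ν) (e : κ → ι)
    (he : Injective e) (hc' : Calc1 (ν ∘ e)) {h : ι → ℝ} (hh : ∀ i, 0 < h i)
    (hsame : body (ν ∘ e) (h ∘ e) = body ν h) (k : κ) :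
    grad (ν ∘ e) (h ∘ e) k = grad ν h (e k) := by
  have h1 := hasDerivAt_update_vol hc' (h := h ∘ e) (fun k => hh (e k)) k
  have h2 := hasDerivAt_update_vol hc hh (e k)
  have hmin : IsLocalMin (fun s => vol (ν ∘ e) (update (h ∘ e) k s)
      - vol ν (update h (e k) s)) (h (e k)) := Eventually.of_forall fun s => by
    simp only [update_eq_self]
    rw [show update (h ∘ e) k (h (e k)) = h ∘ e from update_eq_self k (h ∘ e)]
    rw [show vol (ν ∘ e) (h ∘ e) = vol ν h by rw [vol, vol, hsame], sub_self, sub_nonneg]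
    refine vol_mono (hc'.compact _) fun z hz l => ?_
    rcases eq_or_ne l k with rfl | hl
    · simpa using hz (e l)
    · simpa [hl, he.ne hl] using hz (e l)
  have := hmin.hasDerivAt_eq_zero (h1.sub h2)
  linarith

theorem parallel_mem {a b z : V3} {m : V3 → ℝ} {K L : Set V3} (hK : Ctr K) (hL : Ctr L) {u : ℝ}
    (hu0 : 0 ≤ u) (hu1 : u ≤ 1) (hm : ∀ w, m w = sp K L u w) {c : ℝ} (hab : a = c • b)
    (hz : |b ⬝ᵥ z| ≤ m b) : |a ⬝ᵥ z| ≤ m a := by
  have key : ∀ (M : Set V3), Ctr M → |c| * supp M b ≤ supp M a := fun M hM => by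
    obtain ⟨x, hx, hxb⟩ := exists_supp hM b
    refine le_trans ?_ (abs_le_supp hM hx a)
    rw [hab, smul_dotProduct, smul_eq_mul, abs_mul, hxb, abs_of_nonneg (supp_nonneg hM b)]
  rw [hab, smul_dotProduct, smul_eq_mul, abs_mul, ← hab]
  refine (mul_le_mul_of_nonneg_left hz (abs_nonneg c)).trans ?_
  rw [hm, hm, sp, sp, mul_add, mul_left_comm, mul_left_comm |c| u]
  exact add_le_add (mul_le_mul_of_nonneg_left (key K hK) (by linarith))
    (mul_le_mul_of_nonneg_left (key L hL) hu0)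

/-- Affine coefficients make the gradient quadratic. -/
theorem quad_of_ode {y : ℝ → ℝ} {H0 H1 m0 m1 : ℝ} (hH : ∀ u, 0 < u → u < 1 → 0 < H0 + H1 * u)
    (hH0 : H0 ≠ 0) (y' : ℝ → ℝ) (hy : ∀ u, 0 < u → u < 1 → HasDerivAt y (y' u) u)
    (hode : ∀ u, 0 < u → u < 1 → y' u * (H0 + H1 * u) - 2 * H1 * y u = m0 + m1 * u) :
    ∃ c0 c1 c2 : ℝ, ∀ u, 0 < u → u < 1 → y u = c0 + c1 * u + c2 * u ^ 2 := by
  set p1 := m0 / H0
  set p2 := (m1 + H1 * p1) / (2 * H0)
  have e1 : H0 * p1 = m0 := mul_div_cancel₀ _ hH0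
  have e2 : 2 * H0 * p2 = m1 + H1 * p1 := mul_div_cancel₀ _ (mul_ne_zero two_ne_zero hH0)
  set φ : ℝ → ℝ := fun u => (y u - (p1 * u + p2 * u ^ 2)) / (H0 + H1 * u) ^ 2
  have hφ : ∀ u ∈ Ioo (0 : ℝ) 1, HasDerivAt φ 0 u := fun u hu => by
    have hne := (hH u hu.1 hu.2).ne'
    have h1 : HasDerivAt (fun v => p1 * v + p2 * v ^ 2) (p1 + 2 * p2 * u) u :=
      (((hasDerivAt_id u).const_mul p1).add ((hasDerivAt_pow 2 u).const_mul p2)).congr_deriv
        (by simp; ring)
    have h2 : HasDerivAt (fun v => (H0 + H1 * v) ^ 2) (2 * (H0 + H1 * u) * H1) u :=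
      ((((hasDerivAt_id u).const_mul H1).const_add H0).pow 2).congr_deriv (by simp)
    refine (((hy u hu.1 hu.2).sub h1).div h2 (pow_ne_zero 2 hne)).congr_deriv ?_
    rw [div_eq_zero_iff]
    left
    simp only [Pi.sub_apply]
    linear_combination (H0 + H1 * u) * (hode u hu.1 hu.2) - (H0 + H1 * u) * e1
      - (H0 + H1 * u) * u * e2
  have hconst : ∀ u ∈ Ioo (0 : ℝ) 1, φ u = φ (1 / 2) := fun u hu =>
    (convex_Ioo (0 : ℝ) 1).is_const_of_fderivWithin_eq_zero (𝕜 := ℝ)
      (fun v hv => (hφ v hv).differentiableAt.differentiableWithinAt)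
      (fun v hv => by
        rw [fderivWithin_of_isOpen isOpen_Ioo hv, (hφ v hv).hasFDerivAt.fderiv]
        ext; simp) hu ⟨by norm_num, by norm_num⟩
  set C := φ (1 / 2)
  refine ⟨C * H0 ^ 2, p1 + 2 * C * H0 * H1, p2 + C * H1 ^ 2, fun u h0 h1 => ?_⟩
  have h := (div_eq_iff (pow_ne_zero 2 (hH u h0 h1).ne')).1 (hconst u ⟨h0, h1⟩)
  linear_combination h

/-- On a family with all facets present and affine edge lengths the first derivative is quadratic. -/
theorem deriv_quad {ν : ι → V3} (hc : Calc2 ν) {P D : ι → ℝ} (hP : ∀ i, 0 < P i)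
    (hfull : ∀ u : ℝ, 0 < u → u < 1 → Full ν (P + u • D))
    (hedge : ∀ i j, i ≠ j → ∃ e0 e1 : ℝ, ∀ u : ℝ, 0 < u → u < 1 →
      hess ν (P + u • D) i j = e0 + e1 * u) :
    ∃ c0 c1 c2 : ℝ, ∀ u : ℝ, 0 < u → u < 1 →
      ∑ i, D i * grad ν (P + u • D) i = c0 + c1 * u + c2 * u ^ 2 := by
  have hy : ∀ i, ∃ c0 c1 c2 : ℝ, ∀ u : ℝ, 0 < u → u < 1 →
      grad ν (P + u • D) i = c0 + c1 * u + c2 * u ^ 2 := by
    intro i
    choose! e0 e1 he using fun j (h : i ≠ j) => hedge i j h
    refine quad_of_ode (H0 := P i) (H1 := D i)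
      (m0 := ∑ j ∈ Finset.univ.erase i, e0 j * (D j * P i - D i * P j))
      (m1 := ∑ j ∈ Finset.univ.erase i, e1 j * (D j * P i - D i * P j))
      (fun u h0 h1 => ?_) (hP i).ne' (fun u => ∑ j, hess ν (P + u • D) i j * D j)
      (fun u h0 h1 => ?_) fun u h0 h1 => ?_
    · have := (hfull u h0 h1).1 i
      simp only [Pi.add_apply, Pi.smul_apply, smul_eq_mul] at this
      linarith
    · have hline : HasDerivAt (fun v : ℝ => P + v • D) D u :=
        (((hasDerivAt_id u).smul_const D).const_add P).congr_deriv (one_smul _ _)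
      refine ((hc.hasFDeriv _ (hfull u h0 h1) i).comp_hasDerivAt u hline).congr_deriv ?_
      simp
    · have heu := hc.euler _ (hfull u h0 h1) i
      simp only [Pi.add_apply, Pi.smul_apply, smul_eq_mul] at heu
      rw [show 2 * D i * grad ν (P + u • D) i
        = D i * ∑ j, hess ν (P + u • D) i j * (P j + u * D j) by rw [heu]; ring, Finset.sum_mul,
        Finset.mul_sum, ← Finset.sum_sub_distrib, Finset.sum_mul (Finset.univ.erase i) _ u,
        ← Finset.sum_add_distrib, ← Finset.add_sum_erase _ _ (Finset.mem_univ i)]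
      rw [show hess ν (P + u • D) i i * D i * (P i + D i * u)
        - D i * (hess ν (P + u • D) i i * (P i + u * D i)) = 0 by ring, zero_add]
      refine Finset.sum_congr rfl fun j hj => ?_
      rw [he j (Finset.ne_of_mem_erase hj).symm u h0 h1]
      ring
  choose c0 c1 c2 hc' using hy
  refine ⟨∑ i, D i * c0 i, ∑ i, D i * c1 i, ∑ i, D i * c2 i, fun u h0 h1 => ?_⟩
  rw [Finset.sum_mul, Finset.sum_mul, ← Finset.sum_add_distrib, ← Finset.sum_add_distrib]
  refine Finset.sum_congr rfl fun i _ => ?_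
  rw [hc' i u h0 h1]
  ring

/-- The cubic Hermite identity at the midpoint. -/
theorem hermite {G G' : ℝ → ℝ} {c0 c1 c2 : ℝ} (hG : ∀ u ∈ Icc (0 : ℝ) 1, HasDerivAt G (G' u) u)
    (hcont : ContinuousOn G' (Icc 0 1))
    (hq : ∀ u, 0 < u → u < 1 → G' u = c0 + c1 * u + c2 * u ^ 2) :
    G (1 / 2) = (G 0 + G 1) / 2 + (G' 0 - G' 1) / 8 := by
  have hq' : EqOn G' (fun u => c0 + c1 * u + c2 * u ^ 2) (Icc 0 1) := by
    refine EqOn.of_subset_closure (fun u hu => hq u hu.1 hu.2) hcont (by fun_prop)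
      Ioo_subset_Icc_self ?_
    rw [closure_Ioo zero_ne_one]
  set F : ℝ → ℝ := fun u => G u - (c0 * u + c1 * u ^ 2 / 2 + c2 * u ^ 3 / 3)
  have hF : ∀ u ∈ Icc (0 : ℝ) 1, HasDerivAt F 0 u := fun u hu => by
    have h1 : HasDerivAt (fun v => c0 * v + c1 * v ^ 2 / 2 + c2 * v ^ 3 / 3)
        (c0 + c1 * u + c2 * u ^ 2) u :=
      ((((hasDerivAt_id u).const_mul c0).add
        (((hasDerivAt_pow 2 u).const_mul c1).div_const 2)).add
        (((hasDerivAt_pow 3 u).const_mul c2).div_const 3)).congr_deriv (by simp; ring)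
    exact ((hG u hu).sub h1).congr_deriv (by rw [hq' hu]; ring)
  have hconst := constant_of_has_deriv_right_zero
    (fun u hu => (hF u hu).continuousAt.continuousWithinAt)
    (fun u hu => (hF u (Ico_subset_Icc_self hu)).hasDerivWithinAt)
  have h1 := hconst 1 (right_mem_Icc.2 zero_le_one)
  have h2 := hconst (1 / 2) ⟨by norm_num, by norm_num⟩
  have e0 := hq' (left_mem_Icc.2 (zero_le_one' ℝ))
  have e1 := hq' (right_mem_Icc.2 (zero_le_one' ℝ))
  simp only [F] at h1 h2 e0 e1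
  rw [e0, e1]
  linarith

theorem exists_reps (T₀ W : Finset V3) (h0 : ∀ a ∈ T₀, a ≠ 0)
    (hp : ∀ a ∈ T₀, ∀ b ∈ T₀, a ≠ b → crossProduct a b ≠ 0) :
    ∃ T : Finset V3, T₀ ⊆ T ∧ (∀ a ∈ T, a ≠ 0) ∧
      (∀ a ∈ T, ∀ b ∈ T, a ≠ b → crossProduct a b ≠ 0) ∧
      ∀ w ∈ W, w ≠ 0 → ∃ b ∈ T, ∃ c : ℝ, w = c • b := by
  induction W using Finset.induction_on with
  | empty => exact ⟨T₀, subset_rfl, h0, hp, by simp⟩
  | insert x W hx ih =>
    obtain ⟨T, hsub, hT0, hTp, hTW⟩ := ih
    by_cases hgood : x = 0 ∨ ∃ b ∈ T, ∃ c : ℝ, x = c • b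
    · refine ⟨T, hsub, hT0, hTp, fun w hw hw0 => ?_⟩
      rcases Finset.mem_insert.1 hw with rfl | hw
      · exact hgood.resolve_left hw0
      · exact hTW w hw hw0
    · push Not at hgood
      have hnew : ∀ b ∈ T, crossProduct x b ≠ 0 := fun b hb h => by
        obtain ⟨c, hc⟩ := parallel_of_cross (hT0 b hb) h
        exact hgood.2 b hb c hc
      refine ⟨insert x T, hsub.trans (Finset.subset_insert _ _), ?_, ?_, fun w hw hw0 => ?_⟩
      · simp only [Finset.mem_insert, forall_eq_or_imp]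
        exact ⟨hgood.1, hT0⟩
      · intro a ha b hb hab
        rcases Finset.mem_insert.1 ha with rfl | ha'
        · rcases Finset.mem_insert.1 hb with rfl | hb'
          · exact absurd rfl hab
          · exact hnew b hb'
        · rcases Finset.mem_insert.1 hb with rfl | hb'
          · rw [← cross_anticomm, neg_ne_zero]
            exact hnew a ha'
          · exact hTp a ha' b hb' hab
      · rcases Finset.mem_insert.1 hw with rfl | hw
        · exact ⟨w, Finset.mem_insert_self _ _, 1, (one_smul _ _).symm⟩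
        · obtain ⟨b, hb, hc⟩ := hTW w hw hw0
          exact ⟨b, Finset.mem_insert_of_mem hb, hc⟩

/-- The Hermite bound for one value of the parameter. -/
theorem midpoint_bound (hC : CalcStatement) {N : ℕ} {ν : Fin N → V3} (hν : Fam ν)
    {g : Fin N → ℝ} {t dp dm : ℝ} (hp : Full ν (1 + t • g))
    (hm : Full ν (1 + (-t) • g)) (hdp : HasDerivAt (fun s => vol ν (1 + s • g)) dp t)
    (hdm : HasDerivAt (fun s => vol ν (1 + s • g)) dm (-t)) :
    (vol ν (1 + t • g) + vol ν (1 + (-t) • g)) / 2 + (-2 * t * dp + 2 * t * dm) / 8 ≤ vol ν 1 := by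
  obtain ⟨hc1, -⟩ := hC N ν hν
  set K := body ν (1 + t • g)
  set L := body ν (1 + (-t) • g)
  have hK : Ctr K := ctr_body (fun i => (hp.1 i).le) (hc1.compact _)
  have hL : Ctr L := ctr_body (fun i => (hm.1 i).le) (hc1.compact _)
  have hKi : ∀ i, supp K (ν i) = (1 + t • g) i := supp_eq_of_full hc1 hp
  have hLi : ∀ i, supp L (ν i) = (1 + (-t) • g) i := supp_eq_of_full hc1 hm
  have hvK : volume K ≠ 0 := fun h => (hc1.vol_pos _ hp.1).ne'
    ((congrArg ENNReal.toReal h).trans ENNReal.toReal_zero)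
  have hvL : volume L ≠ 0 := fun h => (hc1.vol_pos _ hm.1).ne'
    ((congrArg ENNReal.toReal h).trans ENNReal.toReal_zero)
  obtain ⟨W, hW⟩ := exists_normals ν (hc1.compact (1 + t • g)) (hc1.compact (1 + (-t) • g))
    hp.1 hm.1
  obtain ⟨T, hT₀, hT0, hTp, hTW⟩ := exists_reps (Finset.univ.image ν) W
    (by simp [hν.ne_zero])
    (by
      simp only [Finset.mem_image, Finset.mem_univ, true_and]
      rintro a ⟨i, rfl⟩ b ⟨j, rfl⟩ hij
      exact hν.indep i j fun h => hij (h ▸ rfl))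
  set μ : Fin T.card → V3 := fun k => (T.equivFin.symm k : V3)
  have hμ0 : ∀ k, μ k ≠ 0 := fun k => hT0 _ (T.equivFin.symm k).2
  have hμp : ∀ k l, k ≠ l → crossProduct (μ k) (μ l) ≠ 0 := fun k l hkl =>
    hTp _ (T.equivFin.symm k).2 _ (T.equivFin.symm l).2 fun h =>
      hkl (T.equivFin.symm.injective (Subtype.ext h))
  have hμs : ∀ b ∈ T, ∃ k, μ k = b := fun b hb => ⟨T.equivFin ⟨b, hb⟩, by simp [μ]⟩
  have hμν : ∀ i, ∃ k, μ k = ν i := fun i =>
    hμs _ (hT₀ (Finset.mem_image_of_mem ν (Finset.mem_univ i)))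
  have hFam : Fam μ := ⟨hμ0, hμp, fun x hx => hν.span x fun i => by
    obtain ⟨k, hk⟩ := hμν i
    rw [← hk]; exact hx k⟩
  obtain ⟨c1, -⟩ := hC T.card μ hFam
  set A : Fin T.card → ℝ := fun k => supp K (μ k)
  set D : Fin T.card → ℝ := fun k => supp L (μ k) - supp K (μ k)
  have hsp : ∀ u k, (A + u • D) k = sp K L u (μ k) := fun u k => by
    simp only [Pi.add_apply, Pi.smul_apply, smul_eq_mul, A, D, sp]; ring
  have hA : ∀ k, 0 < A k := fun k => supp_pos hK hvK (hμ0 k)
  have hB : ∀ k, 0 < supp L (μ k) := fun k => supp_pos hL hvL (hμ0 k)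
  have hpos : ∀ u ∈ Icc (0 : ℝ) 1, ∀ k, 0 < (A + u • D) k := fun u hu k => by
    rw [hsp, sp]
    rcases eq_or_lt_of_le hu.1 with h | h
    · rw [← h]; simpa using hA k
    · exact add_pos_of_nonneg_of_pos (mul_nonneg (sub_nonneg.2 hu.2) (supp_nonneg hK _))
        (mul_pos h (hB k))
  have hbase : ∀ z, (∀ k, |μ k ⬝ᵥ z| ≤ sp K L (1 / 2) (μ k)) → z ∈ mix K L (1 / 2) := by
    intro z hz
    refine hW z fun w hw => ?_
    rcases eq_or_ne w 0 with rfl | hw0
    · rw [zero_dotProduct, abs_zero, sp]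
      exact add_nonneg (mul_nonneg (by norm_num) (supp_nonneg hK _))
        (mul_nonneg (by norm_num) (supp_nonneg hL _))
    obtain ⟨b, hb, c, hc⟩ := hTW w hw hw0
    obtain ⟨k, rfl⟩ := hμs b hb
    exact parallel_mem hK hL (by norm_num) (by norm_num) (fun _ => rfl) hc (hz k)
  have hbody : ∀ u ∈ Icc (0 : ℝ) 1, body μ (A + u • D) = mix K L u := fun u hu => by
    ext z
    refine ⟨fun hz => cancel hK hL μ (by norm_num) (by norm_num) hbase hu.1 hu.2
      (fun k => hsp u k ▸ hz k), fun hz k => ?_⟩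
    rw [hsp]
    exact abs_le_sp hK hL hz _
  set G : ℝ → ℝ := fun u => vol μ (A + u • D)
  set G' : ℝ → ℝ := fun u => ∑ k, D k * grad μ (A + u • D) k
  have hG : ∀ u ∈ Icc (0 : ℝ) 1, HasDerivAt G (G' u) u := fun u hu =>
    hasDerivAt_vol c1 ((((hasDerivAt_id u).smul_const D).const_add A).congr_deriv (one_smul _ _))
      (hpos u hu)
  have hcont : ContinuousOn G' (Icc 0 1) := fun u hu => by
    refine (tendsto_finsetSum _ fun k _ => Tendsto.const_mul _ ?_).mono_left nhdsWithin_le_nhds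
    exact (c1.grad_continuous _ (hpos u hu) k).tendsto.comp
      (((continuous_id.smul continuous_const).const_add A).tendsto u)
  -- the facets present inside the segment
  set S : Finset (Fin T.card) := Finset.univ.filter fun k => 0 < grad μ (A + (1 / 2 : ℝ) • D) k
  set e : Fin S.card → Fin T.card := fun k => (S.equivFin.symm k : Fin T.card)
  have he : Injective e := fun k l h => S.equivFin.symm.injective (Subtype.ext h)
  have hes : ∀ l, 0 < grad μ (A + (1 / 2 : ℝ) • D) l → ∃ k, e k = l := fun l hl =>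
    ⟨S.equivFin ⟨l, by simpa [S] using hl⟩, by simp [e]⟩
  have hhalf : (1 / 2 : ℝ) ∈ Icc (0 : ℝ) 1 := ⟨by norm_num, by norm_num⟩
  have hbaseS : ∀ z, (∀ k, |μ (e k) ⬝ᵥ z| ≤ sp K L (1 / 2) (μ (e k))) → z ∈ mix K L (1 / 2) := by
    intro z hz
    rw [← hbody _ hhalf, c1.drop _ (hpos _ hhalf)]
    intro l hl
    obtain ⟨k, rfl⟩ := hes l hl
    rw [hsp]
    exact hz k
  have hFamS : Fam (μ ∘ e) := by
    refine ⟨fun k => hμ0 _, fun k l hkl => hμp _ _ (he.ne hkl), fun x hx => by_contra fun hx0 => ?_⟩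
    obtain ⟨i, hi⟩ : ∃ i, ν i ⬝ᵥ x ≠ 0 := by
      by_contra h; push Not at h; exact hx0 (hν.span x h)
    set M := sp K L (1 / 2) (ν i)
    have h := (abs_le.1 (abs_le_sp hK hL (hbaseS (((M + 1) / (ν i ⬝ᵥ x)) • x) fun k => by
      rw [dotProduct_smul, show μ (e k) ⬝ᵥ x = 0 from hx k, smul_zero, abs_zero, ← hsp]
      exact (hpos _ hhalf _).le) (ν i))).2
    rw [dotProduct_smul, smul_eq_mul, div_mul_cancel₀ _ hi] at h
    linarith
  obtain ⟨d1, d2⟩ := hC S.card (μ ∘ e) hFamS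
  have hline : ∀ u : ℝ, (A ∘ e) + u • (D ∘ e) = (A + u • D) ∘ e := fun u => rfl
  have hbodyS : ∀ u ∈ Icc (0 : ℝ) 1, body (μ ∘ e) ((A + u • D) ∘ e) = mix K L u := fun u hu => by
    ext z
    refine ⟨fun hz => cancel hK hL (μ ∘ e) (by norm_num) (by norm_num) hbaseS hu.1 hu.2
      (fun k => hsp u (e k) ▸ hz k), fun hz k => ?_⟩
    rw [Function.comp_apply, Function.comp_apply, hsp]
    exact abs_le_sp hK hL hz _
  have hfull : ∀ u : ℝ, 0 < u → u < 1 → Full (μ ∘ e) ((A ∘ e) + u • (D ∘ e)) := by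
    intro u h0 h1'
    have hu : u ∈ Icc (0 : ℝ) 1 := ⟨h0.le, h1'.le⟩
    rw [hline]
    refine ⟨fun k => hpos u hu _, fun k => (d1.grad_nonneg ((A + u • D) ∘ e) (fun k => hpos u hu _) k).lt_of_ne
      fun hk => ?_⟩
    have hu' : ∀ z, (∀ l : {l // l ≠ k}, |μ (e l.1) ⬝ᵥ z| ≤ sp K L u (μ (e l.1))) →
        z ∈ mix K L u := fun z hz => by
      rw [← hbodyS u hu, d1.drop ((A + u • D) ∘ e) (fun k => hpos u hu _)]
      intro l hl
      have hlk : l ≠ k := fun h => (h ▸ hl).ne' hk.symm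
      rw [Function.comp_apply, Function.comp_apply, hsp]
      exact hz ⟨l, hlk⟩
    have h0' : grad (μ ∘ e) ((A + (1 / 2 : ℝ) • D) ∘ e) k = 0 := by
      refine grad_eq_zero d1 (fun k => hpos _ hhalf _) fun z hz => ?_
      change z ∈ body (μ ∘ e) ((A + (1 / 2 : ℝ) • D) ∘ e)
      rw [hbodyS _ hhalf]
      refine cancel hK hL (fun l : {l // l ≠ k} => μ (e l.1)) h0 h1' hu' hhalf.1 hhalf.2 fun l => ?_
      rw [← hsp]
      exact hz l.1 l.2
    rw [grad_sub c1 e he d1 (hpos _ hhalf) (by rw [hbodyS _ hhalf, hbody _ hhalf]) k] at h0'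
    have hin : e k ∈ S := (S.equivFin.symm k).2
    simp only [S, Finset.mem_filter] at hin
    exact hin.2.ne' h0'
  obtain ⟨c₀, c₁, c₂, hquad⟩ := deriv_quad d2 (P := A ∘ e) (D := D ∘ e) (fun k => hA _) hfull
    fun k l hkl => by
      have hneg : crossProduct (μ (e k)) ((-1 : ℝ) • μ (e l)) ≠ 0 := by
        rw [map_smul]
        exact smul_ne_zero (by norm_num) (hμp _ _ (he.ne hkl))
      have hone : crossProduct (μ (e k)) ((1 : ℝ) • μ (e l)) ≠ 0 := by
        rw [one_smul]; exact hμp _ _ (he.ne hkl)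
      have hw : ∀ σ : ℝ, (σ = 1 ∨ σ = -1) → ∃ e0 e1 : ℝ, ∀ u : ℝ, 0 < u → u < 1 →
          edgeW (μ ∘ e) ((A ∘ e) + u • (D ∘ e)) k l σ = e0 + e1 * u := by
        intro σ hσ
        have hsq : σ * σ = 1 := by rcases hσ with rfl | rfl <;> norm_num
        have hs : ∀ M : Set V3, Ctr M → supp M (σ • μ (e l)) = supp M (μ (e l)) := fun M hM => by
          rcases hσ with rfl | rfl
          · rw [one_smul]
          · rw [neg_one_smul, supp_neg hM]
        obtain ⟨e0, e1, he'⟩ := span2_mix hK hL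
          (a := μ (e k)) (b := σ • μ (e l)) (by rcases hσ with rfl | rfl <;> assumption)
        refine ⟨e0, e1, fun u h0 h1' => ?_⟩
        rw [← he' u h0 h1', edgeW]
        congr 1
        set F : Set V3 := edge (μ ∘ e) ((A ∘ e) + u • (D ∘ e)) k l σ
        have hF : ∀ x, (x ∈ mix K L u ∧ μ (e k) ⬝ᵥ x = sp K L u (μ (e k)) ∧
            (σ • μ (e l)) ⬝ᵥ x = sp K L u (σ • μ (e l))) ↔ x ∈ F := fun x => by
          simp only [F, edge, hline, hbodyS u ⟨h0.le, h1'.le⟩, Function.comp_apply, hsp, Set.mem_ofPred_eq,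
            smul_dotProduct, smul_eq_mul]
          rw [show sp K L u (σ • μ (e l)) = sp K L u (μ (e l)) by rw [sp, sp, hs K hK, hs L hL]]
        ext s
        simp only [hF, Set.mem_ofPred_eq, Function.comp_apply]
        rcases hσ with rfl | rfl
        · simp only [one_smul]
        · simp only [neg_one_smul, map_neg]
          constructor
          · rintro ⟨x, hx, hx'⟩
            exact ⟨_, hx', by convert hx using 1; module⟩
          · rintro ⟨x, hx, hx'⟩
            exact ⟨_, hx', by convert hx using 1; module⟩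
      obtain ⟨a0, a1, ha⟩ := hw 1 (Or.inl rfl)
      obtain ⟨b0, b1, hb⟩ := hw (-1) (Or.inr rfl)
      refine ⟨2 * (a0 + b0), 2 * (a1 + b1), fun u h0 h1' => ?_⟩
      rw [d2.hess_eq _ (hfull u h0 h1') k l hkl, ha u h0 h1', hb u h0 h1']
      ring
  have hGq : ∀ u, 0 < u → u < 1 → G' u = c₀ + c₁ * u + c₂ * u ^ 2 := by
    intro u h0 h1'
    have hu : u ∈ Icc (0 : ℝ) 1 := ⟨h0.le, h1'.le⟩
    have hnb : G =ᶠ[𝓝 u] fun v => vol (μ ∘ e) ((A ∘ e) + v • (D ∘ e)) := by
      filter_upwards [Icc_mem_nhds h0 h1'] with v hv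
      simp only [G, vol, hline, hbodyS v hv, hbody v hv]
    rw [← hquad u h0 h1']
    exact ((hG u hu).congr_of_eventuallyEq hnb.symm).unique
      (hasDerivAt_vol d1 ((((hasDerivAt_id u).smul_const _).const_add _).congr_deriv (one_smul _ _))
        (hfull u h0 h1').1)
  have hmid := hermite hG hcont hGq
  -- comparison with `body ν`
  have hcmp : ∀ u, G u ≤ vol ν (1 + ((1 - 2 * u) * t) • g) := fun u => by
    refine vol_mono (hc1.compact _) fun z hz i => ?_
    obtain ⟨k, hk⟩ := hμν i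
    rw [← hk]
    refine (hz k).trans (le_of_eq ?_)
    rw [hsp, sp, hk, hKi, hLi]
    simp only [Pi.add_apply, Pi.one_apply, Pi.smul_apply, smul_eq_mul]
    ring
  have hend : ∀ u₀, (u₀ = 0 ∨ u₀ = 1) → G u₀ = vol ν (1 + ((1 - 2 * u₀) * t) • g) := by
    intro u₀ hu₀
    refine le_antisymm (hcmp _) ?_
    simp only [G]
    refine vol_mono (c1.compact _) fun z hz k => ?_
    rw [hsp, sp]
    rcases hu₀ with rfl | rfl
    · norm_num at hz ⊢
      exact abs_le_supp hK (by simpa using hz) _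
    · norm_num at hz ⊢
      exact abs_le_supp hL (by simpa [L] using hz) _
  have hslope : ∀ u₀ d, (u₀ = 0 ∨ u₀ = 1) →
      HasDerivAt (fun s => vol ν (1 + s • g)) d ((1 - 2 * u₀) * t) → G' u₀ = -2 * t * d := by
    intro u₀ d hu₀ hd
    have hin : u₀ ∈ Icc (0 : ℝ) 1 := by rcases hu₀ with rfl | rfl <;> simp
    have h2 := hd.comp u₀ ((((hasDerivAt_id u₀).const_mul (2 : ℝ)).const_sub 1).mul_const t)
    have hmax : IsLocalMax (fun u => G u - vol ν (1 + ((1 - 2 * u) * t) • g)) u₀ :=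
      Eventually.of_forall fun u => by
        simp only [hend u₀ hu₀, sub_self]
        linarith [hcmp u]
    have h := hmax.hasDerivAt_eq_zero ((hG u₀ hin).sub h2)
    linarith
  have e0 : G 0 = vol ν (1 + t • g) := by simpa using hend 0 (Or.inl rfl)
  have e1 : G 1 = vol ν (1 + (-t) • g) := by
    rw [hend 1 (Or.inr rfl)]; norm_num
  have s0 := hslope 0 dp (Or.inl rfl) (by simpa using hdp)
  have s1 := hslope 1 dm (Or.inr rfl) (by norm_num; exact hdm)
  have h := hcmp (1 / 2)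
  rw [hmid, e0, e1, s0, s1, show (1 - 2 * (1 / 2 : ℝ)) * t = 0 by ring, zero_smul, add_zero] at h
  linarith

theorem kink_of (hC : CalcStatement) : KinkStatement := by
  intro N ν hν h1 g p₀ p₁ p₂ a b hright hleft
  obtain ⟨hc1, hc2⟩ := hC N ν hν
  have hline : Continuous fun s : ℝ => 1 + s • g := by fun_prop
  have hfull : ∀ᶠ s in 𝓝 (0 : ℝ), Full ν (1 + s • g) :=
    (hline.tendsto 0).eventually (hc2.isOpen.mem_nhds (by simpa using h1))
  have hneg : Tendsto (fun s : ℝ => -s) (𝓝[>] 0) (𝓝[<] 0) := by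
    simpa using tendsto_neg_nhdsGT (a := (0 : ℝ))
  have hneg0 : Tendsto (fun s : ℝ => -s) (𝓝[>] 0) (𝓝 0) := hneg.mono_right nhdsWithin_le_nhds
  have hv0 : vol ν 1 = p₀ := by
    have hcont : Tendsto (fun s : ℝ => vol ν (1 + s • g)) (𝓝[>] 0) (𝓝 (vol ν 1)) := by
      have hd := hasDerivAt_vol hc1 (c := fun s : ℝ => 1 + s • g)
        (((hasDerivAt_id (0 : ℝ)).smul_const g).const_add 1) (by simp)
      simpa using hd.continuousAt.tendsto.mono_left nhdsWithin_le_nhds
    have hpoly : Tendsto (fun s : ℝ => p₀ + p₁ * s + p₂ * s ^ 2 + a * s ^ 3) (𝓝[>] 0) (𝓝 p₀) := by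
      have : Continuous fun s : ℝ => p₀ + p₁ * s + p₂ * s ^ 2 + a * s ^ 3 := by fun_prop
      simpa using (this.tendsto 0).mono_left nhdsWithin_le_nhds
    exact tendsto_nhds_unique (hcont.congr' hright) hpoly
  obtain ⟨t, ⟨⟨⟨hp, hm⟩, ⟨hr, hl⟩⟩, ht⟩⟩ :=
    ((((hfull.filter_mono nhdsWithin_le_nhds).and (hneg0.eventually hfull)).and
      ((eventually_eventually_nhdsWithin.2 hright).and
        (hneg.eventually (eventually_eventually_nhdsWithin.2 hleft)))).and
      self_mem_nhdsWithin).exists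
  have hpd : ∀ c x : ℝ, HasDerivAt (fun s : ℝ => p₀ + p₁ * s + p₂ * s ^ 2 + c * s ^ 3)
      (p₁ + 2 * p₂ * x + 3 * c * x ^ 2) x := fun c x =>
    (((((hasDerivAt_id x).const_mul p₁).const_add p₀).add
      ((hasDerivAt_pow 2 x).const_mul p₂)).add ((hasDerivAt_pow 3 x).const_mul c)).congr_deriv
      (by simp; ring)
  have ht' : -t < 0 := neg_neg_iff_pos.2 ht
  rw [nhdsWithin_eq_nhds.2 (Ioi_mem_nhds ht)] at hr
  rw [nhdsWithin_eq_nhds.2 (Iio_mem_nhds ht')] at hl
  have h := midpoint_bound hC hν hp hm ((hpd a t).congr_of_eventuallyEq hr)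
    ((hpd b (-t)).congr_of_eventuallyEq hl)
  rw [hr.self_of_nhds, hl.self_of_nhds, hv0] at h
  have h3 : 0 < t ^ 3 := pow_pos ht 3
  nlinarith

end

end Vale.Agent.P227.Lp
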