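import Vale.Agent.P227.Lp.Merge
import Vale.Agent.P227.Lp.Defs3

/-!
# P227: the energy does not drop in the limit

Every edge of the limit body carries test lines on which, at late steps, only members of the two
classes are on top. Members of vanishing mass have vanishing cells, so Fubini chooses lines on which
they are rarely on top; the chain inequality bounds the jump across the edge by the energy in the
cone of the edge, and these cones are disjoint.
-/

namespace Vale.Agent.P227.Lp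

open MeasureTheory Set Filter Topology Matrix Function

noncomputable section

variable {N M : ℕ}

namespace Liminf

theorem eventually_pos {X : Type*} [TopologicalSpace X] {K : Set X} (hK : IsCompact K)
    {ν : ℕ → Fin N → V3} {νl : Fin N → V3} (hν : Tendsto ν atTop (𝓝 νl))
    {F : (Fin N → V3) × X → ℝ} (hF : Continuous F) (h : ∀ z ∈ K, 0 < F (νl, z)) :
    ∀ᶠ k in atTop, ∀ z ∈ K, 0 < F (ν k, z) :=
  hν.eventually (hK.eventually_forall_of_forall_eventually (P := fun v z => 0 < F (v, z)) fun z hz =>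
    hF.continuousAt.eventually (eventually_gt_nhds (h z hz)))

theorem isClosed_body (ν : Fin N → V3) : IsClosed (body ν 1) := by
  simp only [body, ofPred_forall]
  exact isClosed_iInter fun i => isClosed_le (by fun_prop) continuous_const

/-- A direction of the body that reaches the top over the interior of a facet is the facet's. -/
theorem gap_of_body {νl : Fin N → V3} {u : Fin M → V3} (hbody : body νl 1 = body u 1) {l₀ : Fin M}
    {σ : ℝ} (hσ : σ = 1 ∨ σ = -1) {P : V3} (hP : ∀ l, l ≠ l₀ → |u l ⬝ᵥ P| < (σ • u l₀) ⬝ᵥ P)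
    (hP0 : 0 < (σ • u l₀) ⬝ᵥ P) (i : Fin N) :
    |νl i ⬝ᵥ P| < (σ • u l₀) ⬝ᵥ P ∨
      (|νl i ⬝ᵥ P| = (σ • u l₀) ⬝ᵥ P ∧ (νl i = u l₀ ∨ νl i = -u l₀)) := by
  set w := σ • u l₀
  have hev : ∀ᶠ z in 𝓝 P, 0 < w ⬝ᵥ z ∧ ∀ l, l ≠ l₀ → |u l ⬝ᵥ z| < w ⬝ᵥ z := by
    refine ((continuous_const.dotProduct continuous_id).continuousAt.eventually
      (eventually_gt_nhds hP0)).and (eventually_all.2 fun l => ?_)
    by_cases hl : l = l₀
    · exact Eventually.of_forall fun z h => absurd hl h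
    · have hc : Continuous fun z : V3 => w ⬝ᵥ z - |u l ⬝ᵥ z| := by fun_prop
      exact (hc.continuousAt.eventually
        (eventually_gt_nhds (sub_pos.2 (hP l hl)))).mono fun z hz _ => sub_pos.1 hz
  have hle : ∀ᶠ z in 𝓝 P, |νl i ⬝ᵥ z| ≤ w ⬝ᵥ z := by
    filter_upwards [hev] with z ⟨hz0, hz⟩
    have hmem : (w ⬝ᵥ z)⁻¹ • z ∈ body u 1 := fun l => by
      rw [dotProduct_smul, smul_eq_mul, abs_mul, abs_of_pos (inv_pos.2 hz0), inv_mul_le_iff₀ hz0,
        Pi.one_apply, mul_one]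
      rcases eq_or_ne l l₀ with rfl | hl
      · refine le_of_eq ?_
        rw [← abs_of_pos hz0]
        simp only [w, smul_dotProduct, smul_eq_mul, abs_mul]
        rcases hσ with rfl | rfl <;> simp
      · exact (hz l hl).le
    rw [← hbody] at hmem
    have h := hmem i
    rwa [dotProduct_smul, smul_eq_mul, abs_mul, abs_of_pos (inv_pos.2 hz0), inv_mul_le_iff₀ hz0,
      Pi.one_apply, mul_one] at h
  rcases (hle.self_of_nhds).lt_or_eq with h | h
  · exact Or.inl h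
  refine Or.inr ⟨h, ?_⟩
  obtain ⟨τ, hτ, hτP⟩ : ∃ τ : ℝ, (τ = 1 ∨ τ = -1) ∧ (τ • νl i) ⬝ᵥ P = w ⬝ᵥ P := by
    rcases abs_choice (νl i ⬝ᵥ P) with h' | h'
    · exact ⟨1, Or.inl rfl, by rw [one_smul, ← h, h']⟩
    · exact ⟨-1, Or.inr rfl, by rw [neg_one_smul, neg_dotProduct, ← h, h']⟩
  set v := τ • νl i - w
  have hv : ∀ z, |νl i ⬝ᵥ z| ≤ w ⬝ᵥ z → v ⬝ᵥ z ≤ 0 := fun z hz => by
    have := abs_le.1 hz
    simp only [v, sub_dotProduct, smul_dotProduct, smul_eq_mul]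
    rcases hτ with rfl | rfl <;> linarith [this.1, this.2]
  have hline : Tendsto (fun δ : ℝ => P + δ • v) (𝓝 0) (𝓝 P) := by
    have hc : Continuous fun δ : ℝ => P + δ • v := by fun_prop
    simpa using hc.tendsto 0
  obtain ⟨δ, hδ, hδ0⟩ := (((hline.eventually hle).filter_mono nhdsWithin_le_nhds).and
    (self_mem_nhdsWithin : ∀ᶠ δ : ℝ in 𝓝[>] 0, δ ∈ Ioi (0 : ℝ))).exists
  have h1 := hv _ hδ
  have h2 : v ⬝ᵥ P = 0 := by simp only [v, sub_dotProduct, hτP, sub_self]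
  rw [dotProduct_add, h2, zero_add, dotProduct_smul, smul_eq_mul] at h1
  have h3 : v ⬝ᵥ v ≤ 0 := le_of_mul_le_mul_left (h1.trans_eq (mul_zero δ).symm) hδ0
  have hv0 : v = 0 := dotProduct_self_eq_zero.1
    (le_antisymm h3 (Finset.sum_nonneg fun j _ => mul_self_nonneg _))
  have e : τ • νl i = σ • u l₀ := sub_eq_zero.1 hv0
  rcases hτ with rfl | rfl <;> rcases hσ with rfl | rfl <;>
    simp only [one_smul, neg_one_smul] at e
  · exact Or.inl e
  · exact Or.inr e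
  · exact Or.inr (neg_eq_iff_eq_neg.1 e)
  · exact Or.inl (neg_inj.1 e)

/-- At late steps the top over the facet `l₀` is a member of its class, with the expected sign. -/
theorem top_eventually {ν : ℕ → Fin N → V3} {νl : Fin N → V3} (hν : Tendsto ν atTop (𝓝 νl))
    {e : Fin M → Fin N} (hbody : body νl 1 = body (νl ∘ e) 1) {l₀ : Fin M} {σ : ℝ}
    (hσ : σ = 1 ∨ σ = -1) {Γ : ℝ} {K : Set V3} (hK : IsCompact K)
    (hKP : ∀ z ∈ K, (∀ l, l ≠ l₀ → |(νl ∘ e) l ⬝ᵥ z| < (σ • νl (e l₀)) ⬝ᵥ z) ∧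
      0 < (σ • νl (e l₀)) ⬝ᵥ z ∧ (σ • νl (e l₀)) ⬝ᵥ z < Γ ∧ (σ • νl (e l₀)) ⬝ᵥ z < 1) :
    ∀ᶠ k in atTop, ∀ z ∈ K, ∃ (i : Fin N) (τ : ℝ), (νl i = νl (e l₀) ∨ νl i = -νl (e l₀)) ∧
      (τ = 1 ∨ τ = -1) ∧ τ • νl i = σ • νl (e l₀) ∧ IsTop (ν k) i τ z ∧
      τ * (ν k i ⬝ᵥ z) ≤ Γ ∧ z ∈ cell (ν k) i := by
  classical
  set w := σ • νl (e l₀) with hw
  have hcase : ∀ i z, z ∈ K → |νl i ⬝ᵥ z| ≤ w ⬝ᵥ z := fun i z hz => by
    rcases gap_of_body hbody hσ (hKP z hz).1 (hKP z hz).2.1 i with h | h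
    exacts [h.le, h.1.le]
  set τ₀ : Fin N → ℝ := fun i => if νl i = w then 1 else -1
  have hτ₀ : ∀ i, (νl i = νl (e l₀) ∨ νl i = -νl (e l₀)) → τ₀ i • νl i = w := fun i hi => by
    simp only [τ₀]
    split_ifs with h
    · rw [one_smul, h]
    · rw [neg_one_smul]
      rcases hσ with rfl | rfl <;> simp only [hw, one_smul, neg_one_smul] at h ⊢ <;>
        rcases hi with h' | h'
      · exact absurd h' h
      · rw [h', neg_neg]
      · rw [h']
      · exact absurd h' h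
  have E1 : ∀ᶠ k in atTop, ∀ i, ∀ z ∈ K, |ν k i ⬝ᵥ z| < Γ ∧ |ν k i ⬝ᵥ z| < 1 :=
    eventually_all.2 fun i => by
      have hA := eventually_pos hK hν (F := fun p => Γ - |p.1 i ⬝ᵥ p.2|) (by fun_prop)
        fun z hz => sub_pos.2 ((hcase i z hz).trans_lt (hKP z hz).2.2.1)
      have hB := eventually_pos hK hν (F := fun p => 1 - |p.1 i ⬝ᵥ p.2|) (by fun_prop)
        fun z hz => sub_pos.2 ((hcase i z hz).trans_lt (hKP z hz).2.2.2)
      filter_upwards [hA, hB] with k a b z hz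
      exact ⟨sub_pos.1 (a z hz), sub_pos.1 (b z hz)⟩
  have E2 : ∀ᶠ k in atTop, ∀ i, ¬(νl i = νl (e l₀) ∨ νl i = -νl (e l₀)) → ∀ z ∈ K,
      |ν k i ⬝ᵥ z| < |ν k (e l₀) ⬝ᵥ z| := eventually_all.2 fun i => by
    by_cases hi : νl i = νl (e l₀) ∨ νl i = -νl (e l₀)
    · exact Eventually.of_forall fun k h => absurd hi h
    · refine (eventually_pos hK hν (F := fun p => |p.1 (e l₀) ⬝ᵥ p.2| - |p.1 i ⬝ᵥ p.2|)
        (by fun_prop) fun z hz => sub_pos.2 ?_).mono fun k hk _ z hz => sub_pos.1 (hk z hz)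
      rcases gap_of_body hbody hσ (hKP z hz).1 (hKP z hz).2.1 i with h | h
      · refine h.trans_eq ?_
        rw [show |νl (e l₀) ⬝ᵥ z| = |w ⬝ᵥ z| by
          simp only [hw, smul_dotProduct, smul_eq_mul, abs_mul]
          rcases hσ with rfl | rfl <;> simp]
        exact (abs_of_pos (hKP z hz).2.1).symm
      · exact absurd h.2 hi
  have E3 : ∀ᶠ k in atTop, ∀ i, (νl i = νl (e l₀) ∨ νl i = -νl (e l₀)) → ∀ z ∈ K,
      0 < τ₀ i * (ν k i ⬝ᵥ z) := eventually_all.2 fun i => by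
    by_cases hi : νl i = νl (e l₀) ∨ νl i = -νl (e l₀)
    · refine (eventually_pos hK hν (F := fun p => τ₀ i * (p.1 i ⬝ᵥ p.2))
        (by fun_prop) fun z hz => ?_).mono fun k hk _ => hk
      rw [← smul_eq_mul, ← smul_dotProduct, hτ₀ i hi]
      exact (hKP z hz).2.1
    · exact Eventually.of_forall fun k h => absurd h hi
  filter_upwards [E1, E2, E3] with k h1 h2 h3 z hz
  obtain ⟨i, -, hmax⟩ := Finset.exists_max_image Finset.univ (fun i => |ν k i ⬝ᵥ z|)
    ⟨e l₀, Finset.mem_univ _⟩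
  have hi : νl i = νl (e l₀) ∨ νl i = -νl (e l₀) := by
    by_contra hno
    exact (h2 i hno z hz).not_ge (hmax _ (Finset.mem_univ _))
  have hτ : τ₀ i = 1 ∨ τ₀ i = -1 := by
    simp only [τ₀]; split_ifs
    exacts [Or.inl rfl, Or.inr rfl]
  have habs : τ₀ i * (ν k i ⬝ᵥ z) = |ν k i ⬝ᵥ z| := by
    rw [← abs_of_pos (h3 i hi z hz), abs_mul]
    rcases hτ with h | h <;> simp [h]
  exact ⟨i, τ₀ i, hi, hτ, hτ₀ i hi, ⟨hτ, fun l => (hmax l (Finset.mem_univ _)).trans_eq habs.symm⟩,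
    habs.trans_le (h1 i z hz).1.le, fun l => (h1 l z hz).2.le, fun l => hmax l (Finset.mem_univ _)⟩

/-- A line on which a small set is met for a short time. -/
theorem exists_line {x d : V3} {ρ t₀ t₁ δ : ℝ} (hρ : 0 < ρ) (hδ : 0 < δ) {Z : Set V3}
    (hZ : MeasurableSet Z)
    (hsmall : ENNReal.ofReal (t₁ - t₀) * volume Z
      < ENNReal.ofReal δ * volume (Metric.closedBall x ρ)) :
    ∃ x' ∈ Metric.closedBall x ρ,
      volume {t : ℝ | t ∈ Icc t₀ t₁ ∧ x' + t • d ∈ Z} ≤ ENNReal.ofReal δ := by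
  by_contra hcon
  push Not at hcon
  set B := Metric.closedBall x ρ
  set T : Set (V3 × ℝ) := {q | q.1 ∈ B ∧ q.2 ∈ Icc t₀ t₁ ∧ q.1 + q.2 • d ∈ Z}
  have hBm : MeasurableSet B := Metric.isClosed_closedBall.measurableSet
  have hTm : MeasurableSet T := by
    have hc : Continuous fun q : V3 × ℝ => q.1 + q.2 • d := by fun_prop
    exact (measurable_fst hBm).inter ((measurable_snd measurableSet_Icc).inter (hc.measurable hZ))
  have e1 : ∫⁻ p : V3, volume {t : ℝ | (p, t) ∈ T} = ∫⁻ t : ℝ, volume {p : V3 | (p, t) ∈ T} :=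
    (Measure.prod_apply hTm).symm.trans (Measure.prod_apply_symm hTm)
  have lo : ENNReal.ofReal δ * volume B ≤ ∫⁻ p : V3, volume {t : ℝ | (p, t) ∈ T} := by
    rw [← setLIntegral_const]
    refine (setLIntegral_mono' hBm fun p hp => ?_).trans (setLIntegral_le_lintegral _ _)
    exact (hcon p hp).le.trans (measure_mono fun t ht => ⟨hp, ht.1, ht.2⟩)
  have hi : ∫⁻ t : ℝ, volume {p : V3 | (p, t) ∈ T} ≤ ENNReal.ofReal (t₁ - t₀) * volume Z := by
    rw [mul_comm, ← Real.volume_Icc, ← setLIntegral_const]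
    rw [← lintegral_indicator measurableSet_Icc]
    refine lintegral_mono fun t => ?_
    by_cases ht : t ∈ Icc t₀ t₁
    · rw [Set.indicator_of_mem ht]
      refine (measure_mono (t := (fun p : V3 => p + t • d) ⁻¹' Z) fun p hp => hp.2.2).trans ?_
      rw [measure_preimage_add_right]
    · rw [Set.indicator_of_notMem ht, nonpos_iff_eq_zero]
      exact measure_mono_null (fun p hp => absurd hp.2.1 ht) measure_empty
  exact (lo.trans (e1.le.trans hi)).not_gt hsmall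

/-- The symmetric cone of a pair. -/
def doubleCone (u : Fin M → V3) (j j' : Fin M) (σ : ℝ) : Set V3 :=
  {z | 0 < σ * ((u j ⬝ᵥ z) * (u j' ⬝ᵥ z)) ∧
    ∀ l, l ≠ j → l ≠ j' → |u l ⬝ᵥ z| < |u j ⬝ᵥ z| ∧ |u l ⬝ᵥ z| < |u j' ⬝ᵥ z|}

theorem isOpen_doubleCone (u : Fin M → V3) (j j' : Fin M) (σ : ℝ) :
    IsOpen (doubleCone u j j' σ) := by
  simp only [doubleCone, ofPred_and, ofPred_forall]
  refine (isOpen_lt continuous_const (by fun_prop)).inter (isOpen_iInter_of_finite fun l =>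
    isOpen_iInter_of_finite fun _ => isOpen_iInter_of_finite fun _ => ?_)
  exact (isOpen_lt (by fun_prop) (by fun_prop)).inter (isOpen_lt (by fun_prop) (by fun_prop))

theorem window_subset {u : Fin M → V3} {j j' : Fin M} {σ : ℝ} (hσ : σ = 1 ∨ σ = -1) {x y d : V3}
    {I : Set ℝ} (h : ∀ t ∈ I, x + t • d ∈ pairCone u j j' σ ∧ y + t • d ∈ pairCone u j j' σ) :
    window x y d I ⊆ doubleCone u j j' σ := by
  rintro z ⟨t, ht, θ, ⟨hθ0, hθ1⟩, r, hr, rfl⟩
  obtain ⟨⟨a1, a2, a3⟩, ⟨b1, b2, b3⟩⟩ := h t ht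
  set P := x + t • d
  set Q := y + t • d
  have hmix : ∀ {p q p' q' : ℝ}, p < p' → q < q' →
      (1 - θ) * p + θ * q < (1 - θ) * p' + θ * q' := fun hp hq => by
    rcases hθ0.eq_or_lt with h | h
    · subst h; linarith
    · exact add_lt_add_of_le_of_lt (mul_le_mul_of_nonneg_left hp.le (by linarith))
        (mul_lt_mul_of_pos_left hq h)
  have e1 : 0 < u j ⬝ᵥ ((1 - θ) • P + θ • Q) := by
    simpa [dotProduct_add, dotProduct_smul] using hmix a1 b1
  have e2 : 0 < σ * (u j' ⬝ᵥ ((1 - θ) • P + θ • Q)) := by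
    have := hmix a2 b2
    simp only [dotProduct_add, dotProduct_smul, smul_eq_mul]
    linarith
  refine ⟨?_, fun l hl hl' => ?_⟩
  · simp only [dotProduct_smul, smul_eq_mul]
    have : 0 < r * r := mul_self_pos.2 hr
    calc (0 : ℝ) < (r * r) * ((u j ⬝ᵥ ((1 - θ) • P + θ • Q))
          * (σ * (u j' ⬝ᵥ ((1 - θ) • P + θ • Q)))) := mul_pos this (mul_pos e1 e2)
      _ = _ := by
          simp only [dotProduct_add, dotProduct_smul, smul_eq_mul]
          ring
  · have hz : |u l ⬝ᵥ ((1 - θ) • P + θ • Q)|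
        ≤ (1 - θ) * |u l ⬝ᵥ P| + θ * |u l ⬝ᵥ Q| := by
      simp only [dotProduct_add, dotProduct_smul, smul_eq_mul]
      refine (abs_add_le _ _).trans (le_of_eq ?_)
      rw [abs_mul, abs_mul, abs_of_nonneg (sub_nonneg.2 hθ1), abs_of_nonneg hθ0]
    have g1 : |u l ⬝ᵥ ((1 - θ) • P + θ • Q)| < u j ⬝ᵥ ((1 - θ) • P + θ • Q) := by
      refine hz.trans_lt ((hmix (a3 l hl hl').1 (b3 l hl hl').1).trans_eq ?_)
      simp only [dotProduct_add, dotProduct_smul, smul_eq_mul]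
    have g2 : |u l ⬝ᵥ ((1 - θ) • P + θ • Q)| < σ * (u j' ⬝ᵥ ((1 - θ) • P + θ • Q)) := by
      refine hz.trans_lt ((hmix (a3 l hl hl').2 (b3 l hl hl').2).trans_eq ?_)
      simp only [dotProduct_add, dotProduct_smul, smul_eq_mul]
      ring
    simp only [dotProduct_smul r, smul_eq_mul, abs_mul r]
    refine ⟨mul_lt_mul_of_pos_left (g1.trans_le (le_abs_self _)) (abs_pos.2 hr),
      mul_lt_mul_of_pos_left (g2.trans_le ?_) (abs_pos.2 hr)⟩
    refine (le_abs_self _).trans (le_of_eq ?_)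
    rw [abs_mul]
    rcases hσ with rfl | rfl <;> simp

theorem doubleCone_disjoint {u : Fin M → V3} {j j' l l' : Fin M} {σ σ' : ℝ}
    (hσ : σ = 1 ∨ σ = -1) (hσ' : σ' = 1 ∨ σ' = -1) (hj : j < j') (hl : l < l')
    (hne : ¬(j = l ∧ j' = l' ∧ σ = σ')) :
    Disjoint (doubleCone u j j' σ) (doubleCone u l l' σ') := by
  refine Set.disjoint_left.2 fun z ⟨h1, h2⟩ ⟨h1', h2'⟩ => hne ?_
  have key : (j = l ∨ j = l') ∧ (j' = l ∨ j' = l') := by
    by_contra hcon
    obtain ⟨m, hm1, hm2, hm⟩ : ∃ m, (m = j ∨ m = j') ∧ m ≠ l ∧ m ≠ l' := by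
      by_cases h : j = l ∨ j = l'
      · exact ⟨j', Or.inr rfl, fun e => hcon ⟨h, Or.inl e⟩, fun e => hcon ⟨h, Or.inr e⟩⟩
      · exact ⟨j, Or.inl rfl, fun e => h (Or.inl e), fun e => h (Or.inr e)⟩
    obtain ⟨a, b⟩ := h2' m hm2 hm
    rcases em (l = j ∨ l = j') with hlj | hlj
    · have hl' : l' ≠ j ∧ l' ≠ j' := by
        refine ⟨fun e => ?_, fun e => ?_⟩ <;> subst e <;> rcases hlj with rfl | rfl
        · exact hl.false
        · exact (hl.trans hj).false
        · exact hcon ⟨Or.inl rfl, Or.inr rfl⟩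
        · exact hl.false
      obtain ⟨c, c'⟩ := h2 l' hl'.1 hl'.2
      rcases hm1 with rfl | rfl <;> linarith
    · obtain ⟨c, c'⟩ := h2 l (fun e => hlj (Or.inl e)) fun e => hlj (Or.inr e)
      rcases hm1 with rfl | rfl <;> linarith
  obtain ⟨ha | ha, hb | hb⟩ := key
  · exact absurd (ha.trans hb.symm) hj.ne
  · subst ha hb
    refine ⟨rfl, rfl, ?_⟩
    rcases hσ with rfl | rfl <;> rcases hσ' with rfl | rfl <;> first | rfl | linarith
  · subst ha hb
    exact absurd (hl.trans hj) (lt_irrefl _)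
  · exact absurd (ha.trans hb.symm) hj.ne

theorem line_bounded (hpart : PartStatement) {ν : Fin N → V3} (hν : Fam ν) (hF : Full ν 1)
    {i j : Fin N} (hij : i ≠ j) {σ : ℝ} (hσ : σ = 1 ∨ σ = -1) :
    Bornology.IsBounded {s : ℝ | linePoint ν i j σ + s • crossProduct (ν i) (ν j)
      ∈ edge ν 1 i j σ} := by
  obtain ⟨R', hR'⟩ := (hpart N ν hν hF i j hij σ hσ).1.isBounded.exists_norm_le
  set c := crossProduct (ν i) (ν j)
  have hc0 : 0 < ‖c‖ := norm_pos_iff.2 (hν.indep i j hij)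
  refine (Metric.isBounded_closedBall (x := (0 : ℝ))
    (r := (R' + ‖linePoint ν i j σ‖) / ‖c‖)).subset fun s hs => ?_
  rw [mem_closedBall_zero_iff, le_div_iff₀ hc0, ← norm_smul]
  have := norm_sub_le (linePoint ν i j σ + s • c) (linePoint ν i j σ)
  rw [add_sub_cancel_left] at this
  linarith [hR' _ hs]

theorem partW_nonneg (ν : Fin N → V3) (i j : Fin N) (σ : ℝ) (R : Set V3) :
    0 ≤ partW ν i j σ R := ENNReal.toReal_nonneg

theorem partW_mono (hpart : PartStatement) {ν : Fin N → V3} (hν : Fam ν) (hF : Full ν 1)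
    {i j : Fin N} (hij : i ≠ j) {σ : ℝ} (hσ : σ = 1 ∨ σ = -1) {R R' : Set V3} (h : R ⊆ R') :
    partW ν i j σ R ≤ partW ν i j σ R' :=
  ENNReal.toReal_mono (((line_bounded hpart hν hF hij hσ).subset fun s hs => hs.1).measure_lt_top.ne)
    (measure_mono fun s hs => ⟨hs.1, h hs.2⟩)

theorem sum_partW_le (hpart : PartStatement) {ν : Fin N → V3} (hν : Fam ν) (hF : Full ν 1)
    {i j : Fin N} (hij : i ≠ j) {σ : ℝ} (hσ : σ = 1 ∨ σ = -1) {κ : Type*} (Q : Finset κ)
    (R : κ → Set V3) (hR : ∀ p ∈ Q, MeasurableSet (R p))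
    (hd : Set.PairwiseDisjoint (↑Q) R) :
    ∑ p ∈ Q, partW ν i j σ (R p) ≤ edgeW ν 1 i j σ := by
  obtain ⟨hc, he⟩ := hpart N ν hν hF i j hij σ hσ
  rw [← he]
  have hfin : ∀ R' : Set V3, volume {s : ℝ | linePoint ν i j σ + s • crossProduct (ν i) (ν j)
      ∈ edge ν 1 i j σ ∩ R'} ≠ ⊤ := fun R' =>
    (((line_bounded hpart hν hF hij hσ).subset fun s hs => hs.1).measure_lt_top).ne
  simp only [partW]
  rw [← ENNReal.toReal_sum fun p _ => hfin _]
  refine ENNReal.toReal_mono (hfin _) ?_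
  have hcont : Continuous fun s : ℝ => linePoint ν i j σ + s • crossProduct (ν i) (ν j) := by
    fun_prop
  refine ((measure_biUnion_finset (μ := (volume : Measure ℝ)) (s := Q)
    (f := fun p => {s : ℝ | linePoint ν i j σ + s • crossProduct (ν i) (ν j)
      ∈ edge ν 1 i j σ ∩ R p}) (fun p hp q hq hpq => ?_) fun p hp => hcont.measurable
    (hc.isClosed.measurableSet.inter (hR p hp))).symm).trans_le ?_
  · exact Set.disjoint_left.2 fun s hs hs' => Set.disjoint_left.1 (hd hp hq hpq) hs.2 hs'.2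
  · exact measure_mono (iUnion₂_subset fun p _ s hs => ⟨hs.1, trivial⟩)

/-- At late steps the jump across one edge of the limit body costs energy inside its cone. -/
theorem pair_le (hchain : ChainStatement) (hpart : PartStatement) (hcell : CellStatement)
    (hedge : EdgeStatement) {ν : ℕ → Fin N → V3} {φ : ℕ → Fin N → ℝ} {νl : Fin N → V3}
    {φl μ : Fin N → ℝ} {e : Fin M → Fin N} {cls : Fin N → Option (Fin M)} {a : Fin M → ℝ}
    (hk : ∀ k, Fam (ν k) ∧ Full (ν k) 1 ∧ Round (ν k)) (hν : Tendsto ν atTop (𝓝 νl))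
    (hφ : Tendsto φ atTop (𝓝 φl)) (hμ : ∀ i, Tendsto (fun k => mass (ν k) i) atTop (𝓝 (μ i)))
    (hμ0 : ∀ i, 0 ≤ μ i) {V : ℝ} (hvol : Tendsto (fun k => vol (ν k) 1) atTop (𝓝 V))
    (hu : Fam (νl ∘ e)) (hF : Full (νl ∘ e) 1) (hbody : body νl 1 = body (νl ∘ e) 1)
    (hcls : ∀ i j, cls i = some j ↔ νl i = νl (e j) ∨ νl i = -νl (e j))
    (hval : ∀ i j, cls i = some j → 0 < μ i → φl i = a j)
    {j j' : Fin M} (hjj : j ≠ j') {σ : ℝ} (hσ : σ = 1 ∨ σ = -1)
    (hw : 0 < edgeW (νl ∘ e) 1 j j' σ) {ε : ℝ} (hε : 0 < ε) (hε1 : ε < 1) :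
    ∀ᶠ k in atTop, (1 - ε) ^ 2 * edgeW (νl ∘ e) 1 j j' σ * max (|a j - a j'| - 2 * ε) 0 ^ 2 ≤
      ∑ i, ∑ l ∈ Finset.univ.filter (i < ·), (φ k i - φ k l) ^ 2 *
        (partW (ν k) i l 1 (doubleCone (νl ∘ e) j j' σ)
          + partW (ν k) i l (-1) (doubleCone (νl ∘ e) j j' σ)) := by
  classical
  set u := νl ∘ e
  obtain ⟨x, y, t₀, t₁, ρ, Γ, S, ht, hρ, hΓ, hS, hline⟩ :=
    hedge M u hu hF j j' σ hjj hσ hw ε hε hε1
  set d := crossProduct (u j) (u j')
  set BX := Metric.closedBall x ρ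
  set BY := Metric.closedBall y ρ
  set KX := (fun p : V3 × ℝ => p.1 + p.2 • d) '' (BX ×ˢ Icc t₀ t₁)
  set KY := (fun p : V3 × ℝ => p.1 + p.2 • d) '' (BY ×ˢ Icc t₀ t₁)
  have hKX : IsCompact KX :=
    ((isCompact_closedBall _ _).prod isCompact_Icc).image (by fun_prop)
  have hKY : IsCompact KY :=
    ((isCompact_closedBall _ _).prod isCompact_Icc).image (by fun_prop)
  have hxm : x ∈ BX := Metric.mem_closedBall_self hρ.le
  have hym : y ∈ BY := Metric.mem_closedBall_self hρ.le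
  have T1 := top_eventually hν hbody (l₀ := j) (σ := 1) (Γ := Γ) (Or.inl rfl) hKX fun z hz => by
    obtain ⟨⟨x', t⟩, ⟨hx', htI⟩, rfl⟩ := hz
    obtain ⟨h1, h2, h3, -, -, -, h4, -⟩ := (hline x' hx' y hym).2.2 t htI
    rw [one_smul]
    exact ⟨h1, h4.1, h2, h3⟩
  have T2 := top_eventually hν hbody (l₀ := j') (σ := σ) (Γ := Γ) hσ hKY fun z hz => by
    obtain ⟨⟨y', t⟩, ⟨hy', htI⟩, rfl⟩ := hz
    obtain ⟨-, -, -, h1, h2, h3, -, h4⟩ := (hline x hxm y' hy').2.2 t htI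
    rw [smul_dotProduct, smul_eq_mul]
    exact ⟨h1, h4.2.1, h2, h3⟩
  -- the slope, for members of the two classes
  have T3 : ∀ᶠ k in atTop, ∀ (i i' : Fin N) (b b' : Bool),
      (if b then (1 : ℝ) else -1) • νl i = u j → (if b' then (1 : ℝ) else -1) • νl i' = σ • u j' →
      ∀ p ∈ BX ×ˢ BY, (if b' then (1 : ℝ) else -1) * (ν k i' ⬝ᵥ (p.2 - p.1))
        - (if b then (1 : ℝ) else -1) * (ν k i ⬝ᵥ (p.2 - p.1)) < S := by
    simp only [eventually_all]
    intro i i' b b' hb hb'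
    refine (eventually_pos ((isCompact_closedBall _ _).prod (isCompact_closedBall _ _)) hν
      (F := fun q : (Fin N → V3) × (V3 × V3) =>
        S - ((if b' then (1 : ℝ) else -1) * (q.1 i' ⬝ᵥ (q.2.2 - q.2.1))
          - (if b then (1 : ℝ) else -1) * (q.1 i ⬝ᵥ (q.2.2 - q.2.1)))) (by fun_prop)
      fun p hp => ?_).mono fun k hk p hp => sub_pos.1 (hk p hp)
    have h := (hline p.1 hp.1 p.2 hp.2).1
    rw [← smul_eq_mul _ (νl i' ⬝ᵥ _), ← smul_eq_mul _ (νl i ⬝ᵥ _), ← smul_dotProduct,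
      ← smul_dotProduct, hb, hb', smul_dotProduct, smul_eq_mul]
    linarith
  -- values of the members of positive mass
  have T4 : ∀ᶠ k in atTop, ∀ i l, cls i = some l → 0 < μ i → |φ k i - a l| ≤ ε := by
    simp only [eventually_all]
    intro i l hil hi
    have h := ((tendsto_pi_nhds.1 hφ i).sub_const (a l)).abs
    rw [hval i l hil hi, sub_self, abs_zero] at h
    exact (h.eventually (eventually_le_nhds hε)).mono fun k hk => hk
  -- the cells of vanishing mass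
  set Z : ℕ → Set V3 := fun k => ⋃ i ∈ Finset.univ.filter (fun i => μ i = 0), cell (ν k) i
  have hZm : ∀ k, MeasurableSet (Z k) := fun k =>
    Finset.measurableSet_biUnion _ fun i _ => (isClosed_cell _ i).measurableSet
  have hcellfin : ∀ k i, volume (cell (ν k) i) ≠ ⊤ := fun k i =>
    ((Metric.isBounded_closedBall.subset (cell_subset_ball (hk k).2.2 i)).measure_lt_top).ne
  have hZ : Tendsto (fun k => volume (Z k)) atTop (𝓝 0) := by
    have h0 : Tendsto (fun k => ∑ i ∈ Finset.univ.filter (fun i => μ i = 0),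
        volume (cell (ν k) i)) atTop (𝓝 0) := by
      suffices h : Tendsto (fun k => ∑ i ∈ Finset.univ.filter (fun i => μ i = 0),
          volume (cell (ν k) i)) atTop
          (𝓝 (∑ _i ∈ Finset.univ.filter (fun i => μ i = 0), (0 : ENNReal))) by simpa using h
      refine tendsto_finsetSum _ fun i hi => ?_
      have h := ENNReal.tendsto_ofReal ((hμ i).mul hvol)
      rw [(Finset.mem_filter.1 hi).2, zero_mul, ENNReal.ofReal_zero] at h
      refine h.congr fun k => ?_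
      rw [← hcell N _ (hk k).1 (hk k).2.1 i, ENNReal.ofReal_toReal (hcellfin k i)]
    exact tendsto_of_tendsto_of_tendsto_of_le_of_le tendsto_const_nhds h0 (fun k => bot_le)
      fun k => measure_biUnion_finset_le _ _
  set δ := ε * (t₁ - t₀) / 2
  have hδ : 0 < δ := by have := sub_pos.2 ht; positivity
  have small : ∀ c : V3, ∀ᶠ k in atTop, ENNReal.ofReal (t₁ - t₀) * volume (Z k)
      < ENNReal.ofReal δ * volume (Metric.closedBall c ρ) := fun c => by
    have h : Tendsto (fun k => ENNReal.ofReal (t₁ - t₀) * volume (Z k)) atTop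
        (𝓝 (ENNReal.ofReal (t₁ - t₀) * 0)) :=
      ENNReal.Tendsto.const_mul hZ (Or.inr ENNReal.ofReal_ne_top)
    rw [mul_zero] at h
    exact h.eventually (eventually_lt_nhds (ENNReal.mul_pos (ENNReal.ofReal_pos.2 hδ).ne'
      (Metric.measure_closedBall_pos volume c hρ).ne'))
  filter_upwards [T1, T2, T3, T4, small x, small y] with k hT1 hT2 hT3 hT4 hsx hsy
  obtain ⟨h1, h2, -⟩ := hk k
  obtain ⟨x', hx', hbx⟩ := exists_line (d := d) hρ hδ (hZm k) hsx
  obtain ⟨y', hy', hby⟩ := exists_line (d := d) hρ hδ (hZm k) hsy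
  set I : Set ℝ := {t | t ∈ Icc t₀ t₁ ∧ x' + t • d ∉ Z k ∧ y' + t • d ∉ Z k}
  have hIm : MeasurableSet I := measurableSet_Icc.inter
    (((by fun_prop : Continuous fun t : ℝ => x' + t • d).measurable (hZm k)).compl.inter
      ((by fun_prop : Continuous fun t : ℝ => y' + t • d).measurable (hZm k)).compl)
  have hIb : I ⊆ Icc t₀ t₁ := fun t ht => ht.1
  have hIfin : volume I ≠ ⊤ := ((measure_mono hIb).trans_lt isCompact_Icc.measure_lt_top).ne
  have hI : (1 - ε) * (t₁ - t₀) ≤ (volume I).toReal := by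
    have hcover : Icc t₀ t₁ ⊆ I ∪ {t | t ∈ Icc t₀ t₁ ∧ x' + t • d ∈ Z k}
        ∪ {t | t ∈ Icc t₀ t₁ ∧ y' + t • d ∈ Z k} := fun t htI => by
      by_cases ha : x' + t • d ∈ Z k
      · exact Or.inl (Or.inr ⟨htI, ha⟩)
      by_cases hb : y' + t • d ∈ Z k
      · exact Or.inr ⟨htI, hb⟩
      · exact Or.inl (Or.inl ⟨htI, ha, hb⟩)
    have h : ENNReal.ofReal (t₁ - t₀) ≤ volume I + ENNReal.ofReal δ + ENNReal.ofReal δ := by
      rw [← Real.volume_Icc]
      exact (measure_mono hcover).trans ((measure_union_le _ _).trans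
        (add_le_add ((measure_union_le _ _).trans (add_le_add le_rfl hbx)) hby))
    have h' := ENNReal.toReal_mono (by simp [hIfin]) h
    rw [ENNReal.toReal_add (by simp [hIfin]) ENNReal.ofReal_ne_top,
      ENNReal.toReal_add hIfin ENNReal.ofReal_ne_top, ENNReal.toReal_ofReal (sub_nonneg.2 ht.le),
      ENNReal.toReal_ofReal hδ.le] at h'
    simp only [δ] at h'
    linarith
  set D := max (|a j - a j'| - 2 * ε) 0
  obtain ⟨-, hdet, hgeo⟩ := hline x' hx' y' hy'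
  have hsub : window x' y' d I ⊆ doubleCone u j j' σ :=
    window_subset hσ fun t ht => (hgeo t (hIb ht)).2.2.2.2.2.2
  have happ := hchain N (ν k) h1 h2 (φ k) x' y' d I D Γ S hIm ((Metric.isBounded_Icc _ _).subset hIb)
    (le_max_right _ _) hΓ ?_
  swap
  · rintro t ⟨htI, hnx, hny⟩
    obtain ⟨i, τ, hic, hτ, hτi, htop, hΓi, hci⟩ := hT1 _ ⟨(x', t), ⟨hx', htI⟩, rfl⟩
    obtain ⟨i', τ', hic', hτ', hτi', htop', hΓi', hci'⟩ := hT2 _ ⟨(y', t), ⟨hy', htI⟩, rfl⟩
    have hpos : ∀ {z : V3} {i : Fin N}, z ∉ Z k → z ∈ cell (ν k) i → 0 < μ i := fun {z i} hz hi =>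
      (hμ0 i).lt_of_ne fun h => hz (Set.mem_biUnion
        (Finset.mem_filter.2 ⟨Finset.mem_univ i, h.symm⟩) hi)
    refine ⟨i, i', τ, τ', htop, htop', hΓi, hΓi', max_le ?_ (abs_nonneg _), ?_⟩
    · have e1 := hT4 i j ((hcls i j).2 hic) (hpos hnx hci)
      have e2 := hT4 i' j' ((hcls i' j').2 hic') (hpos hny hci')
      rw [abs_le] at e1 e2
      have : |a j - a j'| ≤ |φ k i - φ k i'| + 2 * ε := abs_le.2
        ⟨by linarith [neg_abs_le (φ k i - φ k i')], by linarith [le_abs_self (φ k i - φ k i')]⟩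
      linarith
    · rw [← mul_sub, ← dotProduct_sub, ← mul_sub, ← dotProduct_sub, add_sub_add_right_eq_sub]
      rw [one_smul] at hτi
      obtain ⟨b, rfl⟩ : ∃ b : Bool, τ = if b then 1 else -1 := by
        rcases hτ with h | h
        exacts [⟨true, h⟩, ⟨false, h⟩]
      obtain ⟨b', rfl⟩ : ∃ b' : Bool, τ' = if b' then 1 else -1 := by
        rcases hτ' with h | h
        exacts [⟨true, h⟩, ⟨false, h⟩]
      exact (hT3 i i' b b' hτi hτi' (x', y') ⟨hx', hy'⟩).le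
  have hJ : ∑ i, ∑ l ∈ Finset.univ.filter (i < ·), (φ k i - φ k l) ^ 2 *
      (partW (ν k) i l 1 (window x' y' d I) + partW (ν k) i l (-1) (window x' y' d I)) ≤
      ∑ i, ∑ l ∈ Finset.univ.filter (i < ·), (φ k i - φ k l) ^ 2 *
        (partW (ν k) i l 1 (doubleCone u j j' σ) + partW (ν k) i l (-1) (doubleCone u j j' σ)) :=
    Finset.sum_le_sum fun i _ => Finset.sum_le_sum fun l hl => mul_le_mul_of_nonneg_left
      (add_le_add (partW_mono hpart h1 h2 (Finset.mem_filter.1 hl).2.ne (Or.inl rfl) hsub)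
        (partW_mono hpart h1 h2 (Finset.mem_filter.1 hl).2.ne (Or.inr rfl) hsub)) (sq_nonneg _)
  refine le_of_mul_le_mul_left ?_ (show 0 < Γ ^ 2 * S by positivity)
  refine le_trans ?_ (happ.trans (mul_le_mul_of_nonneg_left hJ (by positivity)))
  calc Γ ^ 2 * S * ((1 - ε) ^ 2 * edgeW u 1 j j' σ * D ^ 2)
      = D ^ 2 * ((1 - ε) * ((1 - ε) * edgeW u 1 j j' σ * (Γ ^ 2 * S))) := by ring
    _ ≤ D ^ 2 * ((1 - ε) * ((t₁ - t₀) * |d ⬝ᵥ crossProduct (y' - x') x'|)) :=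
        mul_le_mul_of_nonneg_left (mul_le_mul_of_nonneg_left hdet (by linarith)) (sq_nonneg _)
    _ = D ^ 2 * ((1 - ε) * (t₁ - t₀)) * |d ⬝ᵥ crossProduct (y' - x') x'| := by ring
    _ ≤ _ := mul_le_mul_of_nonneg_right (mul_le_mul_of_nonneg_left hI (sq_nonneg _)) (abs_nonneg _)

end Liminf

open Liminf

/-- The energy does not drop in the limit. -/
theorem liminf_of (hcalc : CalcStatement) (hchain : ChainStatement) (hpart : PartStatement)
    (hcell : CellStatement) (hedge : EdgeStatement) : LiminfStatement := by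
  classical
  intro N M ν φ νl φl μ e cls a s hk hν hφ hμ hu hF hbody hvol _ hcls _ hval hen
  set u := νl ∘ e
  obtain ⟨h1, h2⟩ := hcalc M u hu
  set V := vol u 1
  have hV : 0 < V := h1.vol_pos 1 hF.1
  have hμ0 : ∀ i, 0 ≤ μ i := fun i => ge_of_tendsto' (hμ i) fun k => by
    have hVk := (hcalc N _ (hk k).1).1.vol_pos 1 (hk k).2.1.1
    exact mul_nonneg ((hk k).2.1.2 i).le (inv_nonneg.2 (by positivity))
  set sgn : Bool → ℝ := fun b => if b then 1 else -1
  have hsgn : ∀ b, sgn b = 1 ∨ sgn b = -1 := fun b => by cases b <;> simp [sgn]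
  set Q : Finset ((Fin M × Fin M) × Bool) := Finset.univ.filter fun p => p.1.1 < p.1.2
  set J : ℕ → Set V3 → ℝ := fun k R => ∑ i, ∑ l ∈ Finset.univ.filter (i < ·),
    (φ k i - φ k l) ^ 2 * (partW (ν k) i l 1 R + partW (ν k) i l (-1) R)
  -- each edge, then all of them
  have hpair : ∀ ε : ℝ, 0 < ε → ε < 1 → ∀ p ∈ Q, ∀ᶠ k in atTop,
      (1 - ε) ^ 2 * edgeW u 1 p.1.1 p.1.2 (sgn p.2) * max (|a p.1.1 - a p.1.2| - 2 * ε) 0 ^ 2
        ≤ J k (doubleCone u p.1.1 p.1.2 (sgn p.2)) := by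
    intro ε hε hε1 p hp
    rcases lt_or_ge 0 (edgeW u 1 p.1.1 p.1.2 (sgn p.2)) with hw | hw
    · exact pair_le hchain hpart hcell hedge hk hν hφ hμ hμ0 hvol hu hF hbody hcls hval
        (Finset.mem_filter.1 hp).2.ne (hsgn _) hw hε hε1
    · refine Eventually.of_forall fun k => ?_
      refine le_trans (mul_nonpos_of_nonpos_of_nonneg (mul_nonpos_of_nonneg_of_nonpos (sq_nonneg _) hw)
        (sq_nonneg _)) (Finset.sum_nonneg fun i _ => Finset.sum_nonneg fun l _ => ?_)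
      exact mul_nonneg (sq_nonneg _) (add_nonneg (partW_nonneg _ _ _ _ _) (partW_nonneg _ _ _ _ _))
  have hall : ∀ ε : ℝ, 0 < ε → ε < 1 →
      ∑ p ∈ Q, (1 - ε) ^ 2 * edgeW u 1 p.1.1 p.1.2 (sgn p.2)
        * max (|a p.1.1 - a p.1.2| - 2 * ε) 0 ^ 2 ≤ 3 * V * s := by
    intro ε hε hε1
    refine ge_of_tendsto ((hvol.const_mul 3).mul hen) ?_
    filter_upwards [(Finset.eventually_all Q).2 (hpair ε hε hε1)] with k hk'
    obtain ⟨g1, g2, -⟩ := hk k
    obtain ⟨c1, c2⟩ := hcalc N _ g1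
    have hVk := c1.vol_pos 1 g2.1
    rw [energy_eq c2 g2, mul_div_cancel₀ _ (by positivity : (3 : ℝ) * vol (ν k) 1 ≠ 0)]
    refine (Finset.sum_le_sum hk').trans ?_
    simp only [J]
    rw [Finset.sum_comm]
    refine Finset.sum_le_sum fun i _ => ?_
    rw [Finset.sum_comm]
    refine Finset.sum_le_sum fun l hl => ?_
    rw [← Finset.mul_sum, Finset.sum_add_distrib]
    have hil := (Finset.mem_filter.1 hl).2.ne
    have hd : Set.PairwiseDisjoint (↑Q) fun p : (Fin M × Fin M) × Bool =>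
        doubleCone u p.1.1 p.1.2 (sgn p.2) := by
      intro p hp q hq hpq
      refine doubleCone_disjoint (hsgn _) (hsgn _) (Finset.mem_filter.1 hp).2
        (Finset.mem_filter.1 hq).2 fun ⟨e1, e2, e3⟩ => hpq ?_
      obtain ⟨⟨p1, p2⟩, b⟩ := p
      obtain ⟨⟨q1, q2⟩, b'⟩ := q
      simp only at e1 e2 e3
      subst e1 e2
      cases b <;> cases b' <;> simp [sgn] at e3 ⊢ <;> norm_num at e3
    exact mul_le_mul_of_nonneg_left (add_le_add
      (sum_partW_le hpart g1 g2 hil (Or.inl rfl) Q _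
        (fun p _ => (isOpen_doubleCone _ _ _ _).measurableSet) hd)
      (sum_partW_le hpart g1 g2 hil (Or.inr rfl) Q _
        (fun p _ => (isOpen_doubleCone _ _ _ _).measurableSet) hd)) (sq_nonneg _)
  -- let `ε` tend to `0`
  have hlim : Tendsto (fun ε : ℝ => ∑ p ∈ Q, (1 - ε) ^ 2 * edgeW u 1 p.1.1 p.1.2 (sgn p.2)
      * max (|a p.1.1 - a p.1.2| - 2 * ε) 0 ^ 2) (𝓝[>] 0)
      (𝓝 (∑ p ∈ Q, edgeW u 1 p.1.1 p.1.2 (sgn p.2) * (a p.1.1 - a p.1.2) ^ 2)) := by
    have hc : Continuous fun ε : ℝ => ∑ p ∈ Q, (1 - ε) ^ 2 * edgeW u 1 p.1.1 p.1.2 (sgn p.2)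
        * max (|a p.1.1 - a p.1.2| - 2 * ε) 0 ^ 2 := by fun_prop
    convert (hc.tendsto 0).mono_left nhdsWithin_le_nhds using 2
    refine Finset.sum_congr rfl fun p _ => ?_
    simp
  have hfin := le_of_tendsto hlim (by
    filter_upwards [Ioo_mem_nhdsGT (show (0 : ℝ) < 1 by norm_num)] with ε hε
    exact hall ε hε.1 hε.2)
  rw [energy_eq h2 hF, div_le_iff₀ (by positivity)]
  refine le_trans (le_of_eq ?_) (hfin.trans_eq (by ring))
  rw [Finset.sum_filter, Fintype.sum_prod_type, Fintype.sum_prod_type]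
  refine Finset.sum_congr rfl fun i _ => ?_
  rw [Finset.sum_filter]
  refine Finset.sum_congr rfl fun l _ => ?_
  split_ifs with h <;> simp [sgn]
  ring

end

end Vale.Agent.P227.Lp
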