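import Vale.Agent.P227.Lp.Defs

/-!
# P227: linear normalisation

A triple of points of largest determinant puts the body between the cubes of radius `1` and `3`.
-/

namespace Vale.Agent.P227.Lp

open MeasureTheory Set Filter Topology Matrix Function

noncomputable section

variable {ι : Type} [Fintype ι] [DecidableEq ι]

/-- The triple product. -/
def det3 (a b c : V3) : ℝ := a ⬝ᵥ crossProduct b c

theorem cramer3 (a b c z : V3) :
    det3 a b c • z = det3 z b c • a + det3 a z c • b + det3 a b z • c := by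
  ext k
  fin_cases k <;> simp [det3, cross_apply, dotProduct, Fin.sum_univ_three] <;> ring

omit [Fintype ι] [DecidableEq ι] in
theorem transform_dot (A : V3 →ₗ[ℝ] V3) (ν : ι → V3) (i : ι) (x : V3) :
    transform A ν i ⬝ᵥ x = ν i ⬝ᵥ A x := by
  have hx : x = ∑ k, x k • (Pi.single k 1 : V3) := by
    ext j
    simp [Pi.single_apply]
  conv_rhs => rw [hx, map_sum, dotProduct_sum]
  simp only [map_smul, dotProduct_smul, smul_eq_mul]
  exact Finset.sum_congr rfl fun k _ => mul_comm _ _

omit [Fintype ι] [DecidableEq ι] in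
theorem body_transform (A : V3 ≃ₗ[ℝ] V3) (ν : ι → V3) (h : ι → ℝ) :
    body (transform A.toLinearMap ν) h = A ⁻¹' body ν h := by
  ext x
  simp [body, transform_dot]

/-- The factor of the volume. -/
def factor (A : V3 ≃ₗ[ℝ] V3) : ℝ := |LinearMap.det (A.symm : V3 →ₗ[ℝ] V3)|

theorem factor_pos (A : V3 ≃ₗ[ℝ] V3) : 0 < factor A :=
  abs_pos.2 (LinearEquiv.isUnit_det' A.symm).ne_zero

omit [Fintype ι] [DecidableEq ι] in
theorem vol_transform (A : V3 ≃ₗ[ℝ] V3) (ν : ι → V3) (h : ι → ℝ) :
    vol (transform A.toLinearMap ν) h = factor A * vol ν h := by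
  rw [vol, body_transform, Measure.addHaar_preimage_linearEquiv, ENNReal.toReal_mul,
    ENNReal.toReal_ofReal (abs_nonneg _), vol, factor]

omit [Fintype ι] in
theorem grad_transform (A : V3 ≃ₗ[ℝ] V3) (ν : ι → V3) (h : ι → ℝ) (i : ι) :
    grad (transform A.toLinearMap ν) h i = factor A * grad ν h i := by
  simp only [grad, vol_transform, deriv_const_mul_field]

omit [Fintype ι] in
theorem hess_transform (A : V3 ≃ₗ[ℝ] V3) (ν : ι → V3) (h : ι → ℝ) (i j : ι) :
    hess (transform A.toLinearMap ν) h i j = factor A * hess ν h i j := by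
  simp only [hess, grad_transform, deriv_const_mul_field]

omit [Fintype ι] in
theorem mass_transform (A : V3 ≃ₗ[ℝ] V3) (ν : ι → V3) (i : ι) :
    mass (transform A.toLinearMap ν) i = mass ν i := by
  rw [mass, mass, grad_transform, vol_transform, mul_left_comm,
    mul_div_mul_left _ _ (factor_pos A).ne']

theorem form_transform (A : V3 ≃ₗ[ℝ] V3) (ν : ι → V3) (f g : ι → ℝ) :
    form (transform A.toLinearMap ν) f g = form ν f g := by
  simp only [form, hess_transform, vol_transform, mul_assoc, ← Finset.mul_sum]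
  rw [mul_left_comm 6, mul_div_mul_left _ _ (factor_pos A).ne']

omit [Fintype ι] in
theorem full_transform (A : V3 ≃ₗ[ℝ] V3) (ν : ι → V3) (h : ι → ℝ) :
    Full (transform A.toLinearMap ν) h ↔ Full ν h := by
  simp only [Full, grad_transform, mul_pos_iff_of_pos_left (factor_pos A)]

omit [Fintype ι] [DecidableEq ι] in
theorem fam_transform (A : V3 ≃ₗ[ℝ] V3) {ν : ι → V3} (hν : Fam ν) :
    Fam (transform A.toLinearMap ν) := by
  have key : ∀ (v : V3), (∀ x, v ⬝ᵥ A x = 0) → v = 0 := fun v hv => by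
    have := hv (A.symm v)
    rw [A.apply_symm_apply] at this
    exact dotProduct_self_eq_zero.1 this
  have hne : ∀ i, transform A.toLinearMap ν i ≠ 0 := fun i h => hν.ne_zero i (key _ fun x => by
    simpa [h] using (transform_dot A.toLinearMap ν i x).symm)
  refine ⟨hne, fun i j hij hc => hν.indep i j hij ?_, fun x hx => ?_⟩
  · set a := transform A.toLinearMap ν i
    set b := transform A.toLinearMap ν j
    have hbb : b ⬝ᵥ b ≠ 0 := fun h0 => hne j (dotProduct_self_eq_zero.1 h0)
    have e := cross_cross_eq_smul_sub_smul' b a b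
    rw [hc, map_zero, eq_comm, sub_eq_zero] at e
    have hs : ν i = ((a ⬝ᵥ b) / (b ⬝ᵥ b)) • ν j := sub_eq_zero.1 (key _ fun x => by
      have := congrArg (fun v : V3 => v ⬝ᵥ x) e
      have hxa : a ⬝ᵥ x = ν i ⬝ᵥ A x := transform_dot A.toLinearMap ν i x
      have hxb : b ⬝ᵥ x = ν j ⬝ᵥ A x := transform_dot A.toLinearMap ν j x
      simp only [smul_dotProduct, smul_eq_mul, hxa, hxb] at this
      rw [sub_dotProduct, smul_dotProduct, smul_eq_mul, sub_eq_zero]
      field_simp
      linarith)
    rw [hs, map_smul, LinearMap.smul_apply, cross_self, smul_zero]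
  · have := hν.span (A x) fun i => by simpa [transform_dot] using hx i
    simpa using this

/-- Linear normalisation. -/
theorem round_of (hC : CalcStatement) : RoundStatement := by
  intro N ν hν
  have hK := (hC N ν hν).1.compact 1
  have h0 : (0 : V3) ∈ body ν 1 := fun i => by simp
  have hU : IsOpen {x : V3 | ∀ i, |ν i ⬝ᵥ x| < 1} := by
    simp only [ofPred_forall]
    exact isOpen_iInter_of_finite fun i => isOpen_lt (by fun_prop) continuous_const
  obtain ⟨ε, hε, hεU⟩ := Metric.isOpen_iff.1 hU 0 (fun i => by simp)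
  have hmem : ∀ k, (ε / 2) • (Pi.single k 1 : V3) ∈ body ν 1 := fun k i => (hεU (by
    rw [mem_ball_zero_iff, norm_smul, Real.norm_eq_abs, abs_of_pos (half_pos hε),
      Pi.norm_single, norm_one]
    linarith) i).le
  obtain ⟨⟨a, b, c⟩, hmem', hmax⟩ := (hK.prod (hK.prod hK)).exists_isMaxOn
    ⟨(0, 0, 0), h0, h0, h0⟩
    (f := fun p : V3 × V3 × V3 => det3 p.1 p.2.1 p.2.2) (by
      refine Continuous.continuousOn ?_
      simp only [det3, dotProduct, cross_apply, Fin.sum_univ_three, Matrix.cons_val_zero,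
        Matrix.cons_val_one, Matrix.cons_val_two, Matrix.tail_cons, Matrix.head_cons]
      fun_prop)
  obtain ⟨ha, hb, hc⟩ := hmem'
  have hD : ∀ x y z, x ∈ body ν 1 → y ∈ body ν 1 → z ∈ body ν 1 → det3 x y z ≤ det3 a b c :=
    fun x y z hx hy hz => isMaxOn_iff.1 hmax (x, y, z) ⟨hx, hy, hz⟩
  have hpos : 0 < det3 a b c := by
    refine lt_of_lt_of_le ?_ (hD _ _ _ (hmem 0) (hmem 1) (hmem 2))
    have : 0 < ε / 2 * (ε / 2 * (ε / 2)) := by positivity
    simpa [det3, cross_apply, dotProduct, Fin.sum_univ_three] using this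
  have hneg : ∀ z ∈ body ν 1, -z ∈ body ν 1 := fun z hz i => by simpa using hz i
  let L : V3 →ₗ[ℝ] V3 :=
    { toFun := fun u => (u 0 / 3) • a + (u 1 / 3) • b + (u 2 / 3) • c
      map_add' := fun u v => by simp only [Pi.add_apply, add_div, add_smul]; abel
      map_smul' := fun r u => by
        simp only [Pi.smul_apply, smul_eq_mul, RingHom.id_apply, smul_add, smul_smul, mul_div_assoc] }
  have hcoef : ∀ u : V3, det3 (L u) b c = u 0 / 3 * det3 a b c ∧
      det3 a (L u) c = u 1 / 3 * det3 a b c ∧ det3 a b (L u) = u 2 / 3 * det3 a b c := by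
    intro u
    simp only [L, LinearMap.coe_mk, AddHom.coe_mk, det3, cross_apply, dotProduct,
      Fin.sum_univ_three, Pi.add_apply, Pi.smul_apply, smul_eq_mul, Matrix.cons_val_zero,
      Matrix.cons_val_one, Matrix.cons_val_two, Matrix.tail_cons, Matrix.head_cons]
    exact ⟨by ring, by ring, by ring⟩
  have hinj : Injective L := (injective_iff_map_eq_zero L).2 fun u hu => by
    obtain ⟨e0, e1, e2⟩ := hcoef u
    rw [hu] at e0 e1 e2
    simp [det3] at e0 e1 e2
    have hne : a ⬝ᵥ crossProduct b c ≠ 0 := hpos.ne'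
    ext k
    fin_cases k <;> simp_all
  let A := LinearEquiv.ofInjectiveEndo L hinj
  have hA : ∀ u, A u = L u := fun u => rfl
  refine ⟨A, ⟨fun u hu => ?_, fun u hu => ?_⟩, fam_transform A hν, mass_transform A ν,
    full_transform A ν 1, form_transform A ν⟩
  · rw [body_transform, mem_preimage, hA]
    intro i
    have hu' : ∀ k, |u k / 3| ≤ 1 / 3 := fun k => by
      rw [abs_div, abs_of_pos (three_pos : (0 : ℝ) < 3)]
      gcongr
      exact (norm_le_pi_norm u k).trans hu
    have h3 : ∀ (r : ℝ) (p : V3), |r| ≤ 1 / 3 → p ∈ body ν 1 → |r * (ν i ⬝ᵥ p)| ≤ 1 / 3 :=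
      fun r p hr hp => by
        rw [abs_mul]
        calc |r| * |ν i ⬝ᵥ p| ≤ 1 / 3 * 1 := mul_le_mul hr (hp i) (abs_nonneg _) (by norm_num)
          _ = 1 / 3 := mul_one _
    simp only [L, LinearMap.coe_mk, AddHom.coe_mk, dotProduct_add, dotProduct_smul, smul_eq_mul,
      Pi.one_apply]
    refine (abs_add_three _ _ _).trans ?_
    linarith [h3 _ a (hu' 0) ha, h3 _ b (hu' 1) hb, h3 _ c (hu' 2) hc]
  · rw [body_transform, mem_preimage, hA] at hu
    obtain ⟨e0, e1, e2⟩ := hcoef u
    have hn := hneg _ hu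
    have q0 := hD _ _ _ hu hb hc
    have q0' := hD _ _ _ hn hb hc
    have q1 := hD _ _ _ ha hu hc
    have q1' := hD _ _ _ ha hn hc
    have q2 := hD _ _ _ ha hb hu
    have q2' := hD _ _ _ ha hb hn
    have n0 : det3 (-L u) b c = -det3 (L u) b c := by simp only [det3, neg_dotProduct]
    have n1 : det3 a (-L u) c = -det3 a (L u) c := by
      simp only [det3, map_neg, LinearMap.neg_apply, dotProduct_neg]
    have n2 : det3 a b (-L u) = -det3 a b (L u) := by simp only [det3, map_neg, dotProduct_neg]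
    rw [n0, e0] at q0'
    rw [e0] at q0
    rw [n1, e1] at q1'
    rw [e1] at q1
    rw [n2, e2] at q2'
    rw [e2] at q2
    refine (pi_norm_le_iff_of_nonneg (by norm_num)).2 fun k => ?_
    rw [Real.norm_eq_abs, abs_le]
    fin_cases k <;> simp only [Fin.zero_eta, Fin.mk_one, Fin.reduceFinMk] <;>
      constructor <;> nlinarith

end

end Vale.Agent.P227.Lp
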