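import Vale.Agent.P227.Lp.Defs

/-!
# P227: a priori bound for maximisers

The eigen equation tested on a level set bounds every gap between consecutive values by the
isoperimetric constant.
-/

namespace Vale.Agent.P227.Lp

open MeasureTheory Set Matrix Function Finset

noncomputable section

variable {ι : Type} [Fintype ι] [DecidableEq ι] {ν : ι → V3}

omit [Fintype ι] [DecidableEq ι] in
theorem edgeW_nonneg' (h : ι → ℝ) (i j : ι) (σ : ℝ) : 0 ≤ edgeW ν h i j σ := by
  unfold edgeW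
  rcases ({s : ℝ | ∃ x ∈ edge ν h i j σ, x + s • crossProduct (ν i) (ν j) ∈ edge ν h i j σ}).eq_empty_or_nonempty
    with he | ⟨t, x, hx, -⟩
  · rw [he, Real.sSup_empty]
  · by_cases hb : BddAbove {s : ℝ | ∃ x ∈ edge ν h i j σ,
        x + s • crossProduct (ν i) (ν j) ∈ edge ν h i j σ}
    · exact le_csSup hb ⟨x, hx, by rwa [zero_smul, add_zero]⟩
    · rw [Real.sSup_of_not_bddAbove hb]

omit [DecidableEq ι] in
/-- A finite family of `N` values leaves one of `N` disjoint intervals empty. -/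
theorem exists_empty_interval (f : ι → ℝ) {δ : ℝ} (hδ : 0 ≤ δ) {a : ι}
    (ha : (Fintype.card ι : ℝ) * δ < f a) :
    ∃ k : ℕ, k < Fintype.card ι ∧ ∀ i, f i ≤ k * δ ∨ (k + 1) * δ < f i := by
  classical
  by_contra hcon
  push Not at hcon
  choose j hj using fun k : Fin (Fintype.card ι) => hcon k k.2
  let F : Option (Fin (Fintype.card ι)) → ι := fun o => o.elim a j
  have hlt : ∀ k l : Fin (Fintype.card ι), k < l → f (j k) < f (j l) := fun k l hkl => by
    have h1 : ((k : ℕ) : ℝ) + 1 ≤ (l : ℕ) := by exact_mod_cast hkl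
    exact ((hj k).2.trans (mul_le_mul_of_nonneg_right h1 hδ)).trans_lt (hj l).1
  have htop : ∀ k : Fin (Fintype.card ι), f (j k) < f a := fun k => by
    have h1 : ((k : ℕ) : ℝ) + 1 ≤ Fintype.card ι := by exact_mod_cast k.2
    exact ((hj k).2.trans (mul_le_mul_of_nonneg_right h1 hδ)).trans_lt ha
  have hinj : Injective F := by
    rintro (_ | k) (_ | l) h
    · rfl
    · exact absurd (congrArg f h) (htop l).ne'
    · exact absurd (congrArg f h) (htop k).ne
    · rcases lt_trichotomy k l with hkl | rfl | hkl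
      exacts [absurd (congrArg f h) (hlt k l hkl).ne, rfl, absurd (congrArg f h) (hlt l k hkl).ne']
  simpa using Fintype.card_le_of_injective F hinj

/-- A gap of a maximiser is bounded by the isoperimetric constant. -/
theorem gap_le (h1 : Calc1 ν) (h2 : Calc2 ν) (hF : Full ν 1) (hR : Round ν) {φ : ι → ℝ} {s : ℝ}
    (hW : Worst ν φ s) (hs : -1 ≤ s) (hs' : s ≤ 1) {U : Finset ι} (hU : U.Nonempty)
    (hU' : Uᶜ.Nonempty) {C : ℝ} (hC : 0 < C)
    (hcut : min (∑ i ∈ U, mass ν i) (∑ i ∈ Uᶜ, mass ν i) ≤ C * cut ν U ^ 2) {δ : ℝ} (hδ : 0 ≤ δ)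
    (hgap : ∀ i ∈ U, ∀ j ∈ Uᶜ, δ ≤ φ i - φ j) : δ ≤ 1296 * √C := by
  obtain ⟨hm0, hm2, hφ, -⟩ := hW
  set V := vol ν 1
  have hV : 0 < V := h1.vol_pos 1 fun _ => one_pos
  have hV' : V ≤ 216 := by
    have hsub : body ν 1 ⊆ Metric.closedBall (0 : V3) 3 := fun x hx =>
      mem_closedBall_zero_iff.2 (hR.2 x hx)
    refine (ENNReal.toReal_mono measure_closedBall_lt_top.ne (measure_mono hsub)).trans (le_of_eq ?_)
    rw [Real.volume_pi_closedBall _ (by norm_num), Fintype.card_fin,
      ENNReal.toReal_ofReal (by norm_num)]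
    norm_num
  have hm : ∀ i, 0 < mass ν i := fun i => div_pos (hF.2 i) (by positivity)
  -- the eigen equation against the indicator of `U`
  set e : ι → ℝ := fun i => if i ∈ U then 1 else 0
  set H := hess ν 1
  set T := ∑ j ∈ U, mass ν j * φ j
  have hsym : ∀ i j, H i j = H j i := h2.symm 1 hF
  have hrow : ∀ j, ∑ i, H j i = 2 * grad ν 1 j := fun j => by
    simpa using h2.euler 1 hF j
  have e1 : ∑ i, ∑ j, H i j * φ i * e j
      = (∑ j ∈ U, ∑ i ∈ Uᶜ, H j i * (φ i - φ j)) + 2 * ∑ j ∈ U, grad ν 1 j * φ j := by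
    have hanti : ∑ j ∈ U, ∑ i ∈ U, H j i * (φ i - φ j) = 0 := by
      have h : ∑ j ∈ U, ∑ i ∈ U, H j i * (φ i - φ j)
          = -∑ j ∈ U, ∑ i ∈ U, H j i * (φ i - φ j) := by
        conv_lhs => rw [Finset.sum_comm]
        rw [← Finset.sum_neg_distrib]
        refine Finset.sum_congr rfl fun j _ => ?_
        rw [← Finset.sum_neg_distrib]
        exact Finset.sum_congr rfl fun i _ => by rw [hsym i j]; ring
      linarith
    calc ∑ i, ∑ j, H i j * φ i * e j = ∑ j, ∑ i, H i j * φ i * e j := Finset.sum_comm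
      _ = ∑ j ∈ U, ∑ i, H j i * φ i := by
          simp only [e, mul_ite, mul_one, mul_zero, Finset.sum_ite_irrel, Finset.sum_const_zero]
          rw [Finset.sum_ite_mem, Finset.univ_inter]
          exact Finset.sum_congr rfl fun j _ => Finset.sum_congr rfl fun i _ => by rw [hsym i j]
      _ = ∑ j ∈ U, ((∑ i, H j i * (φ i - φ j)) + 2 * (grad ν 1 j * φ j)) := by
          refine Finset.sum_congr rfl fun j _ => ?_
          rw [← mul_assoc, ← hrow, Finset.sum_mul, ← Finset.sum_add_distrib]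
          exact Finset.sum_congr rfl fun i _ => by ring
      _ = _ := by
          rw [Finset.sum_add_distrib, ← Finset.mul_sum]
          congr 1
          rw [← add_zero (∑ j ∈ U, ∑ i ∈ Uᶜ, _), ← hanti, ← Finset.sum_add_distrib]
          exact Finset.sum_congr rfl fun j _ => (Finset.sum_compl_add_sum _ _).symm
  have e2 : ∑ j ∈ U, ∑ i ∈ Uᶜ, H j i * (φ i - φ j) ≤ -(2 * δ * cut ν U) := by
    simp only [cut, Finset.mul_sum, ← Finset.sum_neg_distrib]
    refine Finset.sum_le_sum fun j hj => Finset.sum_le_sum fun i hi => ?_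
    have hne : j ≠ i := fun h => Finset.mem_compl.1 hi (h ▸ hj)
    rw [show H j i = _ from h2.hess_eq 1 hF j i hne]
    nlinarith [hgap j hj i hi, edgeW_nonneg' (ν := ν) 1 j i 1, edgeW_nonneg' (ν := ν) 1 j i (-1)]
  have e3 : ∑ j ∈ U, grad ν 1 j * φ j = 3 * V * T := by
    rw [Finset.mul_sum]
    have hV0 : vol ν 1 ≠ 0 := hV.ne'
    exact Finset.sum_congr rfl fun j _ => by simp only [mass, V]; field_simp
  have e4 : mean ν (φ * e) = T := by
    simp only [mean, T, Pi.mul_apply, e, mul_ite, mul_one, mul_zero]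
    rw [Finset.sum_ite_mem, Finset.univ_inter]
  have key : δ * cut ν U ≤ 1296 * |T| := by
    have h := hφ e
    rw [e4, form, div_eq_iff (by positivity : (6 : ℝ) * vol ν 1 ≠ 0)] at h
    change ∑ i, ∑ j, H i j * φ i * e j = _ at h
    rw [e1, e3] at h
    have h5 : 2 * δ * cut ν U ≤ (1 + s) * T * (6 * V) := by linarith
    have h6 : (1 + s) * T * (6 * V) ≤ 2 * |T| * (6 * 216) := by
      refine (mul_le_mul_of_nonneg_right (mul_le_mul_of_nonneg_left (le_abs_self T) (by linarith))
        (by positivity)).trans ?_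
      gcongr
      linarith
    linarith
  have hsq : ∀ S : Finset ι, (∑ j ∈ S, mass ν j * φ j) ^ 2 ≤ ∑ j ∈ S, mass ν j := fun S => by
    refine (Finset.sum_sq_le_sum_mul_sum_of_sq_le_mul S (fun i _ => (hm i).le)
      (fun i _ => mul_nonneg (hm i).le (sq_nonneg (φ i))) fun i _ => le_of_eq (by ring)).trans ?_
    refine mul_le_of_le_one_right (Finset.sum_nonneg fun i _ => (hm i).le) (hm2.symm ▸ ?_)
    exact Finset.sum_le_univ_sum_of_nonneg fun i => mul_nonneg (hm i).le (sq_nonneg _)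
  have hT : T ^ 2 ≤ min (∑ i ∈ U, mass ν i) (∑ i ∈ Uᶜ, mass ν i) := by
    refine le_min (hsq U) ?_
    have h0 : (∑ j ∈ Uᶜ, mass ν j * φ j) + T = 0 := by
      rw [Finset.sum_compl_add_sum]; exact hm0
    have h := hsq Uᶜ
    rw [eq_neg_of_add_eq_zero_left h0, neg_sq] at h
    exact h
  have hmin : 0 < min (∑ i ∈ U, mass ν i) (∑ i ∈ Uᶜ, mass ν i) :=
    lt_min (Finset.sum_pos (fun i _ => hm i) hU) (Finset.sum_pos (fun i _ => hm i) hU')
  have hc0 : 0 ≤ cut ν U := Finset.sum_nonneg fun i _ => Finset.sum_nonneg fun j _ =>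
    add_nonneg (edgeW_nonneg' _ _ _ _) (edgeW_nonneg' _ _ _ _)
  refine le_of_mul_le_mul_right ?_ (show 0 < √(min (∑ i ∈ U, mass ν i) (∑ i ∈ Uᶜ, mass ν i)) from
    Real.sqrt_pos.2 hmin)
  calc δ * √(min (∑ i ∈ U, mass ν i) (∑ i ∈ Uᶜ, mass ν i)) ≤ δ * √(C * cut ν U ^ 2) :=
        mul_le_mul_of_nonneg_left (Real.sqrt_le_sqrt hcut) hδ
    _ = √C * (δ * cut ν U) := by rw [Real.sqrt_mul hC.le, Real.sqrt_sq hc0]; ring
    _ ≤ √C * (1296 * |T|) := mul_le_mul_of_nonneg_left key (Real.sqrt_nonneg _)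
    _ ≤ _ := by
        rw [← Real.sqrt_sq_eq_abs, ← mul_assoc, mul_comm √C]
        exact mul_le_mul_of_nonneg_left (Real.sqrt_le_sqrt hT) (by positivity)

/-- Maximisers are bounded, given the calculus and the isoperimetric bound. -/
theorem sup_of (hC : CalcStatement) (hCut : CutStatement) : SupStatement := by
  intro N
  obtain ⟨C, hC0, hcut⟩ := hCut N
  refine ⟨(N : ℝ) * (1296 * √C + 1), fun ν hν hF hR φ s hW hs hs' a => ?_⟩
  obtain ⟨h1, h2⟩ := hC N ν hν
  set δ := 1296 * √C + 1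
  have hδ : 0 < δ := by positivity
  -- a value above `N δ` would leave a gap longer than `δ`
  have main : ∀ f : Fin N → ℝ, (f = φ ∨ f = -φ) → f a ≤ N * δ := by
    intro f hf
    by_contra hlt
    push Not at hlt
    obtain ⟨k, hk, hkU⟩ := exists_empty_interval f hδ.le (a := a) (by simpa using hlt)
    rw [Fintype.card_fin] at hk
    set U := Finset.univ.filter fun i => (k + 1) * δ < f i
    have hka : a ∈ U := Finset.mem_filter.2 ⟨Finset.mem_univ _, lt_of_le_of_lt
      (mul_le_mul_of_nonneg_right (by exact_mod_cast hk) hδ.le) hlt⟩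
    have hm : ∀ i, 0 < mass ν i := fun i =>
      div_pos (hF.2 i) (mul_pos three_pos (h1.vol_pos 1 fun _ => one_pos))
    have hUc : Uᶜ.Nonempty := by
      by_contra hne
      rw [Finset.not_nonempty_iff_eq_empty, Finset.compl_eq_empty_iff] at hne
      have hpos : ∀ i, 0 < f i := fun i =>
        lt_of_le_of_lt (by positivity) (Finset.mem_filter.1 (hne ▸ Finset.mem_univ i : i ∈ U)).2
      have hsum : 0 < ∑ i, mass ν i * f i :=
        Finset.sum_pos (fun i _ => mul_pos (hm i) (hpos i)) ⟨a, Finset.mem_univ a⟩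
      have h0 : ∑ i, mass ν i * φ i = 0 := hW.1
      rcases hf with rfl | rfl
      · linarith
      · simp only [Pi.neg_apply, mul_neg, Finset.sum_neg_distrib] at hsum
        linarith
    have hgap : ∀ i ∈ U, ∀ j ∈ Uᶜ, δ ≤ f i - f j := fun i hi j hj => by
      have h1 := (Finset.mem_filter.1 hi).2
      have h2 : f j ≤ k * δ := (hkU j).resolve_right fun h =>
        Finset.mem_compl.1 hj (Finset.mem_filter.2 ⟨Finset.mem_univ j, h⟩)
      linarith
    have : δ ≤ 1296 * √C := by
      rcases hf with rfl | rfl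
      · exact gap_le h1 h2 hF hR hW hs hs' ⟨a, hka⟩ hUc hC0 (hcut ν hν hF hR U) hδ.le hgap
      · refine gap_le h1 h2 hF hR hW hs hs' hUc (by rw [compl_compl]; exact ⟨a, hka⟩) hC0
          (hcut ν hν hF hR Uᶜ) hδ.le fun i hi j hj => ?_
        rw [compl_compl] at hj
        have := hgap j hj i hi
        simp only [Pi.neg_apply] at this
        linarith
    linarith
  have hneg := main (-φ) (Or.inr rfl)
  rw [Pi.neg_apply] at hneg
  exact abs_le.2 ⟨by linarith, main φ (Or.inl rfl)⟩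

end

end Vale.Agent.P227.Lp
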