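import Vale.Agent.P227.Lp.Compact
import Vale.Agent.P227.Lp.Global
import Vale.Agent.P227.Lp.Kink
import Vale.Agent.P227.Lp.Sup
import Vale.Agent.P227.Lp.Limit
import Vale.Agent.P227.Lp.Edge
import Vale.Agent.P227.Lp.Chain
import Vale.Agent.P227.Lp.Round
import Vale.Agent.P227.Lp.Cut
import Vale.Agent.P227.Lp.Liminf

/-!
# P227: the `L_p`-Brunn–Minkowski inequality in dimension three for `0 < p ≤ 1`
-/

namespace Vale.Agent.P227

open Lp in
/-- All symmetric convex bodies in dimension three, every `p` in `(0, 1]`. -/
theorem lpAll : LpStatement :=
  lp_of calculus <|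
    local_of calculus (chain_of calculus) (part_of calculus) cell_of
      (sup_of calculus (cut_of calculus)) (round_of calculus) limit_of
      (liminf_of calculus (chain_of calculus) (part_of calculus) cell_of (edge_of calculus))

end Vale.Agent.P227
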