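import Vale.Agent.P227.Lp.Tri

/-!
# P227: cubic forms along germs of curves at support numbers `1`
-/

namespace Vale.Agent.P227.Lp

open MeasureTheory Set Filter Topology Matrix Function

noncomputable section

variable {N : ℕ} {ν : Fin N → V3}

/-- Continuity along a curve through `1` and what a frequently agreeing form gives at `1`. -/
theorem Agrees.at_one (h1 : Calc1 ν) (h2 : Calc2 ν) (hF : Full ν 1)
    {C : Fin N → Fin N → Fin N → ℝ} {l : Filter ℝ} (hl : l ≤ 𝓝 0) {c : ℝ → Fin N → ℝ}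
    (hc : ContinuousAt c 0) (hc0 : c 0 = 1) (ha : ∃ᶠ t in l, Agrees ν C (c t)) :
    Agrees ν C 1 := by
  have ht : Tendsto c l (𝓝 1) := hc0 ▸ (hc.tendsto.mono_left hl)
  have htri : ∀ f g : ℝ → Fin N → ℝ, ∀ k : ℝ → Fin N → ℝ, ContinuousAt f 0 → ContinuousAt g 0 →
      ContinuousAt k 0 → Tendsto (fun t => tri C (f t) (g t) (k t)) l
        (𝓝 (tri C (f 0) (g 0) (k 0))) :=
    fun f g k hf hg hk => (tri_continuousAt C hf hg hk).tendsto.mono_left hl
  refine ⟨?_, fun i => ?_, fun i j => ?_⟩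
  · refine tendsto_nhds_unique_of_frequently_eq ?_ ?_ (ha.mono fun t h => h.1)
    · exact ((h1.hasFDeriv 1 hF.1).continuousAt.tendsto).comp ht
    · simpa [hc0] using htri _ _ _ hc hc hc
  · refine tendsto_nhds_unique_of_frequently_eq ?_ ?_ (ha.mono fun t h => h.2.1 i)
    · exact ((h1.grad_continuous 1 hF.1 i).tendsto).comp ht
    · simpa [hc0] using (htri (fun _ => Pi.single i 1) _ _ continuousAt_const hc hc).const_mul 3
  · refine tendsto_nhds_unique_of_frequently_eq ?_ ?_ (ha.mono fun t h => h.2.2 i j)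
    · exact ((h2.continuous 1 hF i j).tendsto).comp ht
    · simpa [hc0] using (htri (fun _ => Pi.single i 1) (fun _ => Pi.single j 1) _ continuousAt_const
        continuousAt_const hc).const_mul 6

theorem eventually_full (h2 : Calc2 ν) (hF : Full ν 1) {l : Filter ℝ} (hl : l ≤ 𝓝 0)
    {c : ℝ → Fin N → ℝ} (hc : ContinuousAt c 0) (hc0 : c 0 = 1) : ∀ᶠ t in l, Full ν (c t) :=
  (hc.tendsto.mono_left hl).eventually (hc0 ▸ h2.isOpen.mem_nhds hF)

/-- Along every curve through `1`, some form of the finite family agrees frequently. -/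
theorem exists_germ (h1 : Calc1 ν) (h2 : Calc2 ν) (hF : Full ν 1) {l : Filter ℝ} [l.NeBot]
    (hl : l ≤ 𝓝 0) {c : ℝ → Fin N → ℝ} (hc : ContinuousAt c 0) (hc0 : c 0 = 1) :
    ∃ C, SymC C ∧ Agrees ν C 1 ∧ ∃ᶠ t in l, Agrees ν C (c t) := by
  obtain ⟨S, hS, hcov⟩ := h2.cubic
  have hex : ∃ C ∈ S, ∃ᶠ t in l, Agrees ν C (c t) := by
    by_contra! hno
    have := (S.eventually_all (l := l) (p := fun C t => ¬ Agrees ν C (c t))).2
      fun C hC => hno C hC
    obtain ⟨t, ht, hft⟩ := (this.and (eventually_full h2 hF hl hc hc0)).exists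
    obtain ⟨C, hC, hA⟩ := hcov _ hft
    exact ht C hC hA
  obtain ⟨C, hC, hfr⟩ := hex
  exact ⟨C, hS C hC, Agrees.at_one h1 h2 hF hl hc hc0 hfr, hfr⟩

/-- The cubic polynomial of a form along a line. -/
theorem tri_line {C : Fin N → Fin N → Fin N → ℝ} (hC : SymC C) (u g : Fin N → ℝ) (t : ℝ) :
    tri C (u + t • g) (u + t • g) (u + t • g) = tri C u u u + 3 * tri C g u u * t
      + 3 * tri C g g u * t ^ 2 + tri C g g g * t ^ 3 := by
  simp only [tri_add₁, tri_add₂, tri_add₃, tri_smul₁, tri_smul₂, tri_smul₃]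
  have e1 : tri C u u g = tri C g u u := by rw [hC.swap₂ u u g, hC.swap₁ u g u]
  have e2 : tri C g u g = tri C g g u := hC.swap₂ g u g
  have e3 : tri C u g g = tri C g g u := by rw [hC.swap₁ u g g, e2]
  have e4 : tri C u g u = tri C g u u := hC.swap₁ u g u
  rw [e1, e2, e3, e4]
  ring

/-- Along a line the volume is eventually the cubic of one agreeing form. -/
theorem exists_line_germ (h1 : Calc1 ν) (h2 : Calc2 ν) (hF : Full ν 1) (g : Fin N → ℝ)
    {l : Filter ℝ} [l.NeBot] (hl : l ≤ 𝓝 0)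
    (hconn : ∀ s ∈ l, ∀ F : Finset ℝ, ∃ I : Set ℝ, I ∈ l ∧ I ⊆ s ∧ IsPreconnected I ∧
      ∀ x ∈ F, x ∉ I) :
    ∃ C, SymC C ∧ Agrees ν C 1 ∧ (∃ᶠ t in l, Agrees ν C (1 + t • g)) ∧
      ∀ᶠ t in l, vol ν (1 + t • g) = tri C 1 1 1 + 3 * tri C g 1 1 * t
        + 3 * tri C g g 1 * t ^ 2 + tri C g g g * t ^ 3 := by
  classical
  have hc : Continuous fun t : ℝ => (1 : Fin N → ℝ) + t • g := by fun_prop
  obtain ⟨C, hC, hA, hfr⟩ := exists_germ h1 h2 hF hl (c := fun t => 1 + t • g) hc.continuousAt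
    (by simp)
  refine ⟨C, hC, hA, hfr, ?_⟩
  obtain ⟨S, hS, hcov⟩ := h2.cubic
  set P : (Fin N → Fin N → Fin N → ℝ) → Polynomial ℝ := fun D =>
    Polynomial.C (tri D 1 1 1) + Polynomial.C (3 * tri D g 1 1) * Polynomial.X
      + Polynomial.C (3 * tri D g g 1) * Polynomial.X ^ 2
      + Polynomial.C (tri D g g g) * Polynomial.X ^ 3 with hP
  have heval : ∀ D, SymC D → ∀ t, tri D (1 + t • g) (1 + t • g) (1 + t • g) = (P D).eval t :=
    fun D hD t => by simp [hP, tri_line hD]
  set F : Finset ℝ := S.biUnion fun D => ((P D - P C).roots.toFinset) with hFdef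
  set W : Set ℝ := {t | Full ν (1 + t • g)}
  obtain ⟨I, hI, hIW, hIc, hIF⟩ := hconn W (eventually_full h2 hF hl hc.continuousAt (by simp)) F
  obtain ⟨t₀, ht₀, ht₀I⟩ := (hfr.and_eventually hI).exists
  have hv : ContinuousOn (fun t => vol ν (1 + t • g) - (P C).eval t) I := fun t ht =>
    ((ContinuousAt.comp (x := t) (g := vol ν) (f := fun t : ℝ => (1 : Fin N → ℝ) + t • g)
      ((h1.hasFDeriv _ (hIW ht).1).continuousAt) hc.continuousAt).sub
        (P C).continuous.continuousAt).continuousWithinAt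
  have hz : ∀ t ∈ I, vol ν (1 + t • g) - (P C).eval t = 0 := by
    set f := fun t => vol ν (1 + t • g) - (P C).eval t
    intro t ht
    -- the zero set of `f` in `I` is clopen
    have hfin : ∀ x ∈ I, ∃ D ∈ S, f x = (P D - P C).eval x := fun x hx => by
      obtain ⟨D, hD, hAD⟩ := hcov _ (hIW hx)
      exact ⟨D, hD, by simp only [f, hAD.1, heval D (hS D hD), Polynomial.eval_sub]⟩
    have hlz : ∀ x ∈ I, f x = 0 → ∀ᶠ y in 𝓝[I] x, f y = 0 := fun x hx hx0 => by
      have : ∀ᶠ y in 𝓝[I] x, ∀ D ∈ S, f y = (P D - P C).eval y → P D = P C := by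
        rw [S.eventually_all]
        intro D hD
        by_cases hDC : P D = P C
        · exact Eventually.of_forall fun _ _ => hDC
        · have hne : (P D - P C).eval x ≠ 0 := fun h => hIF x (Finset.mem_biUnion.2 ⟨D, hD,
            Multiset.mem_toFinset.2 ((Polynomial.mem_roots (sub_ne_zero.2 hDC)).2 h)⟩) hx
          have := ((hv x hx).sub ((P D - P C).continuous.continuousWithinAt)).eventually_ne
            (b₂ := (0 : ℝ)) (by show f x - (P D - P C).eval x ≠ 0; rw [hx0, zero_sub]; exact neg_ne_zero.2 hne)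
          filter_upwards [this] with y hy h
          exact absurd (sub_eq_zero.2 h) hy
      filter_upwards [this, self_mem_nhdsWithin] with y hy hyI
      obtain ⟨D, hD, hDy⟩ := hfin y hyI
      rw [hDy, hy D hD hDy, sub_self, Polynomial.eval_zero]
    have : PreconnectedSpace I := isPreconnected_iff_preconnectedSpace.1 hIc
    have hclopen : IsClopen {x : I | f x = 0} := by
      refine ⟨isClosed_eq (continuousOn_iff_continuous_domRestrict.1 hv) continuous_const,
        isOpen_iff_mem_nhds.2 fun x hx => ?_⟩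
      exact preimage_coe_mem_nhds_subtype.2 (hlz x x.2 hx)
    have huniv := hclopen.eq_univ ⟨⟨t₀, ht₀I⟩,
      show f t₀ = 0 by simp only [f, ht₀.1, heval C hC, sub_self]⟩
    exact Set.ext_iff.1 huniv ⟨t, ht⟩ |>.2 trivial
  filter_upwards [hI] with t ht
  have := sub_eq_zero.1 (hz t ht)
  rw [this]
  simp [hP]

end

end Vale.Agent.P227.Lp
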