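import Vale.Agent.P227.Lp.Half

/-!
# P227: facets that merge in the limit carry equal values
-/

namespace Vale.Agent.P227.Lp

open MeasureTheory Set Filter Topology Matrix Function
open scoped ENNReal

noncomputable section

variable {N : ℕ}

theorem partW_le_univ (hpart : PartStatement) {ν : Fin N → V3} (hν : Fam ν) (hF : Full ν 1)
    {i j : Fin N} (hij : i ≠ j) {σ : ℝ} (hσ : σ = 1 ∨ σ = -1) (R : Set V3) :
    partW ν i j σ R ≤ edgeW ν 1 i j σ := by
  obtain ⟨hc, he⟩ := hpart N ν hν hF i j hij σ hσ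
  rw [← he]
  refine ENNReal.toReal_mono ?_ (measure_mono fun s hs => ⟨hs.1, trivial⟩)
  have hb : Bornology.IsBounded {s : ℝ | linePoint ν i j σ + s • crossProduct (ν i) (ν j)
      ∈ edge ν 1 i j σ ∩ univ} := by
    obtain ⟨R', hR'⟩ := hc.isBounded.exists_norm_le
    set c := crossProduct (ν i) (ν j)
    have hc0 : 0 < ‖c‖ := norm_pos_iff.2 (hν.indep i j hij)
    refine (Metric.isBounded_closedBall (x := (0 : ℝ))
      (r := (R' + ‖linePoint ν i j σ‖) / ‖c‖)).subset fun s hs => ?_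
    rw [mem_closedBall_zero_iff, le_div_iff₀ hc0, ← norm_smul]
    have := norm_sub_le (linePoint ν i j σ + s • c) (linePoint ν i j σ)
    rw [add_sub_cancel_left] at this
    linarith [hR' _ hs.1]
  exact hb.measure_lt_top.ne

theorem jump_sum_le (hcalc : CalcStatement) (hpart : PartStatement) {ν : Fin N → V3} (hν : Fam ν)
    (hF : Full ν 1) (hR : Round ν) {φ : Fin N → ℝ} (hE : energy ν φ ≤ 2) (R : Set V3) :
    ∑ i, ∑ j ∈ Finset.univ.filter (i < ·), (φ i - φ j) ^ 2 *
      (partW ν i j 1 R + partW ν i j (-1) R) ≤ 1296 := by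
  obtain ⟨h1, h2⟩ := hcalc N ν hν
  have hV := h1.vol_pos 1 hF.1
  rw [energy_eq h2 hF, div_le_iff₀ (by positivity)] at hE
  refine (Finset.sum_le_sum fun i _ => Finset.sum_le_sum fun j hj =>
    mul_le_mul_of_nonneg_left (add_le_add ?_ ?_) (sq_nonneg _)).trans
    (hE.trans (by linarith [vol_le_of_round hR]))
  · exact partW_le_univ hpart hν hF (Finset.mem_filter.1 hj).2.ne (Or.inl rfl) R
  · exact partW_le_univ hpart hν hF (Finset.mem_filter.1 hj).2.ne (Or.inr rfl) R

/-- The first direction of the coordinate axes. -/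
def e₁ : V3 := Pi.single 0 1

/-- Merging facets of positive limiting mass carry equal limiting values. -/
theorem merge_eq (hcalc : CalcStatement) (hchain : ChainStatement) (hpart : PartStatement)
    (hcell : CellStatement) {ν : ℕ → Fin N → V3} {φ : ℕ → Fin N → ℝ} {νl : Fin N → V3}
    {φl μ : Fin N → ℝ} {V : ℝ}
    (hk : ∀ k, Fam (ν k) ∧ Full (ν k) 1 ∧ Round (ν k)) (hE : ∀ k, energy (ν k) (φ k) ≤ 2)
    (hν : Tendsto ν atTop (𝓝 νl)) (hφ : Tendsto φ atTop (𝓝 φl))
    (hμ : ∀ i, Tendsto (fun k => mass (ν k) i) atTop (𝓝 (μ i)))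
    (hvol : Tendsto (fun k => vol (ν k) 1) atTop (𝓝 V)) (hV : 0 < V)
    {a b : Fin N} (ha : 0 < μ a) (hb : 0 < μ b) (hab : νl a = νl b ∨ νl a = -νl b) :
    φl a = φl b := by
  by_contra hne
  set D : ℝ := |φl a - φl b| / 2
  have hD : 0 < D := half_pos (abs_pos.2 (sub_ne_zero.2 hne))
  obtain ⟨τ, hτ, hτab⟩ : ∃ τ : ℝ, (τ = 1 ∨ τ = -1) ∧ τ • νl b = νl a := by
    rcases hab with h | h
    · exact ⟨1, Or.inl rfl, by rw [one_smul, h]⟩
    · exact ⟨-1, Or.inr rfl, by rw [neg_one_smul, h]⟩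
  set d : V3 := e₁
  have hd : d ≠ 0 := fun h => one_ne_zero (α := ℝ) (by simpa [d, e₁] using congrFun h 0)
  -- a lower bound for the halves
  set ε₀ : ℝ := min (μ a * V) (μ b * V) / 4
  have hε₀ : 0 < ε₀ := div_pos (lt_min (mul_pos ha hV) (mul_pos hb hV)) four_pos
  have hhalf : ∀ (i : Fin N) (σ : ℝ), (σ = 1 ∨ σ = -1) → 4 * ε₀ ≤ μ i * V →
      ∀ᶠ k in atTop, ENNReal.ofReal ε₀ ≤ volume (half (ν k) i σ) := by
    intro i σ hσ hi
    have := ((hμ i).mul hvol).eventually (eventually_gt_nhds (show 2 * ε₀ < μ i * V by linarith))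
    filter_upwards [this] with k hk'
    obtain ⟨h1, h2, h3⟩ := hk k
    have hc : ENNReal.ofReal (2 * ε₀) ≤ volume (cell (ν k) i) :=
      (ENNReal.ofReal_le_ofReal (by rw [hcell N _ h1 h2 i]; exact hk'.le)).trans
        ENNReal.ofReal_toReal_le
    rw [← volume_half h1 i hσ, ENNReal.ofReal_mul zero_le_two, ENNReal.ofReal_ofNat] at hc
    exact (ENNReal.mul_le_mul_iff_right two_ne_zero ENNReal.ofNat_ne_top).1 hc
  -- the thin set of degenerate pairs
  set B : Set V3 := Metric.closedBall 0 5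
  have hBm : MeasurableSet B := Metric.isClosed_closedBall.measurableSet
  have hBfin : volume (B ×ˢ B) ≠ ⊤ := by
    rw [Measure.volume_eq_prod, Measure.prod_prod]
    exact (ENNReal.mul_lt_top (isCompact_closedBall _ _).measure_lt_top
      (isCompact_closedBall _ _).measure_lt_top).ne
  set Z : ℕ → Set (V3 × V3) := fun n =>
    (B ×ˢ B) ∩ {p | |d ⬝ᵥ crossProduct p.2 p.1| ≤ ((n : ℝ) + 1)⁻¹}
  have htc : Continuous fun p : V3 × V3 => d ⬝ᵥ crossProduct p.2 p.1 := by
    simp only [cross_apply, dotProduct, Fin.sum_univ_three, Matrix.cons_val_zero,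
      Matrix.cons_val_one, Matrix.cons_val_two, Matrix.tail_cons, Matrix.head_cons]
    fun_prop
  have hZ : Tendsto (fun n => volume (Z n)) atTop (𝓝 0) := by
    have h := tendsto_measure_iInter_atTop (μ := volume) (s := Z)
      (fun n => ((hBm.prod hBm).inter
        (isClosed_le htc.abs continuous_const).measurableSet).nullMeasurableSet)
      (fun m n hmn => inter_subset_inter_right _ fun p hp => le_trans (Set.mem_setOf_eq.mp hp)
        (inv_anti₀ (by positivity : (0 : ℝ) < (m : ℝ) + 1) (by simpa using hmn)))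
      ⟨0, ((measure_mono inter_subset_left).trans_lt hBfin.lt_top).ne⟩
    have h0 : volume (⋂ n, Z n) = 0 := measure_mono_null (fun p hp => by
      simp only [Set.mem_iInter, Z, Set.mem_inter_iff, Set.mem_setOf_eq] at hp
      refine abs_nonpos_iff.1 (le_of_forall_pos_le_add fun ε hε => ?_)
      obtain ⟨n, hn⟩ := exists_nat_one_div_lt hε
      rw [one_div] at hn
      linarith [(hp n).2]) (volume_triple hd)
    rwa [h0] at h
  obtain ⟨n, hn⟩ := (hZ.eventually (eventually_lt_nhds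
    (show (0 : ℝ≥0∞) < ENNReal.ofReal (ε₀ * ε₀ / 2) by positivity))).exists
  set η : ℝ := ((n : ℝ) + 1)⁻¹
  have hη : 0 < η := by positivity
  -- the chain inequality on a good pair of lines, at every late step
  set Ω : ℝ := (volume (B ×ˢ B)).toReal
  set c₀ : ℝ := ε₀ * ε₀ / 2
  set S : ℕ → ℝ := fun k => ∑ i, |(τ • ν k b - ν k a) i| * 6
  have hS : Tendsto S atTop (𝓝 0) := by
    have hc : Continuous fun w : Fin N → V3 => ∑ i, |(τ • w b - w a) i| * 6 := by fun_prop
    have := (hc.tendsto νl).comp hν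
    simpa [S, hτab, Function.comp_def] using this
  have key : ∀ᶠ k in atTop, D ^ 2 * (2 * c₀ / (Ω + 1)) * η ≤ S k * 1296 := by
    have hjump : ∀ᶠ k in atTop, D ≤ |φ k a - φ k b| := by
      have := (((tendsto_pi_nhds.1 hφ a).sub (tendsto_pi_nhds.1 hφ b)).abs).eventually
        (eventually_gt_nhds (half_lt_self (abs_pos.2 (sub_ne_zero.2 hne))))
      exact this.mono fun k => le_of_lt
    have ha4 : 4 * ε₀ ≤ μ a * V := by
      simp only [ε₀]
      linarith [min_le_left (μ a * V) (μ b * V)]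
    have hb4 : 4 * ε₀ ≤ μ b * V := by
      simp only [ε₀]
      linarith [min_le_right (μ a * V) (μ b * V)]
    filter_upwards [hhalf a 1 (Or.inl rfl) ha4, hhalf b τ hτ hb4, hjump] with k hA hB hjk
    obtain ⟨h1, h2, h3⟩ := hk k
    set A := half (ν k) a 1
    set A' := half (ν k) b τ
    have hA3 : ∀ {x}, x ∈ A → ‖x‖ ≤ 3 := fun hx => h3.2 _ hx.1.1
    have hA3' : ∀ {x}, x ∈ A' → ‖x‖ ≤ 3 := fun hx => h3.2 _ hx.1.1
    set W : Set (V3 × V3) := (A ×ˢ A') \ Z n
    have hWm : MeasurableSet W := ((measurableSet_half _ _ _).prod (measurableSet_half _ _ _)).diff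
      ((hBm.prod hBm).inter (isClosed_le htc.abs continuous_const).measurableSet)
    have hW : ENNReal.ofReal c₀ ≤ volume W := by
      have hAA : ENNReal.ofReal (ε₀ * ε₀) ≤ volume (A ×ˢ A') := by
        rw [Measure.volume_eq_prod, Measure.prod_prod, ENNReal.ofReal_mul hε₀.le]
        exact mul_le_mul' hA hB
      refine le_trans ?_ (le_measure_diff (μ := volume))
      refine le_trans ?_ (tsub_le_tsub hAA hn.le)
      rw [← ENNReal.ofReal_sub _ (by positivity)]
      exact ENNReal.ofReal_le_ofReal (by simp only [c₀]; linarith)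
    -- pairs of lines meeting `W`
    set T : Set ((V3 × V3) × ℝ) :=
      {q | q.2 ∈ Icc (-1 : ℝ) 1 ∧ (q.1.1 + q.2 • d, q.1.2 + q.2 • d) ∈ W}
    have hTm : MeasurableSet T := by
      have hc : Continuous fun q : (V3 × V3) × ℝ => (q.1.1 + q.2 • d, q.1.2 + q.2 • d) := by fun_prop
      exact (measurable_snd measurableSet_Icc).inter (hc.measurable hWm)
    have hT : 2 * ENNReal.ofReal c₀ ≤ ∫⁻ p in B ×ˢ B, volume {t : ℝ | (p, t) ∈ T} := by
      have e1 : ∫⁻ p : V3 × V3, volume {t : ℝ | (p, t) ∈ T}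
          = ∫⁻ t : ℝ, volume {p : V3 × V3 | (p, t) ∈ T} :=
        (Measure.prod_apply hTm).symm.trans (Measure.prod_apply_symm hTm)
      have e2 : ∀ t ∈ Icc (-1 : ℝ) 1, volume {p : V3 × V3 | (p, t) ∈ T} = volume W := by
        intro t ht
        have : {p : V3 × V3 | (p, t) ∈ T} = (fun p => (t • d, t • d) + p) ⁻¹' W := by
          ext p
          simp only [T, Set.mem_setOf_eq, ht, true_and, Set.mem_preimage]
          rw [show (t • d, t • d) + p = (p.1 + t • d, p.2 + t • d) from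
            Prod.ext (add_comm _ _) (add_comm _ _)]
        rw [this, Measure.volume_eq_prod, measure_preimage_add]
      have e3 : ∫⁻ p in B ×ˢ B, volume {t : ℝ | (p, t) ∈ T}
          = ∫⁻ p : V3 × V3, volume {t : ℝ | (p, t) ∈ T} := by
        refine setLIntegral_eq_of_support_subset fun p hp => ?_
        obtain ⟨t, ⟨ht, htW⟩⟩ := nonempty_of_measure_ne_zero (Function.mem_support.1 hp)
        have ht1 : |t| ≤ 1 := abs_le.2 ht
        have hd1 : ‖t • d‖ ≤ 1 := by
          rw [norm_smul, Real.norm_eq_abs]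
          simpa [d, e₁, Pi.norm_single] using ht1
        refine ⟨?_, ?_⟩ <;> rw [mem_closedBall_zero_iff]
        · calc ‖p.1‖ = ‖p.1 + t • d - t • d‖ := by rw [add_sub_cancel_right]
            _ ≤ ‖p.1 + t • d‖ + ‖t • d‖ := norm_sub_le _ _
            _ ≤ 5 := by linarith [hA3 htW.1.1]
        · calc ‖p.2‖ = ‖p.2 + t • d - t • d‖ := by rw [add_sub_cancel_right]
            _ ≤ ‖p.2 + t • d‖ + ‖t • d‖ := norm_sub_le _ _
            _ ≤ 5 := by linarith [hA3' htW.1.2]
      rw [e3, e1]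
      calc 2 * ENNReal.ofReal c₀ ≤ ∫⁻ _t in Icc (-1 : ℝ) 1, volume W := by
            rw [setLIntegral_const, Real.volume_Icc]
            norm_num
            rw [mul_comm]
            exact mul_le_mul' hW le_rfl
        _ = ∫⁻ t in Icc (-1 : ℝ) 1, volume {p : V3 × V3 | (p, t) ∈ T} :=
            setLIntegral_congr_fun measurableSet_Icc fun t ht => (e2 t ht).symm
        _ ≤ ∫⁻ t : ℝ, volume {p : V3 × V3 | (p, t) ∈ T} := setLIntegral_le_lintegral _ _
    obtain ⟨p, hp⟩ : ∃ p : V3 × V3,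
        ENNReal.ofReal (2 * c₀ / (Ω + 1)) ≤ volume {t : ℝ | (p, t) ∈ T} := by
      by_contra! hno
      have := hT.trans (lintegral_mono fun p => (hno p).le)
      rw [setLIntegral_const, ← ENNReal.ofReal_toReal hBfin,
        ← ENNReal.ofReal_mul (by positivity), show (2 : ℝ≥0∞) = ENNReal.ofReal 2 by simp,
        ← ENNReal.ofReal_mul zero_le_two, ENNReal.ofReal_le_ofReal_iff (by positivity)] at this
      have hΩ : 0 ≤ Ω := ENNReal.toReal_nonneg
      rw [div_mul_eq_mul_div, le_div_iff₀ (by linarith)] at this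
      nlinarith [show 0 < c₀ by positivity]
    set I : Set ℝ := {t : ℝ | (p, t) ∈ T}
    have hIb : I ⊆ Icc (-1 : ℝ) 1 := fun t ht => ht.1
    have hI : 2 * c₀ / (Ω + 1) ≤ (volume I).toReal :=
      (ENNReal.ofReal_le_iff_le_toReal
        ((measure_mono hIb).trans_lt isCompact_Icc.measure_lt_top).ne).1 hp
    have hI0 : I.Nonempty := nonempty_of_measure_ne_zero fun h => by
      rw [h] at hp
      have hΩ : 0 ≤ Ω := ENNReal.toReal_nonneg
      exact absurd hp (not_le.2 (ENNReal.ofReal_pos.2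
        (div_pos (mul_pos two_pos (by positivity)) (by linarith))))
    -- apply the chain inequality
    have happ : D ^ 2 * (volume I).toReal * |d ⬝ᵥ crossProduct (p.2 - p.1) p.1| ≤
        1 ^ 2 * S k * ∑ i, ∑ j ∈ Finset.univ.filter (i < ·), (φ k i - φ k j) ^ 2 *
          (partW (ν k) i j 1 (window p.1 p.2 d I) + partW (ν k) i j (-1) (window p.1 p.2 d I)) := by
      refine hchain N (ν k) h1 h2 (φ k) p.1 p.2 d I D 1 (S k)
        (measurable_prodMk_left hTm) ((Metric.isBounded_Icc _ _).subset hIb)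
        hD.le one_pos ?_
      rintro t ⟨ht, htW⟩
      obtain ⟨hP, hP1⟩ := isTop_of_half (Or.inl rfl) htW.1.1
      obtain ⟨hQ, hQ1⟩ := isTop_of_half hτ htW.1.2
      refine ⟨a, b, 1, τ, hP, hQ, hP1, hQ1, hjk, ?_⟩
      rw [one_mul, one_mul, ← mul_sub, ← dotProduct_sub, ← dotProduct_sub, ← smul_eq_mul,
        ← smul_dotProduct, ← sub_dotProduct, dotProduct]
      refine Finset.sum_le_sum fun i _ => (le_abs_self _).trans ?_
      rw [abs_mul]
      refine mul_le_mul_of_nonneg_left ?_ (abs_nonneg _)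
      have n1 := norm_le_pi_norm ((p.2 + t • d) - (p.1 + t • d)) i
      have n2 := norm_sub_le (p.2 + t • d) (p.1 + t • d)
      rw [Real.norm_eq_abs] at n1
      linarith [hA3 htW.1.1, hA3' htW.1.2]
    have hdet : η ≤ |d ⬝ᵥ crossProduct (p.2 - p.1) p.1| := by
      obtain ⟨t, -, htW⟩ := hI0
      have hmem : (p.1 + t • d, p.2 + t • d) ∈ B ×ˢ B := by
        constructor <;> rw [mem_closedBall_zero_iff]
        · linarith [hA3 htW.1.1]
        · linarith [hA3' htW.1.2]
      have : ¬ |d ⬝ᵥ crossProduct (p.2 + t • d) (p.1 + t • d)| ≤ η := fun h => htW.2 ⟨hmem, h⟩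
      rw [not_le] at this
      have e : d ⬝ᵥ crossProduct (p.2 + t • d) (p.1 + t • d)
          = d ⬝ᵥ crossProduct (p.2 - p.1) p.1 := by
        simp [cross_apply, dotProduct, Fin.sum_univ_three]
        ring
      exact e ▸ this.le
    rw [one_pow, one_mul] at happ
    have hS0 : 0 ≤ S k := Finset.sum_nonneg fun i _ => mul_nonneg (abs_nonneg _) (by norm_num)
    calc D ^ 2 * (2 * c₀ / (Ω + 1)) * η
        ≤ D ^ 2 * (volume I).toReal * |d ⬝ᵥ crossProduct (p.2 - p.1) p.1| :=
          mul_le_mul (mul_le_mul_of_nonneg_left hI (sq_nonneg D)) hdet hη.le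
            (mul_nonneg (sq_nonneg D) ENNReal.toReal_nonneg)
      _ ≤ _ := happ.trans (mul_le_mul_of_nonneg_left
          (jump_sum_le hcalc hpart h1 h2 h3 (hE k) _) hS0)
  have := ge_of_tendsto (hS.mul_const 1296) key
  rw [zero_mul] at this
  have hΩ : 0 ≤ Ω := ENNReal.toReal_nonneg
  have : 0 < D ^ 2 * (2 * c₀ / (Ω + 1)) * η :=
    mul_pos (mul_pos (pow_pos hD 2) (div_pos (mul_pos two_pos (by positivity)) (by linarith))) hη
  linarith

end

end Vale.Agent.P227.Lp
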