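import Vale.Agent.P227.Lp.Defs

/-!
# P227: rescaling support numbers to `1`
-/

namespace Vale.Agent.P227.Lp

open MeasureTheory Set Filter Topology Matrix Function

noncomputable section

variable {ι : Type} [Fintype ι] [DecidableEq ι]

/-- The directions divided by the support numbers. -/
def scale (ν : ι → V3) (h : ι → ℝ) : ι → V3 := fun i => (h i)⁻¹ • ν i

omit [Fintype ι] [DecidableEq ι] in
theorem body_scale (ν : ι → V3) {h : ι → ℝ} (hh : ∀ i, 0 < h i) (u : ι → ℝ) :
    body (scale ν h) u = body ν (u * h) := by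
  ext x
  refine forall_congr' fun i => ?_
  rw [scale, smul_dotProduct, smul_eq_mul, abs_mul, abs_of_pos (inv_pos.2 (hh i)),
    inv_mul_le_iff₀ (hh i), Pi.mul_apply, mul_comm (h i)]

theorem vol_scale (ν : ι → V3) {h : ι → ℝ} (hh : ∀ i, 0 < h i) (u : ι → ℝ) :
    vol (scale ν h) u = vol ν (u * h) := by
  simp [vol, body_scale ν hh]

omit [Fintype ι] in
theorem update_mul' (u h : ι → ℝ) (i : ι) (s : ℝ) :
    update u i s * h = update (u * h) i (h i * s) := by
  funext k
  rcases eq_or_ne k i with rfl | hk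
  · simp [mul_comm]
  · simp [hk]

theorem grad_scale (ν : ι → V3) {h : ι → ℝ} (hh : ∀ i, 0 < h i) (u : ι → ℝ) (i : ι) :
    grad (scale ν h) u i = h i * grad ν (u * h) i := by
  have e : (fun s => vol (scale ν h) (update u i s))
      = fun s => (fun r => vol ν (update (u * h) i r)) (h i * s) := by
    funext s
    rw [vol_scale ν hh, update_mul']
  rw [grad, e, deriv_comp_mul_left (h i) (fun r => vol ν (update (u * h) i r)), smul_eq_mul, grad,
    Pi.mul_apply, mul_comm (h i) (u i)]

theorem hess_scale (ν : ι → V3) {h : ι → ℝ} (hh : ∀ i, 0 < h i) (u : ι → ℝ) (i j : ι) :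
    hess (scale ν h) u i j = h i * h j * hess ν (u * h) i j := by
  have e : (fun s => grad (scale ν h) (update u j s) i)
      = fun s => h i * (fun r => grad ν (update (u * h) j r) i) (h j * s) := by
    funext s
    rw [grad_scale ν hh, update_mul']
  rw [hess, e, deriv_const_mul_field,
    deriv_comp_mul_left (h j) (fun r => grad ν (update (u * h) j r) i), smul_eq_mul, hess,
    Pi.mul_apply, mul_comm (h j) (u j)]
  ring

theorem full_scale (ν : ι → V3) {h : ι → ℝ} (hh : Full ν h) : Full (scale ν h) 1 :=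
  ⟨fun _ => one_pos, fun i => by
    rw [grad_scale ν hh.1, one_mul]
    exact mul_pos (hh.1 i) (hh.2 i)⟩

omit [Fintype ι] [DecidableEq ι] in
theorem fam_scale {ν : ι → V3} (hν : Fam ν) {h : ι → ℝ} (hh : ∀ i, 0 < h i) :
    Fam (scale ν h) where
  ne_zero i := smul_ne_zero (inv_ne_zero (hh i).ne') (hν.ne_zero i)
  indep i j hij := by
    rw [scale, scale, map_smul, map_smul, LinearMap.smul_apply]
    exact smul_ne_zero (inv_ne_zero (hh _).ne')
      (smul_ne_zero (inv_ne_zero (hh _).ne') (hν.indep i j hij))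
  span x hx := hν.span x fun i => by
    have := hx i
    rw [scale, smul_dotProduct, smul_eq_mul] at this
    exact (mul_eq_zero.1 this).resolve_left (inv_ne_zero (hh i).ne')

theorem mass_scale (ν : ι → V3) {h : ι → ℝ} (hh : ∀ i, 0 < h i) (i : ι) :
    mass (scale ν h) i = h i * grad ν h i / (3 * vol ν h) := by
  simp [mass, grad_scale ν hh, vol_scale ν hh]

theorem form_scale (ν : ι → V3) {h : ι → ℝ} (hh : ∀ i, 0 < h i) (f g : ι → ℝ) :
    form (scale ν h) f g
      = (∑ i, ∑ j, hess ν h i j * (h i * f i) * (h j * g j)) / (6 * vol ν h) := by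
  simp only [form, hess_scale ν hh, vol_scale ν hh, one_mul]
  congr 1
  exact Finset.sum_congr rfl fun i _ => Finset.sum_congr rfl fun j _ => by ring

/-- The local inequality at support numbers `h`, without normalisation. -/
theorem bound_at {ν : ι → V3} {h : ι → ℝ} (hh : ∀ i, 0 < h i) (hV : 0 < vol ν h) {c : ℝ}
    (hb : Bound c (scale ν h)) (g : ι → ℝ) :
    (∑ i, ∑ j, hess ν h i j * g i * g j) / 6 + c * ((∑ i, grad ν h i * (g i ^ 2 / h i)) / 3)
      - (1 + c) * ((∑ i, grad ν h i * g i) / 3) ^ 2 / vol ν h ≤ 0 := by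
  have hgi : ∀ i, h i * (g i / h i) = g i := fun i => by field_simp [(hh i).ne']
  have H := hb fun i => g i / h i
  rw [form_scale ν hh] at H
  simp only [mean, mass_scale ν hh, hgi] at H
  have e1 : ∑ i, h i * grad ν h i / (3 * vol ν h) * (g i / h i) ^ 2
      = (∑ i, grad ν h i * (g i ^ 2 / h i)) / 3 / vol ν h := by
    rw [Finset.sum_div, Finset.sum_div]
    exact Finset.sum_congr rfl fun i _ => by field_simp [(hh i).ne']
  have e2 : ∑ i, h i * grad ν h i / (3 * vol ν h) * (g i / h i)
      = (∑ i, grad ν h i * g i) / 3 / vol ν h := by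
    rw [Finset.sum_div, Finset.sum_div]
    exact Finset.sum_congr rfl fun i _ => by field_simp [(hh i).ne']
  rw [e1, e2] at H
  generalize (∑ i, ∑ j, hess ν h i j * g i * g j) = A at H ⊢
  generalize (∑ i, grad ν h i * (g i ^ 2 / h i)) = B at H ⊢
  generalize (∑ i, grad ν h i * g i) = D at H ⊢
  have key : A / 6 + c * (B / 3) - (1 + c) * (D / 3) ^ 2 / vol ν h
      = vol ν h * (A / (6 * vol ν h) + c * (B / 3 / vol ν h)
          - (1 + c) * (D / 3 / vol ν h) ^ 2) := by
    field_simp
  rw [key]
  exact mul_nonpos_of_nonneg_of_nonpos hV.le (by linarith)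

end

end Vale.Agent.P227.Lp
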