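import Vale.Agent.P227.Lp.Minkowski
import Vale.Agent.P227.Lp.Drop

/-!
# P227: the Hessian is strictly negative on even functions of mean zero
-/

namespace Vale.Agent.P227.Lp

open MeasureTheory Set Filter Topology Matrix Function

noncomputable section

/-- A null function of mean zero keeps the volume constant near `0`. -/
theorem vol_const_near (hcalc : CalcStatement) (hkink : KinkStatement) {N : ℕ} {ν : Fin N → V3}
    (hν : Fam ν) (hF : Full ν 1) {g : Fin N → ℝ} (hm : ∑ i, grad ν 1 i * g i = 0)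
    (hA : ∑ i, ∑ j, hess ν 1 i j * g i * g j = 0) :
    ∀ᶠ t in 𝓝 (0 : ℝ), vol ν (1 + t • g) = vol ν 1 := by
  obtain ⟨h1, h2⟩ := hcalc N ν hν
  obtain ⟨Cr, hCr, haCr, -, hvr⟩ :=
    exists_line_germ h1 h2 hF g (l := 𝓝[>] (0 : ℝ)) nhdsWithin_le_nhds conn_right
  obtain ⟨Cl, hCl, haCl, -, hvl⟩ :=
    exists_line_germ h1 h2 hF g (l := 𝓝[<] (0 : ℝ)) nhdsWithin_le_nhds conn_left
  have hle := vol_le_of_critical h1 1 g hF.1 hm
  have facts : ∀ C, SymC C → Agrees ν C 1 →
      tri C 1 1 1 = vol ν 1 ∧ tri C g 1 1 = 0 ∧ tri C g g 1 = 0 := fun C hC ha => by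
    refine ⟨ha.1.symm, ?_, ?_⟩
    · have := ha.grad_sum g
      rw [hm] at this
      linarith
    · have := ha.hess_sum hC g g
      rw [hA] at this
      linarith
  obtain ⟨r1, r2, r3⟩ := facts Cr hCr haCr
  obtain ⟨l1, l2, l3⟩ := facts Cl hCl haCl
  simp only [r1, r2, r3, mul_zero, zero_mul, add_zero] at hvr
  simp only [l1, l2, l3, mul_zero, zero_mul, add_zero] at hvl
  have hk : tri Cl g g g ≤ tri Cr g g g := by
    refine hkink N ν hν hF g (vol ν 1) 0 0 _ _ ?_ ?_
    · filter_upwards [hvr] with t ht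
      rw [ht]
      ring
    · filter_upwards [hvl] with t ht
      rw [ht]
      ring
  have hr : tri Cr g g g ≤ 0 := by
    obtain ⟨t, ⟨ht, htv⟩, htp⟩ := (((hle.filter_mono nhdsWithin_le_nhds).and hvr).and
      (self_mem_nhdsWithin (s := Ioi (0 : ℝ)) (a := 0))).exists
    rw [htv] at ht
    exact nonpos_of_mul_nonpos_left (by linarith : tri Cr g g g * t ^ 3 ≤ 0)
      (pow_pos (Set.mem_Ioi.1 htp) 3)
  have hl : 0 ≤ tri Cl g g g := by
    obtain ⟨t, ⟨ht, htv⟩, htp⟩ := (((hle.filter_mono nhdsWithin_le_nhds).and hvl).and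
      (self_mem_nhdsWithin (s := Iio (0 : ℝ)) (a := 0))).exists
    rw [htv] at ht
    exact nonneg_of_mul_nonpos_left (by linarith : tri Cl g g g * t ^ 3 ≤ 0)
      ((by decide : Odd 3).pow_neg (Set.mem_Iio.1 htp))
  have hr0 : tri Cr g g g = 0 := le_antisymm hr (hl.trans hk)
  have hl0 : tri Cl g g g = 0 := le_antisymm (hk.trans hr) hl
  simp only [hr0, zero_mul, add_zero] at hvr
  simp only [hl0, zero_mul, add_zero] at hvl
  rw [← nhdsNE_sup_pure, eventually_sup, eventually_pure, ← nhdsLT_sup_nhdsGT, eventually_sup]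
  exact ⟨⟨hvl, hvr⟩, by simp⟩

/-- At a point with all support numbers positive the volume is constant nearby, if it is on the
left along a line. -/
theorem critical_of_left {N : ℕ} {ν : Fin N → V3} (h1 : Calc1 ν) {h g : Fin N → ℝ}
    (hh : ∀ i, 0 < h i) (hl : ∀ᶠ s in 𝓝[<] (0 : ℝ), vol ν (h + s • g) = vol ν h) :
    ∑ i, grad ν h i * g i = 0 := by
  have hd : HasDerivAt (fun t : ℝ => vol ν (h + t • g)) (∑ i, grad ν h i * g i) 0 := by
    simpa using hasDerivAt_vol_line h1 h g (t := 0) (by simpa using hh)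
  refine tendsto_nhds_unique (hd.tendsto_slope.mono_left (nhdsWithin_mono (s := Iio (0 : ℝ)) _
    fun x hx => (Set.mem_Iio.1 hx).ne)) (tendsto_const_nhds.congr' ?_)
  filter_upwards [hl] with s hs
  rw [slope_def_field, hs]
  simp

/-- If the volume is constant on the left, so is the derivative of the gradient. -/
theorem hess_zero_of_left {N : ℕ} {ν : Fin N → V3} (h1 : Calc1 ν) (h2 : Calc2 ν)
    {h g : Fin N → ℝ} (hF : Full ν h)
    (hl : ∀ᶠ s in 𝓝[<] (0 : ℝ), vol ν (h + s • g) = vol ν h) :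
    ∑ i, ∑ j, hess ν h i j * g i * g j = 0 := by
  have hg : ∀ᶠ s in 𝓝[<] (0 : ℝ), ∑ i, grad ν (h + s • g) i * g i = 0 := by
    obtain ⟨δ, hδ, hsub⟩ := mem_nhdsLT_iff_exists_Ioo_subset.1
      (hl.and ((eventually_pos_line h g hF.1).filter_mono nhdsWithin_le_nhds))
    filter_upwards [Ioo_mem_nhdsLT hδ] with s hs
    have hd := hasDerivAt_vol_line h1 h g (hsub hs).2
    refine hd.unique ((hasDerivAt_const s (vol ν h)).congr_of_eventuallyEq ?_)
    filter_upwards [Ioo_mem_nhds hs.1 hs.2] with y hy using (hsub hy).1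
  have hd : HasDerivAt (fun t : ℝ => ∑ i, grad ν (h + t • g) i * g i)
      (∑ i, ∑ j, hess ν h i j * g i * g j) 0 := by
    simpa using hasDerivAt_grad_line h2 h g (t := 0) (by simpa using hF)
  refine tendsto_nhds_unique (hd.tendsto_slope.mono_left (nhdsWithin_mono (s := Iio (0 : ℝ)) _
    fun x hx => (Set.mem_Iio.1 hx).ne)) (tendsto_const_nhds.congr' ?_)
  filter_upwards [hg] with s hs
  rw [slope_def_field, hs]
  simp [critical_of_left h1 hF.1 hl]

theorem volume_zero_of_flat {N : ℕ} {ν : Fin N → V3} (hν : Fam ν) {h : Fin N → ℝ} {i : Fin N}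
    (hi : h i = 0) : vol ν h = 0 := by
  set ψ : V3 →ₗ[ℝ] ℝ :=
    { toFun := fun x => ν i ⬝ᵥ x
      map_add' := fun x y => dotProduct_add (ν i) x y
      map_smul' := fun c x => dotProduct_smul c (ν i) x }
  have hsub : body ν h ⊆ (LinearMap.ker ψ : Set V3) := fun x hx => by
    have := hx i
    rw [hi, abs_nonpos_iff] at this
    exact this
  have : volume (body ν h) = 0 := measure_mono_null hsub
    (Measure.addHaar_submodule _ _ fun htop => hν.ne_zero i
      (dotProduct_self_eq_zero.1 (LinearMap.congr_fun (LinearMap.ker_eq_top.1 htop) (ν i))))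
  simp [vol, this]

/-- No nonzero even function of mean zero is null for the Hessian. -/
theorem no_zero (hcalc : CalcStatement) (hkink : KinkStatement) :
    ∀ (N : ℕ) (ν : Fin N → V3), Fam ν → Full ν 1 → ∀ g : Fin N → ℝ,
      ∑ i, grad ν 1 i * g i = 0 → ∑ i, ∑ j, hess ν 1 i j * g i * g j = 0 → g = 0 := by
  intro N
  induction N using Nat.strong_induction_on with
  | _ N ih =>
  intro ν hν hF g hm hA
  obtain ⟨h1, h2⟩ := hcalc N ν hν
  by_contra hg
  -- some coordinate is negative
  obtain ⟨i₀, hi₀⟩ : ∃ i, g i < 0 := by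
    by_contra! hpos
    refine hg (funext fun i => ?_)
    have := (Finset.sum_eq_zero_iff_of_nonneg fun i _ => mul_nonneg (hF.2 i).le (hpos i)).1 hm i
      (Finset.mem_univ i)
    exact (mul_eq_zero.1 this).resolve_left (hF.2 i).ne'
  set v₀ := vol ν 1 with hv₀
  set line : ℝ → Fin N → ℝ := fun t => 1 + t • g with hline
  have hlc : Continuous line := by rw [hline]; fun_prop
  -- the good parameters
  set G : Set ℝ := {t | Full ν (line t) ∧ vol ν (line t) = v₀}
  set T : Set ℝ := {t | 0 ≤ t ∧ Icc 0 t ⊆ G}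
  have h0G : (0 : ℝ) ∈ G := by simp [G, hline, hF, hv₀]
  have h0T : (0 : ℝ) ∈ T := ⟨le_rfl, by simpa using h0G⟩
  have hTb : ∀ t ∈ T, t < -1 / g i₀ := fun t ht => by
    have := (ht.2 (right_mem_Icc.2 ht.1)).1.1 i₀
    simp [hline] at this
    rw [lt_div_iff_of_neg hi₀]
    linarith
  have hbdd : BddAbove T := ⟨-1 / g i₀, fun t ht => (hTb t ht).le⟩
  set τ := sSup T
  have hτle : τ ≤ -1 / g i₀ := csSup_le ⟨0, h0T⟩ fun t ht => (hTb t ht).le
  have hlt : ∀ s, 0 ≤ s → s < τ → s ∈ G := fun s hs0 hs => by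
    obtain ⟨t, ht, hst⟩ := exists_lt_of_lt_csSup ⟨0, h0T⟩ hs
    exact ht.2 ⟨hs0, hst.le⟩
  -- a little beyond any good point
  have hext : ∀ t, Full ν (line t) → vol ν (line t) = v₀ →
      ∑ i, grad ν (line t) i * g i = 0 → ∑ i, ∑ j, hess ν (line t) i j * g i * g j = 0 →
      ∀ᶠ s in 𝓝 t, s ∈ G := fun t ht htv hc1 hc2 => by
    have e : ∀ i, line t i * (g i / line t i) = g i := fun i => by field_simp [(ht.1 i).ne']
    have hc := vol_const_near hcalc hkink (fam_scale hν ht.1) (full_scale ν ht)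
      (g := fun i => g i / line t i) (by simp only [grad_scale ν ht.1, one_mul]; rw [← hc1]
                                         exact Finset.sum_congr rfl fun i _ => by
                                           rw [mul_comm (line t i), mul_assoc, e])
      (by simp only [hess_scale ν ht.1, one_mul]; rw [← hc2]
          exact Finset.sum_congr rfl fun i _ => Finset.sum_congr rfl fun j _ => by
            conv_rhs => rw [← e i, ← e j]
            ring)
    have h3 : ∀ᶠ s in 𝓝 t, vol ν (line s) = v₀ := by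
      have := (tendsto_sub_nhds_zero_iff.2 (tendsto_id (x := 𝓝 t))).eventually hc
      filter_upwards [this] with s hs
      have e2 : ((1 : Fin N → ℝ) + (id s - t) • fun i => g i / line t i) * line t = line s := by
        funext i
        simp only [Pi.mul_apply, Pi.add_apply, Pi.smul_apply, smul_eq_mul, Pi.one_apply, id]
        rw [add_mul, one_mul, mul_assoc, mul_comm (g i / line t i), e]
        simp [hline]
        ring
      rw [vol_scale ν ht.1, vol_scale ν ht.1, e2, one_mul, htv] at hs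
      exact hs
    filter_upwards [h3, hlc.continuousAt.eventually_mem (h2.isOpen.mem_nhds ht)] with s h h'
    exact ⟨h', h⟩
  have hgrow : ∀ t, 0 ≤ t → (∀ s, 0 ≤ s → s < t → s ∈ G) → (∀ᶠ s in 𝓝 t, s ∈ G) →
      ∃ δ > 0, t + δ ∈ T := fun t ht hlt' hev => by
    obtain ⟨δ, hδ, hb⟩ := Metric.eventually_nhds_iff.1 hev
    refine ⟨δ / 2, half_pos hδ, by linarith, fun s hs => ?_⟩
    rcases lt_or_ge s t with h | h
    · exact hlt' s hs.1 h
    · exact hb (by rw [Real.dist_eq, abs_of_nonneg (by linarith)]; linarith [hs.2])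
  have hτpos : 0 < τ := by
    obtain ⟨δ, hδ, hT⟩ := hgrow 0 le_rfl (fun s hs hs' => absurd hs' (not_lt.2 hs))
      (hext 0 (by simpa [hline] using hF) (by simp [hline, hv₀]) (by simpa [hline] using hm)
        (by simpa [hline] using hA))
    linarith [le_csSup hbdd hT]
  -- nonnegativity and continuity at `τ`
  have hτnn : ∀ i, 0 ≤ line τ i := fun i => by
    refine ge_of_tendsto ((((continuous_apply i).comp hlc).tendsto τ).mono_left
      (nhdsWithin_le_nhds (s := Iio τ))) ?_
    filter_upwards [Ioo_mem_nhdsLT hτpos] with s hs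
    exact ((hlt s hs.1.le hs.2).1.1 i).le
  have hτv : vol ν (line τ) = v₀ := by
    have hc := (h1.vol_continuous (line τ) hτnn).tendsto.comp (tendsto_nhdsWithin_iff.2
      ⟨(hlc.tendsto τ).mono_left (nhdsWithin_le_nhds (s := Iio τ)), by
        filter_upwards [Ioo_mem_nhdsLT hτpos] with s hs
        exact fun i => ((hlt s hs.1.le hs.2).1.1 i).le⟩)
    refine tendsto_nhds_unique hc (tendsto_const_nhds.congr' ?_)
    filter_upwards [Ioo_mem_nhdsLT hτpos] with s hs using (hlt s hs.1.le hs.2).2.symm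
  have hv₀pos : 0 < v₀ := h1.vol_pos 1 hF.1
  have hτp : ∀ i, 0 < line τ i := fun i => (hτnn i).lt_of_ne fun h => by
    rw [volume_zero_of_flat hν h.symm] at hτv
    linarith
  -- the present facets at `τ`
  obtain ⟨M, e, hMN, he, hS, hS'⟩ := exists_present ν (line τ)
  obtain ⟨h1', h2'⟩ := hcalc M (ν ∘ e) (fam_comp hν h1 hτp he hS)
  have hFS : Full (ν ∘ e) (line τ ∘ e) := full_comp h1 hτp he hS hS' h1'
  have hleft : ∀ᶠ s in 𝓝[<] (0 : ℝ), τ + s ∈ Ioo 0 τ := by
    filter_upwards [Ioo_mem_nhdsLT (neg_neg_of_pos hτpos)] with s hs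
    exact ⟨by linarith [hs.1], by linarith [hs.2]⟩
  have elin : ∀ s, line (τ + s) = line τ + s • g := fun s => by
    simp [hline, add_smul, add_assoc]
  have ecomp : ∀ s : ℝ, (line τ + s • g) ∘ e = line τ ∘ e + s • (g ∘ e) := fun s => rfl
  have hgrad : ∀ f : Fin N → ℝ, ∑ i, grad ν (line τ) i * f i
      = ∑ j, grad (ν ∘ e) (line τ ∘ e) j * f (e j) := fun f => by
    simp only [grad_comp h1 hτp he hS h1']
    refine (Fintype.sum_of_injective e he _ _ (fun i hi => ?_) fun j => rfl).symm
    have : grad ν (line τ) i = 0 := le_antisymm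
      (le_of_not_gt fun h => hi (Set.mem_range.2 (hS i h))) (h1.grad_nonneg _ hτp i)
    rw [this, zero_mul]
  have hcrit : ∑ i, grad ν (line τ) i * g i = 0 := critical_of_left h1 hτp <| by
    filter_upwards [hleft] with s hs
    rw [← elin, (hlt _ hs.1.le hs.2).2, hτv]
  have hSle := vol_le_of_critical h1' (line τ ∘ e) (g ∘ e) hFS.1
    (by rw [← hcrit, hgrad]; rfl)
  have hSeq : ∀ᶠ s in 𝓝[<] (0 : ℝ),
      vol (ν ∘ e) (line τ ∘ e + s • (g ∘ e)) = vol (ν ∘ e) (line τ ∘ e) := by
    filter_upwards [hSle.filter_mono nhdsWithin_le_nhds, hleft] with s hle hs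
    refine le_antisymm hle ?_
    rw [vol_comp h1 hτp hS, hτv, ← ecomp, ← elin, ← (hlt _ hs.1.le hs.2).2]
    exact vol_le_comp (h1'.compact _)
  have hhS := hess_zero_of_left h1' h2' hFS hSeq
  rcases hMN.lt_or_eq with hlt' | rfl
  · -- fewer facets: the kept ones do not move
    have hz := ih M hlt' (scale (ν ∘ e) (line τ ∘ e)) (fam_scale (fam_comp hν h1 hτp he hS) hFS.1)
      (full_scale _ hFS) (fun j => g (e j) / line τ (e j)) ?_ ?_
    · have hge : ∀ j, g (e j) = 0 := fun j => by
        have := congrFun hz j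
        simpa [(hτp (e j)).ne'] using this
      obtain ⟨i, hi⟩ : ∃ i, i ∉ Set.range e := by
        by_contra! h
        have := Fintype.card_le_of_surjective e h
        simp at this
        omega
      obtain ⟨s, hs⟩ := hleft.exists
      have hG := hlt _ hs.1.le hs.2
      have hconst : line (τ + s) ∘ e = line τ ∘ e := funext fun j => by
        simp [hline, hge]
      have hmax : IsLocalMax (fun r => vol ν (update (line (τ + s)) i r)) (line (τ + s) i) := by
        refine Eventually.of_forall fun r => ?_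
        simp only [update_eq_self]
        refine (vol_le_comp (e := e) (h1'.compact _)).trans_eq ?_
        rw [show update (line (τ + s)) i r ∘ e = line (τ + s) ∘ e from
          funext fun j => update_of_ne (fun h => hi ⟨j, h⟩) _ _, hconst, vol_comp h1 hτp hS, hτv,
          hG.2]
      exact absurd (hmax.deriv_eq_zero) (hG.1.2 i).ne'
    · refine Eq.trans ?_ ((hgrad g).symm.trans hcrit)
      refine Finset.sum_congr rfl fun j _ => ?_
      rw [grad_scale _ hFS.1, one_mul, Function.comp_apply]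
      field_simp [(hτp (e j)).ne']
    · refine Eq.trans ?_ hhS
      refine Finset.sum_congr rfl fun j _ => Finset.sum_congr rfl fun k _ => ?_
      rw [hess_scale _ hFS.1, one_mul, Function.comp_apply, Function.comp_apply]
      field_simp [(hτp (e j)).ne', (hτp (e k)).ne']
      rfl
  · have hsurj : Surjective e := Finite.surjective_of_injective he
    have hFull : Full ν (line τ) := ⟨hτp, fun i => by
      obtain ⟨j, rfl⟩ := hsurj i
      exact hS' j⟩
    have hh0 : ∑ i, ∑ j, hess ν (line τ) i j * g i * g j = 0 := hess_zero_of_left h1 h2 hFull <| by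
      filter_upwards [hleft] with s hs
      rw [← elin, (hlt _ hs.1.le hs.2).2, hτv]
    obtain ⟨δ, hδ, hT⟩ := hgrow τ hτpos.le hlt (hext τ hFull hτv hcrit hh0)
    linarith [le_csSup hbdd hT]

end

end Vale.Agent.P227.Lp
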