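import Vale.Agent.P227.Lp.Scale

/-!
# P227: trilinear forms and germs of selections
-/

namespace Vale.Agent.P227.Lp

open MeasureTheory Set Filter Topology Matrix Function

noncomputable section

variable {ι : Type} [Fintype ι]

theorem tri_add₁ (C : ι → ι → ι → ℝ) (f f' g k : ι → ℝ) :
    tri C (f + f') g k = tri C f g k + tri C f' g k := by
  simp only [tri, Pi.add_apply, mul_add, add_mul, Finset.sum_add_distrib]

theorem tri_add₂ (C : ι → ι → ι → ℝ) (f g g' k : ι → ℝ) :
    tri C f (g + g') k = tri C f g k + tri C f g' k := by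
  simp only [tri, Pi.add_apply, mul_add, add_mul, Finset.sum_add_distrib]

theorem tri_add₃ (C : ι → ι → ι → ℝ) (f g k k' : ι → ℝ) :
    tri C f g (k + k') = tri C f g k + tri C f g k' := by
  simp only [tri, Pi.add_apply, mul_add, Finset.sum_add_distrib]

theorem tri_smul₁ (C : ι → ι → ι → ℝ) (c : ℝ) (f g k : ι → ℝ) :
    tri C (c • f) g k = c * tri C f g k := by
  simp only [tri, Pi.smul_apply, smul_eq_mul, Finset.mul_sum]
  congr! 3
  ring

theorem tri_smul₂ (C : ι → ι → ι → ℝ) (c : ℝ) (f g k : ι → ℝ) :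
    tri C f (c • g) k = c * tri C f g k := by
  simp only [tri, Pi.smul_apply, smul_eq_mul, Finset.mul_sum]
  congr! 3
  ring

theorem tri_smul₃ (C : ι → ι → ι → ℝ) (c : ℝ) (f g k : ι → ℝ) :
    tri C f g (c • k) = c * tri C f g k := by
  simp only [tri, Pi.smul_apply, smul_eq_mul, Finset.mul_sum]
  congr! 3
  ring

theorem SymC.swap₁ {C : ι → ι → ι → ℝ} (hC : SymC C) (f g k : ι → ℝ) :
    tri C f g k = tri C g f k := by
  simp only [tri]
  rw [Finset.sum_comm]
  congr! 3 with i _ j _ l _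
  rw [(hC j i l).1]
  ring

theorem SymC.swap₂ {C : ι → ι → ι → ℝ} (hC : SymC C) (f g k : ι → ℝ) :
    tri C f g k = tri C f k g := by
  simp only [tri]
  refine Finset.sum_congr rfl fun i _ => ?_
  rw [Finset.sum_comm]
  congr! 2 with j _ l _
  rw [(hC i l j).2]
  ring

theorem tri_continuous (C : ι → ι → ι → ℝ) :
    Continuous fun p : (ι → ℝ) × (ι → ℝ) × (ι → ℝ) => tri C p.1 p.2.1 p.2.2 := by
  unfold tri
  fun_prop

theorem tri_continuousAt {X : Type*} [TopologicalSpace X] {x : X} (C : ι → ι → ι → ℝ)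
    {f g k : X → ι → ℝ} (hf : ContinuousAt f x) (hg : ContinuousAt g x) (hk : ContinuousAt k x) :
    ContinuousAt (fun y => tri C (f y) (g y) (k y)) x :=
  tendsto_finsetSum _ fun i _ => tendsto_finsetSum _ fun j _ => tendsto_finsetSum _ fun l _ =>
    (((tendsto_pi_nhds.1 hf i).const_mul (C i j l)).mul (tendsto_pi_nhds.1 hg j)).mul
      (tendsto_pi_nhds.1 hk l)

variable [DecidableEq ι]

theorem tri_single₁ (C : ι → ι → ι → ℝ) (f g k : ι → ℝ) :
    tri C f g k = ∑ i, f i * tri C (Pi.single i 1) g k := by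
  conv_lhs => rw [pi_eq_sum_univ' f]
  rw [show (∑ i, f i • (Pi.single i 1 : ι → ℝ)) = ∑ i ∈ Finset.univ, f i • (Pi.single i 1 : ι → ℝ)
    from rfl]
  induction (Finset.univ : Finset ι) using Finset.induction_on with
  | empty => simp [tri]
  | insert a s ha ih => rw [Finset.sum_insert ha, Finset.sum_insert ha, tri_add₁, tri_smul₁, ih]

/-- The quadratic form of the Hessian. -/
theorem Agrees.hess_sum {ν : ι → V3} {C : ι → ι → ι → ℝ} {h : ι → ℝ} (hC : SymC C)
    (ha : Agrees ν C h) (f g : ι → ℝ) :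
    ∑ i, ∑ j, hess ν h i j * f i * g j = 6 * tri C f g h := by
  rw [tri_single₁, Finset.mul_sum]
  refine Finset.sum_congr rfl fun i _ => ?_
  rw [hC.swap₁, tri_single₁, Finset.mul_sum, Finset.mul_sum]
  refine Finset.sum_congr rfl fun j _ => ?_
  rw [ha.2.2, hC.swap₁ (Pi.single j 1)]
  ring

theorem Agrees.grad_sum {ν : ι → V3} {C : ι → ι → ι → ℝ} {h : ι → ℝ}
    (ha : Agrees ν C h) (f : ι → ℝ) :
    ∑ i, grad ν h i * f i = 3 * tri C f h h := by
  rw [tri_single₁, Finset.mul_sum]
  refine Finset.sum_congr rfl fun i _ => ?_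
  rw [ha.2.1]
  ring

omit [Fintype ι] [DecidableEq ι] in
/-- A continuous selection of finitely many affine functions of slope at most `L` changes by at
most `L` over the unit interval. -/
theorem selection_bound {κ : Type*} [Finite κ] {L : ℝ} {a b : κ → ℝ} (hb : ∀ k, |b k| ≤ L)
    {f : ℝ → ℝ} (hf : ContinuousOn f (Icc 0 1))
    (hsel : ∀ t ∈ Icc (0 : ℝ) 1, ∃ k, f t = a k + b k * t) : |f 1 - f 0| ≤ L := by
  obtain ⟨k₀, -⟩ := hsel 0 (by simp)
  have hL : 0 ≤ L := (abs_nonneg _).trans (hb k₀)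
  refine le_of_forall_pos_le_add fun ε hε => ?_
  set s : Set ℝ := {t | |f t - f 0| ≤ (L + ε) * t}
  have hcl : IsClosed (s ∩ Icc 0 1) := by
    have h1 : ContinuousOn (fun t => |f t - f 0| - (L + ε) * t) (Icc 0 1) :=
      ((hf.sub continuousOn_const).abs).sub (by fun_prop)
    have := h1.preimage_isClosed_of_isClosed isClosed_Icc (isClosed_Iic (a := (0 : ℝ)))
    convert this using 1
    ext t
    simp [s, and_comm]
  have := hcl.Icc_subset_of_forall_mem_nhdsWithin (by simp [s]) fun x hx => by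
    obtain ⟨hxs, hx0, hx1⟩ := hx
    have hc : ContinuousWithinAt f (Ioc x 1) x :=
      (hf x ⟨hx0, hx1.le⟩).mono fun t ht => ⟨hx0.trans ht.1.le, ht.2⟩
    have he : ∀ᶠ t in 𝓝[>] x, ∀ k, f x ≠ a k + b k * x → f t ≠ a k + b k * t := by
      rw [← nhdsWithin_Ioc_eq_nhdsGT hx1, eventually_all]
      intro k
      by_cases hk : f x = a k + b k * x
      · exact Eventually.of_forall fun t h => absurd hk h
      · have := ((hc.sub ((by fun_prop : Continuous fun t => a k + b k * t).continuousWithinAt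
          (x := x))).eventually_ne (sub_ne_zero.2 hk))
        filter_upwards [this] with t ht _ h
        exact ht (sub_eq_zero.2 h)
    filter_upwards [he, Ioc_mem_nhdsGT hx1] with t ht htm
    obtain ⟨k, hk⟩ := hsel t ⟨hx0.trans htm.1.le, htm.2⟩
    have hkx : f x = a k + b k * x := by_contra fun h => ht k h hk
    have h2 : |f t - f x| ≤ (L + ε) * (t - x) := by
      rw [hk, hkx, show a k + b k * t - (a k + b k * x) = b k * (t - x) by ring, abs_mul,
        abs_of_nonneg (sub_nonneg.2 htm.1.le)]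
      exact mul_le_mul_of_nonneg_right ((hb k).trans (by linarith)) (sub_nonneg.2 htm.1.le)
    show |f t - f 0| ≤ (L + ε) * t
    calc |f t - f 0| ≤ |f t - f x| + |f x - f 0| := abs_sub_le _ _ _
      _ ≤ (L + ε) * (t - x) + (L + ε) * x := add_le_add h2 hxs
      _ = _ := by ring
  simpa [s] using this (right_mem_Icc.2 zero_le_one)

end

end Vale.Agent.P227.Lp
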