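import Vale.Agent.P227.Lp.Expand

/-!
# P227: no configuration is worst with a parameter below `1 / 4`
-/

namespace Vale.Agent.P227.Lp

open MeasureTheory Set Filter Topology Matrix Function

noncomputable section

variable {N : ℕ} {ν : Fin N → V3}

theorem conn_right : ∀ S ∈ 𝓝[>] (0 : ℝ), ∀ F : Finset ℝ,
    ∃ I : Set ℝ, I ∈ 𝓝[>] (0 : ℝ) ∧ I ⊆ S ∧ IsPreconnected I ∧ ∀ x ∈ F, x ∉ I := by
  intro S hS F
  have h : ∀ᶠ t in 𝓝[>] (0 : ℝ), ∀ x ∈ F, t ≠ x := F.eventually_all.2 fun x _ => by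
    by_cases hx : x = 0
    · exact eventually_nhdsWithin_of_forall fun t ht e => (Set.mem_Ioi.1 ht).ne' (e.trans hx)
    · exact eventually_nhdsWithin_of_eventually_nhds (eventually_ne_nhds (Ne.symm hx))
  obtain ⟨δ, hδ, hsub⟩ := mem_nhdsGT_iff_exists_Ioo_subset.1 (inter_mem hS h)
  exact ⟨Ioo 0 δ, Ioo_mem_nhdsGT hδ, fun t ht => (hsub ht).1, isPreconnected_Ioo,
    fun x hx hxI => (hsub hxI).2 x hx rfl⟩

theorem conn_left : ∀ S ∈ 𝓝[<] (0 : ℝ), ∀ F : Finset ℝ,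
    ∃ I : Set ℝ, I ∈ 𝓝[<] (0 : ℝ) ∧ I ⊆ S ∧ IsPreconnected I ∧ ∀ x ∈ F, x ∉ I := by
  intro S hS F
  have h : ∀ᶠ t in 𝓝[<] (0 : ℝ), ∀ x ∈ F, t ≠ x := F.eventually_all.2 fun x _ => by
    by_cases hx : x = 0
    · exact eventually_nhdsWithin_of_forall fun t ht e => (Set.mem_Iio.1 ht).ne (e.trans hx)
    · exact eventually_nhdsWithin_of_eventually_nhds (eventually_ne_nhds (Ne.symm hx))
  obtain ⟨δ, hδ, hsub⟩ := mem_nhdsLT_iff_exists_Ioo_subset.1 (inter_mem hS h)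
  exact ⟨Ioo δ 0, Ioo_mem_nhdsLT hδ, fun t ht => (hsub ht).1, isPreconnected_Ioo,
    fun x hx hxI => (hsub hxI).2 x hx rfl⟩

theorem mass_nonneg (hV : 0 < vol ν 1) (hF : Full ν 1) (i : Fin N) : 0 ≤ mass ν i :=
  div_nonneg (hF.2 i).le (by positivity)

theorem Agrees.mean_eq {C : Fin N → Fin N → Fin N → ℝ} (ha : Agrees ν C 1) (f : Fin N → ℝ) :
    mean ν f = tri C f 1 1 / vol ν 1 := by
  have : mean ν f = (∑ i, grad ν 1 i * f i) / (3 * vol ν 1) := by
    rw [Finset.sum_div]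
    exact Finset.sum_congr rfl fun i _ => by rw [mass]; ring
  rw [this, ha.grad_sum]
  ring

theorem Agrees.form_eq {C : Fin N → Fin N → Fin N → ℝ} (hC : SymC C) (ha : Agrees ν C 1)
    (f g : Fin N → ℝ) : form ν f g = tri C f g 1 / vol ν 1 := by
  rw [form, ha.hess_sum hC]
  ring

/-- The functional of an agreeing form is nonpositive wherever the local inequality holds. -/
theorem Agrees.func_le (h1 : Calc1 ν) (hν : Fam ν) {s : ℝ}
    (hall : ∀ ν : Fin N → V3, Fam ν → Full ν 1 → Bound s ν) {C : Fin N → Fin N → Fin N → ℝ}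
    (hC : SymC C) {h : Fin N → ℝ} (hh : Full ν h) (ha : Agrees ν C h) (g : Fin N → ℝ) :
    func C s g h ≤ 0 := by
  have := bound_at hh.1 (h1.vol_pos h hh.1)
    (hall _ (fam_scale hν hh.1) (full_scale ν hh)) g
  rw [ha.hess_sum hC, ha.grad_sum, ha.grad_sum, ha.1] at this
  have e : (g ^ 2 / h : Fin N → ℝ) = fun i => g i ^ 2 / h i := rfl
  rw [func, e]
  simp only [mul_div_cancel_left₀ _ (by norm_num : (6 : ℝ) ≠ 0),
    mul_div_cancel_left₀ _ (by norm_num : (3 : ℝ) ≠ 0)] at this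
  exact this

/-- Along a line, eventually the Hessian is that of the cubic of the volume. -/
theorem hess_line (h1 : Calc1 ν) (h2 : Calc2 ν) (hF : Full ν 1) (g : Fin N → ℝ) {p₁ p₂ p₃ p₀ : ℝ}
    (hv : ∀ᶠ t in 𝓝[>] (0 : ℝ),
      vol ν (1 + t • g) = p₀ + p₁ * t + p₂ * t ^ 2 + p₃ * t ^ 3) :
    ∀ᶠ t in 𝓝[>] (0 : ℝ),
      ∑ i, ∑ j, hess ν (1 + t • g) i j * g i * g j = 2 * p₂ + 6 * p₃ * t := by
  have hc : Continuous fun t : ℝ => (1 : Fin N → ℝ) + t • g := by fun_prop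
  have hev : ∀ᶠ t in 𝓝[>] (0 : ℝ), Full ν (1 + t • g) :=
    eventually_full h2 hF nhdsWithin_le_nhds hc.continuousAt (by simp)
  obtain ⟨δ, hδ, hsub⟩ := mem_nhdsGT_iff_exists_Ioo_subset.1 (hv.and hev)
  have hd : ∀ t : ℝ, HasDerivAt (fun t : ℝ => (1 : Fin N → ℝ) + t • g) g t := fun t => by
    simpa using ((hasDerivAt_id t).smul_const g).const_add (1 : Fin N → ℝ)
  have hp : ∀ t : ℝ, HasDerivAt (fun t => p₀ + p₁ * t + p₂ * t ^ 2 + p₃ * t ^ 3)
      (p₁ + 2 * p₂ * t + 3 * p₃ * t ^ 2) t := fun t => by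
    refine ((((hasDerivAt_id t).const_mul p₁).const_add p₀).fun_add
      (((hasDerivAt_id t).fun_pow 2).const_mul p₂)).fun_add
      (((hasDerivAt_id t).fun_pow 3).const_mul p₃) |>.congr_deriv ?_
    simp
    ring
  have hp' : ∀ t : ℝ, HasDerivAt (fun t => p₁ + 2 * p₂ * t + 3 * p₃ * t ^ 2)
      (2 * p₂ + 6 * p₃ * t) t := fun t => by
    refine (((hasDerivAt_id t).const_mul (2 * p₂)).const_add p₁).fun_add
      (((hasDerivAt_id t).fun_pow 2).const_mul (3 * p₃)) |>.congr_deriv ?_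
    simp
    ring
  have hgrad : ∀ t ∈ Ioo (0 : ℝ) δ,
      ∑ i, grad ν (1 + t • g) i * g i = p₁ + 2 * p₂ * t + 3 * p₃ * t ^ 2 := fun t ht => by
    have := (h1.hasFDeriv _ (hsub ht).2.1).comp_hasDerivAt t (hd t)
    simp at this
    refine (this.congr_of_eventuallyEq ?_).unique (hp t)
    filter_upwards [Ioo_mem_nhds ht.1 ht.2] with y hy using ((hsub hy).1).symm
  filter_upwards [Ioo_mem_nhdsGT hδ] with t ht
  have : HasDerivAt (fun y => ∑ i, grad ν (1 + y • g) i * g i)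
      (∑ i, ∑ j, hess ν (1 + t • g) i j * g i * g j) t := by
    refine (HasDerivAt.fun_sum fun i _ =>
      ((h2.hasFDeriv _ (hsub ht).2 i).comp_hasDerivAt t (hd t)).mul_const (g i)).congr_deriv ?_
    simp [Finset.sum_mul]
    exact Finset.sum_congr rfl fun i _ => Finset.sum_congr rfl fun j _ => by ring
  refine (this.congr_of_eventuallyEq ?_).unique (hp' t)
  filter_upwards [Ioo_mem_nhds ht.1 ht.2] with y hy using (hgrad y hy).symm

/-- No configuration is worst with `0 < s < 1 / 4`. -/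
theorem no_worst (hcalc : CalcStatement) (hkink : KinkStatement) {s : ℝ} (hs : 0 < s)
    (hs4 : s < 1 / 4) (hall : ∀ ν : Fin N → V3, Fam ν → Full ν 1 → Bound s ν) (hν : Fam ν)
    (hF : Full ν 1) {φ : Fin N → ℝ} (hW : Worst ν φ s) : False := by
  obtain ⟨h1, h2⟩ := hcalc N ν hν
  have hV := h1.vol_pos 1 hF.1
  obtain ⟨hm0, hm2, heig, hmax⟩ := hW
  have hφ2 : (fun i => φ i ^ 2) = φ ^ 2 := rfl
  rw [hφ2] at hm2
  -- forms along the lines and the curve
  set σ : ℝ := -(5 * s)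
  have hlc : Continuous fun t : ℝ => (1 : Fin N → ℝ) + t • φ := by fun_prop
  have hcc : Continuous fun t : ℝ => (1 : Fin N → ℝ) + t • φ + (σ * t ^ 2) • φ ^ 2 := by fun_prop
  obtain ⟨Cr, hCr, haCr, hfrr, hvr⟩ :=
    exists_line_germ h1 h2 hF φ (l := 𝓝[>] (0 : ℝ)) nhdsWithin_le_nhds conn_right
  obtain ⟨Cl, hCl, haCl, hfrl, hvl⟩ :=
    exists_line_germ h1 h2 hF φ (l := 𝓝[<] (0 : ℝ)) nhdsWithin_le_nhds conn_left
  obtain ⟨Cc, hCc, haCc, hfrc⟩ := exists_germ h1 h2 hF (l := 𝓝[>] (0 : ℝ)) nhdsWithin_le_nhds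
    (c := fun t => 1 + t • φ + (σ * t ^ 2) • φ ^ 2) hcc.continuousAt (by simp)
  -- facts shared by all forms agreeing at `1`
  have facts : ∀ C, SymC C → Agrees ν C 1 → tri C 1 1 1 = vol ν 1 ∧ tri C φ 1 1 = 0 ∧
      tri C (φ ^ 2) 1 1 = vol ν 1 ∧ tri C φ φ 1 = -s * vol ν 1 ∧
      (∀ e, tri C φ e 1 = -s * tri C (φ * e) 1 1) ∧
      (∀ f g, tri C f g 1 = form ν f g * vol ν 1) ∧
      (∀ f, tri C f 1 1 = mean ν f * vol ν 1) := fun C hC ha => by
    have hm : ∀ f, tri C f 1 1 = mean ν f * vol ν 1 := fun f => by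
      rw [ha.mean_eq, div_mul_cancel₀ _ hV.ne']
    have hf : ∀ f g, tri C f g 1 = form ν f g * vol ν 1 := fun f g => by
      rw [ha.form_eq hC, div_mul_cancel₀ _ hV.ne']
    refine ⟨ha.1.symm, by rw [hm, hm0, zero_mul], by rw [hm, hm2, one_mul], ?_,
      fun e => by rw [hf, hm, heig]; ring, hf, hm⟩
    rw [hf, heig, ← pow_two, hm2]
    ring
  -- first order on the two sides
  have hTrl : tri Cl φ φ φ ≤ tri Cr φ φ φ := by
    refine hkink N ν hν hF φ (tri Cr 1 1 1) (3 * tri Cr φ 1 1) (3 * tri Cr φ φ 1) _ _ hvr ?_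
    obtain ⟨a1, a2, -, a4, -⟩ := facts Cr hCr haCr
    obtain ⟨b1, b2, -, b4, -⟩ := facts Cl hCl haCl
    rw [a1, a2, a4]
    filter_upwards [hvl] with t ht
    rw [ht, b1, b2, b4]
  have hTc : tri Cc φ φ φ = tri Cr φ φ φ := by
    obtain ⟨S, hS, hcov⟩ := h2.cubic
    set K := ∑ D ∈ S, |tri D φ φ (φ ^ 2)|
    have hl := hess_line h1 h2 hF φ hvr
    obtain ⟨ρ, hρ, hball⟩ := Metric.isOpen_iff.1 h2.isOpen 1 hF
    have hb1 : ∀ᶠ t in 𝓝[>] (0 : ℝ), (1 : Fin N → ℝ) + t • φ ∈ Metric.ball 1 ρ :=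
      nhdsWithin_le_nhds (hlc.tendsto' 0 1 (by simp) (Metric.ball_mem_nhds _ hρ))
    have hb2 : ∀ᶠ t in 𝓝[>] (0 : ℝ),
        (1 : Fin N → ℝ) + t • φ + (σ * t ^ 2) • φ ^ 2 ∈ Metric.ball 1 ρ :=
      nhdsWithin_le_nhds (hcc.tendsto' 0 1 (by simp) (Metric.ball_mem_nhds _ hρ))
    have key : ∃ᶠ t in 𝓝[>] (0 : ℝ),
        |tri Cc φ φ φ - tri Cr φ φ φ + σ * t * tri Cc φ φ (φ ^ 2)| - |σ| * t * K ≤ 0 := by
      refine (hfrc.and_eventually (hl.and (hb1.and (hb2.and self_mem_nhdsWithin)))).mono ?_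
      rintro t ⟨hat, hlt, ht1, ht2, (ht : 0 < t)⟩
      set D : ℝ → ℝ := fun θ => (∑ i, ∑ j,
        hess ν (1 + t • φ + (θ * (σ * t ^ 2)) • φ ^ 2) i j * φ i * φ j) / 6
      have hseg : ∀ θ ∈ Icc (0 : ℝ) 1,
          Full ν (1 + t • φ + (θ * (σ * t ^ 2)) • φ ^ 2) := fun θ hθ => by
        refine hball ?_
        have := (convex_ball (1 : Fin N → ℝ) ρ) ht1 ht2 (sub_nonneg.2 hθ.2) hθ.1
          (sub_add_cancel 1 θ)
        convert this using 1
        module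
      have hDc : ContinuousOn D (Icc 0 1) := fun θ hθ => by
        refine ContinuousAt.continuousWithinAt (ContinuousAt.div_const ?_ _)
        refine tendsto_finsetSum _ fun i _ => tendsto_finsetSum _ fun j _ => ?_
        exact (((h2.continuous _ (hseg θ hθ) i j).comp (f := fun θ : ℝ =>
          (1 : Fin N → ℝ) + t • φ + (θ * (σ * t ^ 2)) • φ ^ 2) (by fun_prop)).mul
          continuousAt_const).mul continuousAt_const
      have hb := selection_bound (κ := S) (L := |σ| * t ^ 2 * K)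
        (a := fun D => tri D.1 φ φ (1 + t • φ))
        (b := fun D => σ * t ^ 2 * tri D.1 φ φ (φ ^ 2)) (fun D => ?_) hDc fun θ hθ => ?_
      · have hD0 : D 0 = tri Cr φ φ 1 + t * tri Cr φ φ φ := by
          simp only [D, zero_mul, zero_smul, add_zero, hlt]
          ring
        have hD1 : D 1 = tri Cc φ φ 1 + t * tri Cc φ φ φ + σ * t ^ 2 * tri Cc φ φ (φ ^ 2) := by
          simp only [D, one_mul, hat.hess_sum hCc]
          simp only [tri_add₃, tri_smul₃]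
          ring
        rw [hD0, hD1, (facts Cr hCr haCr).2.2.2.1, (facts Cc hCc haCc).2.2.2.1] at hb
        rw [show -s * vol ν 1 + t * tri Cc φ φ φ + σ * t ^ 2 * tri Cc φ φ (φ ^ 2)
          - (-s * vol ν 1 + t * tri Cr φ φ φ)
          = t * (tri Cc φ φ φ - tri Cr φ φ φ + σ * t * tri Cc φ φ (φ ^ 2)) by ring, abs_mul,
          abs_of_pos ht, show |σ| * t ^ 2 * K = t * (|σ| * t * K) by ring] at hb
        linarith [le_of_mul_le_mul_left hb ht]
      · rw [abs_mul, abs_mul, abs_of_nonneg (sq_nonneg t)]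
        exact mul_le_mul_of_nonneg_left (Finset.single_le_sum (f := fun D => |tri D φ φ (φ ^ 2)|)
          (fun _ _ => abs_nonneg _) D.2) (by positivity)
      · obtain ⟨E, hE, hAE⟩ := hcov _ (hseg θ hθ)
        refine ⟨⟨E, hE⟩, ?_⟩
        simp only [D, hAE.hess_sum (hS E hE), tri_add₃, tri_smul₃]
        ring
    have hlim : Tendsto (fun t : ℝ =>
        |tri Cc φ φ φ - tri Cr φ φ φ + σ * t * tri Cc φ φ (φ ^ 2)| - |σ| * t * K) (𝓝[>] 0)
        (𝓝 |tri Cc φ φ φ - tri Cr φ φ φ|) :=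
      (Continuous.tendsto' (by fun_prop) 0 _ (by simp)).mono_left nhdsWithin_le_nhds
    exact sub_eq_zero.1 (abs_nonpos_iff.1 (le_of_tendsto_of_frequently hlim key))
  -- the first coefficients
  have hc1 : ∀ C C', SymC C → Agrees ν C 1 → SymC C' → Agrees ν C' 1 →
      coef₁ C s φ - coef₁ C' s φ = tri C φ φ φ - tri C' φ φ φ := fun C C' hC ha hC' ha' => by
    obtain ⟨-, -, -, -, -, f, m⟩ := facts C hC ha
    obtain ⟨-, -, -, -, -, f', m'⟩ := facts C' hC' ha'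
    simp only [coef₁, f, f']
    ring
  -- expansions
  obtain ⟨a1, a2, a3, a4, a5, a6, a7⟩ := facts Cc hCc haCc
  obtain ⟨b1, b2, b3, b4, -⟩ := facts Cl hCl haCl
  obtain ⟨Ml, hMlc, -, hMl⟩ := expand hCl (s := s) (σ := 0) (φ := φ) (by rw [b1]; exact hV.ne')
    b2 (b3.trans b1.symm) (by rw [b4, b1])
  obtain ⟨Mc, hMcc, hMc0, hMc⟩ := expand hCc (s := s) (σ := σ) (φ := φ) (by rw [a1]; exact hV.ne')
    a2 (a3.trans a1.symm) (by rw [a4, a1])
  have hleft : 0 ≤ coef₁ Cl s φ := by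
    have hlim : Tendsto (fun t : ℝ => coef₁ Cl s φ + t * Ml t) (𝓝[<] 0) (𝓝 (coef₁ Cl s φ)) := by
      simpa using ((continuousAt_id.mul hMlc).tendsto.mono_left
        (nhdsWithin_le_nhds (s := Iio (0 : ℝ)))).const_add (coef₁ Cl s φ)
    refine ge_of_tendsto_of_frequently hlim ?_
    refine (hfrl.and_eventually ((hMl.filter_mono nhdsWithin_le_nhds).and ((eventually_full h2 hF
      nhdsWithin_le_nhds hlc.continuousAt (by simp)).and self_mem_nhdsWithin))).mono ?_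
    rintro t ⟨hat, hexp, hfull, (ht : t < 0)⟩
    simp only [zero_mul, zero_smul, add_zero] at hexp
    have := Agrees.func_le h1 hν hall hCl hfull hat (φ + (t * (2 * s)) • φ ^ 2)
    rw [hexp, show t * coef₁ Cl s φ + t ^ 2 * Ml t = t * (coef₁ Cl s φ + t * Ml t) by ring] at this
    exact nonneg_of_mul_nonpos_right this ht
  have hc0 : 0 ≤ coef₁ Cc s φ := by
    linarith [hc1 Cc Cl hCc haCc hCl haCl]
  have hright : Mc 0 ≤ 0 := by
    refine le_of_tendsto_of_frequently (hMcc.tendsto.mono_left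
      (nhdsWithin_le_nhds (s := Ioi (0 : ℝ)))) ?_
    refine (hfrc.and_eventually ((hMc.filter_mono nhdsWithin_le_nhds).and ((eventually_full h2 hF
      nhdsWithin_le_nhds hcc.continuousAt (by simp)).and self_mem_nhdsWithin))).mono ?_
    rintro t ⟨hat, hexp, hfull, (ht : 0 < t)⟩
    have := Agrees.func_le h1 hν hall hCc hfull hat (φ + (t * (2 * s)) • φ ^ 2)
    rw [hexp] at this
    have h3 : 0 ≤ t * coef₁ Cc s φ := mul_nonneg ht.le hc0
    exact nonpos_of_mul_nonpos_right (by linarith) (pow_pos ht 2)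
  -- the second coefficient is positive
  set r : Fin N → ℝ := φ ^ 2 - 1
  have hr0 : mean ν r = 0 := by
    have : mean ν r = mean ν (φ ^ 2) - mean ν 1 := by
      simp [mean, r, mul_sub, Finset.sum_sub_distrib]
    rw [this, hm2, haCc.mean_eq, a1, div_self hV.ne', sub_self]
  have hrr : ∀ f : Fin N → ℝ, tri Cc (r ^ 2) 1 1 = tri Cc (φ ^ 4) 1 1 - vol ν 1 := fun _ => by
    have : r ^ 2 = φ ^ 4 + (-2 : ℝ) • φ ^ 2 + 1 := by
      funext i
      simp only [r, Pi.pow_apply, Pi.sub_apply, Pi.one_apply, Pi.add_apply, Pi.smul_apply,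
        smul_eq_mul]
      ring
    rw [this, tri_add₁, tri_add₁, tri_smul₁, a3, a1]
    ring
  have hU : tri Cc (φ ^ 2) (φ ^ 2) 1 - vol ν 1 ≤ -s * (tri Cc (φ ^ 4) 1 1 - vol ν 1) := by
    have h := mul_le_mul_of_nonneg_right (hmax r hr0) hV.le
    rw [← a6, mul_assoc, ← a7, show (fun i => r i ^ 2) = r ^ 2 from rfl, hrr r] at h
    have : tri Cc r r 1 = tri Cc (φ ^ 2) (φ ^ 2) 1 - vol ν 1 := by
      have e : r = φ ^ 2 + (-1 : ℝ) • 1 := by funext i; simp [r]; ring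
      rw [e]
      simp only [tri_add₁, tri_add₂, tri_smul₁, tri_smul₂]
      rw [hCc.swap₁ 1 (φ ^ 2) 1, a3, a1]
      ring
    linarith
  have hM4 : vol ν 1 ≤ tri Cc (φ ^ 4) 1 1 := by
    have : 0 ≤ mean ν (r ^ 2) :=
      Finset.sum_nonneg fun i _ => mul_nonneg (mass_nonneg hV hF i) (sq_nonneg _)
    have h := mul_nonneg this hV.le
    rw [← a7, hrr r] at h
    linarith
  have hN2 : coef₂ Cc s σ φ
      = -6 * s ^ 2 * tri Cc (φ ^ 2) (φ ^ 2) 1
        + s * (1 + 3 * s - 4 * s ^ 2) * tri Cc (φ ^ 4) 1 1 := by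
    have e : tri Cc (φ ^ 3) φ 1 = -s * tri Cc (φ ^ 4) 1 1 := by
      rw [hCc.swap₁, a5, show φ * φ ^ 3 = φ ^ 4 by ring]
    rw [coef₂, e]
    ring
  rw [hMc0, hN2] at hright
  nlinarith [mul_le_mul_of_nonneg_left hU (mul_nonneg (sq_nonneg s) (by norm_num : (0 : ℝ) ≤ 6)),
    mul_le_mul_of_nonneg_left hM4 (show (0 : ℝ) ≤ s * (1 + s) * (1 + 2 * s) by positivity),
    mul_pos (mul_pos (mul_pos hs (show (0 : ℝ) < 1 + s by linarith))
      (show (0 : ℝ) < 1 - 4 * s by linarith)) hV]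

end

end Vale.Agent.P227.Lp
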